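import Mathlib

/-!
# Measure calculus on a monoid

`Ms M = ℝ[M]`: finitely supported signed measures on the monoid `M`, with convolution.
-/

namespace Vale.Agent.P321S

open Finset

/-- Finitely supported signed measures on the monoid `M`. -/
abbrev Ms (M : Type*) := MonoidAlgebra ℝ M

section Defs

variable {M : Type*}

/-- The pairing `∑ w, z(w) f(w)`. -/
noncomputable def pr (z : Ms M) (f : M → ℝ) : ℝ := z.coeff.sum (fun w a => a * f w)

/-- Total mass. -/
noncomputable def mass (z : Ms M) : ℝ := pr z (fun _ => 1)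

/-- All coefficients are nonnegative. -/
def Pos (z : Ms M) : Prop := ∀ w, 0 ≤ z.coeff w

/-- Coefficientwise order `z ≤ z'`. -/
def Dom (z z' : Ms M) : Prop := ∀ w, z.coeff w ≤ z'.coeff w

/-- `N1 ε z`: the `L¹` norm of `z` is at most `ε`. -/
def N1 (ε : ℝ) (z : Ms M) : Prop := ∀ f : M → ℝ, (∀ w, |f w| ≤ 1) → |pr z f| ≤ ε

/-- `Q a z ν`: the `χ²`-energy of `z` relative to `ν` is at most `a`. -/
def Q (a : ℝ) (z ν : Ms M) : Prop := ∀ f : M → ℝ, (pr z f) ^ 2 ≤ a * pr ν (fun w => f w ^ 2)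

end Defs

section Additive

variable {M : Type*}

theorem pr_eq_sum {s : Finset M} {z : Ms M} (h : z.coeff.support ⊆ s) (f : M → ℝ) :
    pr z f = ∑ w ∈ s, z.coeff w * f w :=
  Finsupp.sum_of_support_subset _ h _ (fun _ _ => zero_mul _)

theorem pr_zero (f : M → ℝ) : pr (0 : Ms M) f = 0 := by simp [pr]

theorem pr_single (w : M) (r : ℝ) (f : M → ℝ) : pr (MonoidAlgebra.single w r) f = r * f w := by
  simp [pr]

theorem pr_add (z z' : Ms M) (f : M → ℝ) : pr (z + z') f = pr z f + pr z' f := by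
  classical
  simp only [pr, MonoidAlgebra.coeff_add]
  exact Finsupp.sum_add_index' (by simp) (by intros; ring)

theorem pr_smul (c : ℝ) (z : Ms M) (f : M → ℝ) : pr (c • z) f = c * pr z f := by
  simp only [pr, MonoidAlgebra.coeff_smul]
  rw [Finsupp.sum_smul_index' (by simp), Finsupp.mul_sum]
  congr 1
  funext w a
  simp [mul_assoc]

theorem pr_neg (z : Ms M) (f : M → ℝ) : pr (-z) f = - pr z f := by
  have h : -z = (-1 : ℝ) • z := by simp
  rw [h, pr_smul]; ring

theorem pr_sub (z z' : Ms M) (f : M → ℝ) : pr (z - z') f = pr z f - pr z' f := by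
  rw [sub_eq_add_neg, pr_add, pr_neg]; ring

theorem pr_sum {ι : Type*} (s : Finset ι) (z : ι → Ms M) (f : M → ℝ) :
    pr (∑ i ∈ s, z i) f = ∑ i ∈ s, pr (z i) f := by
  classical
  induction s using Finset.induction_on with
  | empty => simp [pr_zero]
  | insert a s ha ih => rw [Finset.sum_insert ha, Finset.sum_insert ha, pr_add, ih]

theorem pr_add_fun (z : Ms M) (f g : M → ℝ) : pr z (fun w => f w + g w) = pr z f + pr z g := by
  simp only [pr, Finsupp.sum, mul_add, Finset.sum_add_distrib]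

theorem pr_sub_fun (z : Ms M) (f g : M → ℝ) : pr z (fun w => f w - g w) = pr z f - pr z g := by
  simp only [pr, Finsupp.sum, mul_sub, Finset.sum_sub_distrib]

theorem pr_mul_fun (z : Ms M) (c : ℝ) (f : M → ℝ) : pr z (fun w => c * f w) = c * pr z f := by
  simp only [pr, Finsupp.sum, Finset.mul_sum]
  exact Finset.sum_congr rfl (fun w _ => by ring)

theorem pr_zero_fun (z : Ms M) : pr z (fun _ => 0) = 0 := by simp [pr]

theorem pr_const (z : Ms M) (c : ℝ) : pr z (fun _ => c) = c * mass z := by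
  have := pr_mul_fun z c (fun _ => 1)
  simpa [mass] using this

theorem pr_sum_fun {ι : Type*} (s : Finset ι) (z : Ms M) (f : ι → M → ℝ) :
    pr z (fun w => ∑ i ∈ s, f i w) = ∑ i ∈ s, pr z (f i) := by
  classical
  induction s using Finset.induction_on with
  | empty => simp [pr_zero_fun]
  | insert a s ha ih =>
    simp only [Finset.sum_insert ha]
    rw [pr_add_fun, ih]

theorem pr_comm (z z' : Ms M) (F : M → M → ℝ) :
    pr z (fun u => pr z' (fun v => F u v)) = pr z' (fun v => pr z (fun u => F u v)) := by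
  simp only [pr, Finsupp.sum, Finset.mul_sum]
  rw [Finset.sum_comm]
  exact Finset.sum_congr rfl (fun w _ => Finset.sum_congr rfl (fun w' _ => by ring))

theorem Pos.pr_nonneg {z : Ms M} (hz : Pos z) {f : M → ℝ} (hf : ∀ w, 0 ≤ f w) : 0 ≤ pr z f :=
  Finset.sum_nonneg (fun w _ => mul_nonneg (hz w) (hf w))

theorem Pos.pr_mono {z : Ms M} (hz : Pos z) {f g : M → ℝ} (h : ∀ w, f w ≤ g w) :
    pr z f ≤ pr z g :=
  Finset.sum_le_sum (fun w _ => mul_le_mul_of_nonneg_left (h w) (hz w))

theorem coeff_eq_pr (z : Ms M) (w : M) [DecidableEq M] :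
    z.coeff w = pr z (fun v => if v = w then 1 else 0) := by
  simp only [pr, Finsupp.sum, mul_ite, mul_one, mul_zero]
  rw [Finset.sum_ite_eq']
  split_ifs with h
  · rfl
  · simpa using h

theorem pos_of_pr {z : Ms M} (h : ∀ f : M → ℝ, (∀ w, 0 ≤ f w) → 0 ≤ pr z f) : Pos z := by
  classical
  intro w
  rw [coeff_eq_pr]
  apply h
  intro v
  split_ifs <;> norm_num

theorem pos_iff {z : Ms M} : Pos z ↔ ∀ f : M → ℝ, (∀ w, 0 ≤ f w) → 0 ≤ pr z f :=
  ⟨fun h _ hf => h.pr_nonneg hf, pos_of_pr⟩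

theorem pos_zero : Pos (0 : Ms M) := by intro w; simp

theorem Pos.add {z z' : Ms M} (h : Pos z) (h' : Pos z') : Pos (z + z') := by
  intro w
  simpa using add_nonneg (h w) (h' w)

theorem Pos.smul {z : Ms M} (h : Pos z) {c : ℝ} (hc : 0 ≤ c) : Pos (c • z) := by
  intro w
  simpa using mul_nonneg hc (h w)

theorem Pos.sum {ι : Type*} {s : Finset ι} {z : ι → Ms M} (h : ∀ i ∈ s, Pos (z i)) :
    Pos (∑ i ∈ s, z i) := by
  classical
  induction s using Finset.induction_on with
  | empty => simpa using pos_zero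
  | insert a s ha ih =>
    rw [Finset.sum_insert ha]
    exact (h a (by simp)).add (ih (fun i hi => h i (by simp [hi])))

theorem dom_iff_pos {z z' : Ms M} : Dom z z' ↔ Pos (z' - z) := by
  unfold Dom Pos
  constructor
  · intro h w
    have : (z' - z).coeff w = z'.coeff w - z.coeff w := rfl
    rw [this]; linarith [h w]
  · intro h w
    have h1 := h w
    have : (z' - z).coeff w = z'.coeff w - z.coeff w := rfl
    rw [this] at h1; linarith

theorem Dom.pr_le {z z' : Ms M} (h : Dom z z') {f : M → ℝ} (hf : ∀ w, 0 ≤ f w) :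
    pr z f ≤ pr z' f := by
  have h1 := (dom_iff_pos.1 h).pr_nonneg hf
  rw [pr_sub] at h1
  linarith

theorem Dom.refl (z : Ms M) : Dom z z := fun _ => le_rfl

theorem Dom.trans {z z' z'' : Ms M} (h : Dom z z') (h' : Dom z' z'') : Dom z z'' :=
  fun w => (h w).trans (h' w)

theorem Dom.add {z z' y y' : Ms M} (h : Dom z z') (h' : Dom y y') : Dom (z + y) (z' + y') := by
  intro w
  simpa using add_le_add (h w) (h' w)

theorem Dom.smul {z z' : Ms M} (h : Dom z z') {c : ℝ} (hc : 0 ≤ c) : Dom (c • z) (c • z') := by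
  intro w
  simpa using mul_le_mul_of_nonneg_left (h w) hc

theorem Dom.smul_right {z : Ms M} (hz : Pos z) {c d : ℝ} (h : c ≤ d) : Dom (c • z) (d • z) := by
  intro w
  simpa using mul_le_mul_of_nonneg_right h (hz w)

theorem Dom.pos {z z' : Ms M} (hz : Pos z) (h : Dom z z') : Pos z' :=
  fun w => (hz w).trans (h w)

theorem Dom.self_add {z y : Ms M} (hy : Pos y) : Dom z (z + y) := by
  intro w
  simpa using hy w

theorem mass_zero : mass (0 : Ms M) = 0 := pr_zero _

theorem mass_add (z z' : Ms M) : mass (z + z') = mass z + mass z' := pr_add _ _ _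

theorem mass_sub (z z' : Ms M) : mass (z - z') = mass z - mass z' := pr_sub _ _ _

theorem mass_neg (z : Ms M) : mass (-z) = - mass z := pr_neg _ _

theorem mass_smul (c : ℝ) (z : Ms M) : mass (c • z) = c * mass z := pr_smul _ _ _

theorem mass_sum {ι : Type*} (s : Finset ι) (z : ι → Ms M) :
    mass (∑ i ∈ s, z i) = ∑ i ∈ s, mass (z i) := pr_sum _ _ _

theorem mass_single (w : M) (r : ℝ) : mass (MonoidAlgebra.single w r) = r := by
  simp [mass, pr_single]

theorem Pos.mass_nonneg {z : Ms M} (hz : Pos z) : 0 ≤ mass z :=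
  hz.pr_nonneg (fun _ => zero_le_one)

theorem Dom.mass_le {z z' : Ms M} (h : Dom z z') : mass z ≤ mass z' :=
  h.pr_le (fun _ => zero_le_one)

/-! ### `N1` -/

theorem N1.mono {ε ε' : ℝ} {z : Ms M} (h : N1 ε z) (hle : ε ≤ ε') : N1 ε' z :=
  fun f hf => (h f hf).trans hle

theorem N1.nonneg {ε : ℝ} {z : Ms M} (h : N1 ε z) : 0 ≤ ε := by
  have := h (fun _ => 0) (by simp)
  exact (abs_nonneg _).trans this

theorem N1.zero : N1 0 (0 : Ms M) := by
  intro f _
  simp [pr_zero]

theorem N1.add {ε ε' : ℝ} {z z' : Ms M} (h : N1 ε z) (h' : N1 ε' z') : N1 (ε + ε') (z + z') := by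
  intro f hf
  rw [pr_add]
  exact (abs_add_le _ _).trans (add_le_add (h f hf) (h' f hf))

theorem N1.neg {ε : ℝ} {z : Ms M} (h : N1 ε z) : N1 ε (-z) := by
  intro f hf
  rw [pr_neg, abs_neg]
  exact h f hf

theorem N1.sub {ε ε' : ℝ} {z z' : Ms M} (h : N1 ε z) (h' : N1 ε' z') : N1 (ε + ε') (z - z') := by
  rw [sub_eq_add_neg]
  exact h.add h'.neg

theorem N1.symm {ε : ℝ} {z z' : Ms M} (h : N1 ε (z - z')) : N1 ε (z' - z) := by
  have := h.neg
  rwa [neg_sub] at this

theorem N1.trans {ε ε' : ℝ} {z z' z'' : Ms M} (h : N1 ε (z - z')) (h' : N1 ε' (z' - z'')) :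
    N1 (ε + ε') (z - z'') := by
  have := h.add h'
  rwa [sub_add_sub_cancel] at this

theorem N1.smul {ε : ℝ} {z : Ms M} (h : N1 ε z) (c : ℝ) : N1 (|c| * ε) (c • z) := by
  intro f hf
  rw [pr_smul, abs_mul]
  exact mul_le_mul_of_nonneg_left (h f hf) (abs_nonneg _)

theorem N1.sum {ι : Type*} {s : Finset ι} {ε : ι → ℝ} {z : ι → Ms M}
    (h : ∀ i ∈ s, N1 (ε i) (z i)) : N1 (∑ i ∈ s, ε i) (∑ i ∈ s, z i) := by
  classical
  induction s using Finset.induction_on with
  | empty => simpa using N1.zero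
  | insert a s ha ih =>
    rw [Finset.sum_insert ha, Finset.sum_insert ha]
    exact (h a (by simp)).add (ih (fun i hi => h i (by simp [hi])))

theorem Pos.n1 {z : Ms M} (hz : Pos z) : N1 (mass z) z := by
  intro f hf
  rw [abs_le]
  constructor
  · have h1 : pr z (fun w => (-1) * (1:ℝ)) ≤ pr z f :=
      hz.pr_mono (fun w => by have := (abs_le.1 (hf w)).1; linarith)
    rw [pr_mul_fun] at h1
    unfold mass
    linarith
  · exact hz.pr_mono (fun w => (abs_le.1 (hf w)).2)

/-! ### `Q` -/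

theorem Q.nonneg_right {a : ℝ} {z ν : Ms M} (_ : Q a z ν) (hν : Pos ν) (f : M → ℝ) :
    0 ≤ pr ν (fun w => f w ^ 2) := hν.pr_nonneg (fun _ => sq_nonneg _)

theorem Q.mono {a b : ℝ} {z ν : Ms M} (h : Q a z ν) (hν : Pos ν) (hab : a ≤ b) : Q b z ν :=
  fun f => (h f).trans (mul_le_mul_of_nonneg_right hab (hν.pr_nonneg (fun _ => sq_nonneg _)))

theorem Q.zero {a : ℝ} (ha : 0 ≤ a) {ν : Ms M} (hν : Pos ν) : Q a 0 ν := by
  intro f
  rw [pr_zero]
  have := hν.pr_nonneg (f := fun w => f w ^ 2) (fun _ => sq_nonneg _)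
  have := mul_nonneg ha this
  simpa using this

/-- change of the reference measure -/
theorem Q.dom {a : ℝ} {z ν ν' : Ms M} (h : Q a z ν) (ha : 0 ≤ a) (hd : Dom ν ν') : Q a z ν' :=
  fun f => (h f).trans (mul_le_mul_of_nonneg_left (hd.pr_le (fun _ => sq_nonneg _)) ha)

theorem Q.smul_right {a c : ℝ} {z ν : Ms M} (h : Q a z ν) (hc : 0 < c) : Q (a / c) z (c • ν) := by
  intro f
  rw [pr_smul]
  have : a / c * (c * pr ν fun w => f w ^ 2) = a * pr ν fun w => f w ^ 2 := by
    field_simp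
  rw [this]
  exact h f

/-- change of the reference measure, `ν ≤ C ν'` -/
theorem Q.dom_smul {a C : ℝ} {z ν ν' : Ms M} (h : Q a z ν) (ha : 0 ≤ a)
    (hd : Dom ν (C • ν')) : Q (C * a) z ν' := by
  intro f
  have h1 := (h.dom ha hd) f
  rw [pr_smul] at h1
  calc _ ≤ _ := h1
    _ = _ := by ring

theorem Q.smul_left {a : ℝ} {z ν : Ms M} (h : Q a z ν) (c : ℝ) : Q (c ^ 2 * a) (c • z) ν := by
  intro f
  rw [pr_smul, mul_pow, mul_assoc]
  exact mul_le_mul_of_nonneg_left (h f) (sq_nonneg _)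

theorem Q.smul_both {a c : ℝ} {z ν : Ms M} (h : Q a z ν) :
    Q (c * a) (c • z) (c • ν) := by
  intro f
  rw [pr_smul, pr_smul, mul_pow]
  have := mul_le_mul_of_nonneg_left (h f) (sq_nonneg c)
  calc _ ≤ _ := this
    _ = _ := by ring

theorem Q.neg {a : ℝ} {z ν : Ms M} (h : Q a z ν) : Q a (-z) ν := by
  intro f
  rw [pr_neg, neg_sq]
  exact h f

/-- triangle inequality for `√(energy)` -/
theorem Q.add {a b : ℝ} {z z' ν : Ms M} (h : Q a z ν) (h' : Q b z' ν) (hν : Pos ν)
    (ha : 0 ≤ a) (hb : 0 ≤ b) : Q ((√a + √b) ^ 2) (z + z') ν := by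
  intro f
  set P := pr ν (fun w => f w ^ 2) with hP
  have hP0 : 0 ≤ P := hν.pr_nonneg (fun _ => sq_nonneg _)
  have h1 : |pr z f| ≤ √a * √P := by
    rw [← Real.sqrt_mul ha]
    exact Real.abs_le_sqrt (h f)
  have h2 : |pr z' f| ≤ √b * √P := by
    rw [← Real.sqrt_mul hb]
    exact Real.abs_le_sqrt (h' f)
  have h3 : |pr (z + z') f| ≤ (√a + √b) * √P := by
    rw [pr_add, add_mul]
    exact (abs_add_le _ _).trans (add_le_add h1 h2)
  calc (pr (z + z') f) ^ 2 = |pr (z + z') f| ^ 2 := (sq_abs _).symm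
    _ ≤ ((√a + √b) * √P) ^ 2 := pow_le_pow_left₀ (abs_nonneg _) h3 2
    _ = (√a + √b) ^ 2 * P := by rw [mul_pow, Real.sq_sqrt hP0]

theorem sq_sqrt_add_le {a b : ℝ} (ha : 0 ≤ a) (hb : 0 ≤ b) : (√a + √b) ^ 2 ≤ 2 * a + 2 * b := by
  have h1 := Real.sq_sqrt ha
  have h2 := Real.sq_sqrt hb
  nlinarith [sq_nonneg (√a - √b)]

theorem Q.add' {a b : ℝ} {z z' ν : Ms M} (h : Q a z ν) (h' : Q b z' ν) (hν : Pos ν)
    (ha : 0 ≤ a) (hb : 0 ≤ b) : Q (2 * a + 2 * b) (z + z') ν :=
  (h.add h' hν ha hb).mono hν (sq_sqrt_add_le ha hb)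

theorem Q.sub' {a b : ℝ} {z z' ν : Ms M} (h : Q a z ν) (h' : Q b z' ν) (hν : Pos ν)
    (ha : 0 ≤ a) (hb : 0 ≤ b) : Q (2 * a + 2 * b) (z - z') ν := by
  rw [sub_eq_add_neg]
  exact h.add' h'.neg hν ha hb

/-- Weighted Cauchy–Schwarz for sums: `∑ w_i z_i` with `Q a z_i ν` has energy `(∑ |w_i|)² a`. -/
theorem Q.wsum {ι : Type*} {s : Finset ι} {a : ℝ} {c : ι → ℝ} {z : ι → Ms M} {ν : Ms M}
    (hν : Pos ν) (ha : 0 ≤ a) (h : ∀ i ∈ s, Q a (z i) ν) :
    Q ((∑ i ∈ s, |c i|) ^ 2 * a) (∑ i ∈ s, c i • z i) ν := by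
  intro f
  set P := pr ν (fun w => f w ^ 2) with hP
  have hP0 : 0 ≤ P := hν.pr_nonneg (fun _ => sq_nonneg _)
  have h1 : |pr (∑ i ∈ s, c i • z i) f| ≤ (∑ i ∈ s, |c i|) * √(a * P) := by
    rw [pr_sum, Finset.sum_mul]
    refine (Finset.abs_sum_le_sum_abs _ _).trans (Finset.sum_le_sum (fun i hi => ?_))
    rw [pr_smul, abs_mul]
    exact mul_le_mul_of_nonneg_left (Real.abs_le_sqrt (h i hi f)) (abs_nonneg _)
  calc (pr (∑ i ∈ s, c i • z i) f) ^ 2 = |pr (∑ i ∈ s, c i • z i) f| ^ 2 := (sq_abs _).symm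
    _ ≤ ((∑ i ∈ s, |c i|) * √(a * P)) ^ 2 := pow_le_pow_left₀ (abs_nonneg _) h1 2
    _ = (∑ i ∈ s, |c i|) ^ 2 * a * P := by
      rw [mul_pow, Real.sq_sqrt (mul_nonneg ha hP0)]; ring

/-- mixtures -/
theorem Q.mix {a b : ℝ} {z z' ν ν' : Ms M} (h : Q a z ν) (h' : Q b z' ν') (hν : Pos ν)
    (hν' : Pos ν') (ha : 0 ≤ a) (hb : 0 ≤ b) : Q (a + b) (z + z') (ν + ν') := by
  intro f
  rw [pr_add, pr_add]
  set P := pr ν (fun w => f w ^ 2) with hP
  set P' := pr ν' (fun w => f w ^ 2) with hP'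
  have hP0 : 0 ≤ P := hν.pr_nonneg (fun _ => sq_nonneg _)
  have hP0' : 0 ≤ P' := hν'.pr_nonneg (fun _ => sq_nonneg _)
  have h1 := h f
  have h2 := h' f
  have h3 : |pr z f| ≤ √a * √P := by
    rw [← Real.sqrt_mul ha]
    exact Real.abs_le_sqrt h1
  have h4 : |pr z' f| ≤ √b * √P' := by
    rw [← Real.sqrt_mul hb]
    exact Real.abs_le_sqrt h2
  have h5 : |pr z f + pr z' f| ≤ √a * √P + √b * √P' :=
    (abs_add_le _ _).trans (add_le_add h3 h4)
  calc (pr z f + pr z' f) ^ 2 = |pr z f + pr z' f| ^ 2 := (sq_abs _).symm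
    _ ≤ (√a * √P + √b * √P') ^ 2 := pow_le_pow_left₀ (abs_nonneg _) h5 2
    _ ≤ (√a ^ 2 + √b ^ 2) * (√P ^ 2 + √P' ^ 2) := by
        nlinarith [sq_nonneg (√a * √P' - √b * √P)]
    _ = (a + b) * (P + P') := by
        rw [Real.sq_sqrt ha, Real.sq_sqrt hb, Real.sq_sqrt hP0, Real.sq_sqrt hP0']

/-- Cauchy–Schwarz: a positive measure relative to itself. -/
theorem Pos.q_self {ν : Ms M} (hν : Pos ν) : Q (mass ν) ν ν := by
  intro f
  unfold mass pr Finsupp.sum
  have := Finset.sum_mul_sq_le_sq_mul_sq ν.coeff.support (fun w => √(ν.coeff w))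
    (fun w => √(ν.coeff w) * f w)
  calc (∑ w ∈ ν.coeff.support, ν.coeff w * f w) ^ 2
      = (∑ w ∈ ν.coeff.support, √(ν.coeff w) * (√(ν.coeff w) * f w)) ^ 2 := by
        congr 1
        apply Finset.sum_congr rfl
        intro w _
        rw [← mul_assoc, Real.mul_self_sqrt (hν w)]
    _ ≤ _ := this
    _ = _ := by
      congr 1
      · apply Finset.sum_congr rfl
        intro w _
        simp only [mul_one]
        exact Real.sq_sqrt (hν w)
      · apply Finset.sum_congr rfl
        intro w _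
        rw [mul_pow, Real.sq_sqrt (hν w)]

/-- if `0 ≤ z ≤ ν` then `Q (mass z) z ν` -/
theorem Pos.q_dom {z ν : Ms M} (hz : Pos z) (h : Dom z ν) : Q (mass z) z ν :=
  hz.q_self.dom hz.mass_nonneg h

theorem Q.n1 {a : ℝ} {z ν : Ms M} (h : Q a z ν) (hν : Pos ν) (hm : mass ν ≤ 1) (ha : 0 ≤ a) :
    N1 (√a) z := by
  intro f hf
  apply Real.abs_le_sqrt
  refine (h f).trans ?_
  have h1 : pr ν (fun w => f w ^ 2) ≤ mass ν :=
    hν.pr_mono (fun w => by
      have := hf w
      rw [← sq_abs]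
      exact pow_le_one₀ (abs_nonneg _) this)
  calc a * pr ν (fun w => f w ^ 2) ≤ a * 1 := mul_le_mul_of_nonneg_left (h1.trans hm) ha
    _ = a := mul_one a

end Additive

section Mult

variable {M : Type*} [Monoid M]

theorem pr_one (f : M → ℝ) : pr (1 : Ms M) f = f 1 := by
  rw [MonoidAlgebra.one_def, pr_single, one_mul]

theorem pr_mul (z z' : Ms M) (f : M → ℝ) :
    pr (z * z') f = pr z (fun u => pr z' (fun v => f (u * v))) := by
  induction z using MonoidAlgebra.induction_linear with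
  | zero => simp [pr_zero]
  | add x y hx hy => rw [add_mul, pr_add, pr_add, hx, hy]
  | single m r =>
    induction z' using MonoidAlgebra.induction_linear with
    | zero => simp [pr_zero, pr_zero_fun]
    | add x y hx hy =>
      rw [mul_add, pr_add, hx, hy]
      simp only [pr_add]
      rw [pr_add_fun]
    | single m' r' =>
      rw [MonoidAlgebra.single_mul_single, pr_single, pr_single, pr_single]
      ring

theorem mass_one : mass (1 : Ms M) = 1 := by rw [mass, pr_one]

theorem mass_mul (z z' : Ms M) : mass (z * z') = mass z * mass z' := by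
  unfold mass
  rw [pr_mul, pr_const]
  unfold mass
  ring

theorem mass_pow (z : Ms M) (n : ℕ) : mass (z ^ n) = mass z ^ n := by
  induction n with
  | zero => simp [mass_one]
  | succ n ih => rw [pow_succ, pow_succ, mass_mul, ih]

theorem pos_one : Pos (1 : Ms M) := by
  apply pos_of_pr
  intro f hf
  rw [pr_one]
  exact hf 1

theorem Pos.mul {z z' : Ms M} (h : Pos z) (h' : Pos z') : Pos (z * z') := by
  apply pos_of_pr
  intro f hf
  rw [pr_mul]
  exact h.pr_nonneg (fun u => h'.pr_nonneg (fun v => hf _))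

theorem Pos.pow {z : Ms M} (h : Pos z) (n : ℕ) : Pos (z ^ n) := by
  induction n with
  | zero => simpa using pos_one
  | succ n ih => rw [pow_succ]; exact ih.mul h

theorem Dom.mul_left {z z' y : Ms M} (h : Dom z z') (hy : Pos y) : Dom (y * z) (y * z') := by
  rw [dom_iff_pos] at h ⊢
  rw [← mul_sub]
  exact hy.mul h

theorem Dom.mul_right {z z' y : Ms M} (h : Dom z z') (hy : Pos y) : Dom (z * y) (z' * y) := by
  rw [dom_iff_pos] at h ⊢
  rw [← sub_mul]
  exact h.mul hy

theorem Dom.mul {z z' y y' : Ms M} (h : Dom z z') (h' : Dom y y') (hz' : Pos z') (hy : Pos y) :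
    Dom (z * y) (z' * y') :=
  (h.mul_right hy).trans (h'.mul_left hz')

theorem Dom.pow {z z' : Ms M} (h : Dom z z') (hz : Pos z) (hz' : Pos z') (n : ℕ) :
    Dom (z ^ n) (z' ^ n) := by
  induction n with
  | zero => simpa using Dom.refl _
  | succ n ih =>
    rw [pow_succ, pow_succ]
    exact ih.mul h (hz'.pow n) hz

theorem N1.mul {ε ε' : ℝ} {z z' : Ms M} (h : N1 ε z) (h' : N1 ε' z') : N1 (ε * ε') (z * z') := by
  intro f hf
  rw [pr_mul]
  have hε' := h'.nonneg
  rcases hε'.eq_or_lt with he | he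
  · have : (fun u => pr z' (fun v => f (u * v))) = fun _ => 0 := by
      funext u
      have := h' (fun v => f (u * v)) (fun v => hf _)
      rw [← he] at this
      exact abs_nonpos_iff.1 this
    rw [this, pr_zero_fun, ← he]
    simp
  · have h1 := h (fun u => ε'⁻¹ * pr z' (fun v => f (u * v))) (fun u => by
      rw [abs_mul, abs_of_pos (inv_pos.2 he)]
      have := h' (fun v => f (u * v)) (fun v => hf _)
      calc ε'⁻¹ * |pr z' (fun v => f (u * v))| ≤ ε'⁻¹ * ε' :=
            mul_le_mul_of_nonneg_left this (inv_pos.2 he).le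
        _ = 1 := inv_mul_cancel₀ he.ne')
    rw [pr_mul_fun, abs_mul, abs_of_pos (inv_pos.2 he)] at h1
    calc |pr z (fun u => pr z' (fun v => f (u * v)))|
        = ε' * (ε'⁻¹ * |pr z (fun u => pr z' (fun v => f (u * v)))|) := by
          field_simp
      _ ≤ ε' * ε := mul_le_mul_of_nonneg_left h1 he.le
      _ = ε * ε' := mul_comm _ _

theorem N1.one : N1 1 (1 : Ms M) := by
  have := (pos_one (M := M)).n1
  rwa [mass_one] at this

theorem Q.mul {a b : ℝ} {z z' ν ν' : Ms M} (h : Q a z ν) (h' : Q b z' ν') (hν : Pos ν)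
    (ha : 0 ≤ a) : Q (a * b) (z * z') (ν * ν') := by
  intro f
  rw [pr_mul, pr_mul]
  refine (h _).trans ?_
  rw [mul_assoc]
  refine mul_le_mul_of_nonneg_left ?_ ha
  rw [← pr_mul_fun]
  exact hν.pr_mono (fun u => h' _)

theorem Q.one : Q 1 (1 : Ms M) 1 := by
  have := (pos_one (M := M)).q_self
  rwa [mass_one] at this

/-- powers of a probability measure relative to itself -/
theorem q_pow {t : Ms M} (ht : Pos t) (hm : mass t = 1) (n : ℕ) : Q 1 (t ^ n) (t ^ n) := by
  have := (ht.pow n).q_self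
  rwa [mass_pow, hm, one_pow] at this

/-- sandwich by positive measures -/
theorem Q.sandwich {a : ℝ} {z ν x y : Ms M} (h : Q a z ν) (ha : 0 ≤ a) (hν : Pos ν)
    (hx : Pos x) (hy : Pos y) : Q (mass x * mass y * a) (x * z * y) (x * ν * y) := by
  have h1 := (hx.q_self.mul h hx hx.mass_nonneg).mul hy.q_self (hx.mul hν)
    (mul_nonneg hx.mass_nonneg ha)
  have : mass x * a * mass y = mass x * mass y * a := by ring
  rwa [this] at h1

/-- (A9) orthogonality: the key two-step Pythagoras inequality. -/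
theorem Q.orth {g a b : ℝ} {t z X Y ν : Ms M} (ht : Pos t) (hm : mass t = 1) (hν : Pos ν)
    (hz0 : mass z = 0) (hz : Q g z t) (hX : Q a X ν) (hY : Q b Y ν)
    (hg : 0 ≤ g) (ha : 0 ≤ a) (hb : 0 ≤ b) : Q (a + g * b) (t * X + z * Y) (t * ν) := by
  intro f
  set Fb : M → ℝ := fun w => pr t (fun u => f (u * w)) with hFb
  have hA : pr (t * X) f = pr X Fb := by
    rw [pr_mul, pr_comm]
  have hB : pr (z * Y) f = pr z (fun u => pr Y (fun w => f (u * w) - Fb w)) := by
    rw [pr_mul]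
    have : (fun u => pr Y (fun w => f (u * w) - Fb w)) =
        fun u => pr Y (fun w => f (u * w)) - pr Y Fb := by
      funext u
      rw [pr_sub_fun]
    rw [this, pr_sub_fun, pr_const, hz0]
    ring
  set A := pr ν (fun w => Fb w ^ 2) with hAdef
  set B := pr t (fun u => pr ν (fun w => (f (u * w) - Fb w) ^ 2)) with hBdef
  have hA0 : 0 ≤ A := hν.pr_nonneg (fun _ => sq_nonneg _)
  have hB0 : 0 ≤ B := ht.pr_nonneg (fun _ => hν.pr_nonneg (fun _ => sq_nonneg _))
  have h1 : (pr (t * X) f) ^ 2 ≤ a * A := by rw [hA]; exact hX _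
  have h2 : (pr (z * Y) f) ^ 2 ≤ g * b * B := by
    rw [hB]
    refine (hz _).trans ?_
    rw [mul_assoc]
    refine mul_le_mul_of_nonneg_left ?_ hg
    rw [hBdef, ← pr_mul_fun]
    exact ht.pr_mono (fun u => hY _)
  have h3 : pr (t * ν) (fun w => f w ^ 2) = A + B := by
    rw [pr_mul, pr_comm, hAdef, hBdef, pr_comm t ν, ← pr_add_fun]
    congr 1
    funext w
    have h4 : pr t (fun u => (f (u * w) - Fb w) ^ 2) =
        pr t (fun u => f (u * w) ^ 2) - Fb w ^ 2 := by
      have e1 : (fun u => (f (u * w) - Fb w) ^ 2) =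
          fun u => (f (u * w) ^ 2 - (2 * Fb w) * f (u * w)) + Fb w ^ 2 := by
        funext u; ring
      rw [e1, pr_add_fun, pr_sub_fun, pr_mul_fun, pr_const, hm]
      have e2 : pr t (fun u => f (u * w)) = Fb w := rfl
      rw [e2]; ring
    rw [h4]; ring
  rw [h3, pr_add]
  have h5 : |pr (t * X) f| ≤ √a * √A := by
    rw [← Real.sqrt_mul ha]; exact Real.abs_le_sqrt h1
  have h6 : |pr (z * Y) f| ≤ √(g * b) * √B := by
    rw [← Real.sqrt_mul (mul_nonneg hg hb)]; exact Real.abs_le_sqrt h2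
  have h7 : |pr (t * X) f + pr (z * Y) f| ≤ √a * √A + √(g * b) * √B :=
    (abs_add_le _ _).trans (add_le_add h5 h6)
  calc (pr (t * X) f + pr (z * Y) f) ^ 2 = |pr (t * X) f + pr (z * Y) f| ^ 2 := (sq_abs _).symm
    _ ≤ (√a * √A + √(g * b) * √B) ^ 2 := pow_le_pow_left₀ (abs_nonneg _) h7 2
    _ ≤ (√a ^ 2 + √(g * b) ^ 2) * (√A ^ 2 + √B ^ 2) := by
        nlinarith [sq_nonneg (√a * √B - √(g * b) * √A)]
    _ = (a + g * b) * (A + B) := by
        rw [Real.sq_sqrt ha, Real.sq_sqrt (mul_nonneg hg hb), Real.sq_sqrt hA0, Real.sq_sqrt hB0]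

end Mult

section Overlap

variable {M : Type*}

/-- (A10) overlap of two probability measures. -/
theorem exists_overlap {a b : Ms M} {c : ℝ} (ha : Pos a) (hb : Pos b) (hma : mass a = 1)
    (hmb : mass b = 1) (hc0 : 0 ≤ c) (h : N1 (2 * (1 - c)) (a - b)) :
    ∃ U : Ms M, Pos U ∧ Dom U a ∧ Dom U b ∧ mass U = c := by
  classical
  -- the pointwise minimum
  set W : Ms M := MonoidAlgebra.ofCoeff (Finsupp.zipWith min (by simp) a.coeff b.coeff) with hW
  have hWc : ∀ w, W.coeff w = min (a.coeff w) (b.coeff w) := fun w => rfl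
  have hWpos : Pos W := fun w => by rw [hWc]; exact le_min (ha w) (hb w)
  have hWa : Dom W a := fun w => by rw [hWc]; exact min_le_left _ _
  have hWb : Dom W b := fun w => by rw [hWc]; exact min_le_right _ _
  have hmass : c ≤ mass W := by
    set f : M → ℝ := fun w => if a.coeff w ≤ b.coeff w then -1 else 1 with hf
    have h1 := h f (fun w => by simp only [hf]; split_ifs <;> simp)
    have h2 : pr (a - b) f = pr (a + b - (2:ℝ) • W) (fun _ => 1) := by
      have hs1 : (a - b).coeff.support ⊆ a.coeff.support ∪ b.coeff.support := by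
        intro w hw
        rw [Finsupp.mem_support_iff] at hw
        rw [Finset.mem_union, Finsupp.mem_support_iff, Finsupp.mem_support_iff]
        by_contra hcon
        push Not at hcon
        apply hw
        have : (a - b).coeff w = a.coeff w - b.coeff w := rfl
        rw [this, hcon.1, hcon.2, sub_zero]
      have hs2 : (a + b - (2:ℝ) • W).coeff.support ⊆ a.coeff.support ∪ b.coeff.support := by
        intro w hw
        rw [Finsupp.mem_support_iff] at hw
        rw [Finset.mem_union, Finsupp.mem_support_iff, Finsupp.mem_support_iff]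
        by_contra hcon
        push Not at hcon
        apply hw
        have : (a + b - (2:ℝ) • W).coeff w = a.coeff w + b.coeff w - 2 * W.coeff w := rfl
        rw [this, hWc, hcon.1, hcon.2]
        simp
      rw [pr_eq_sum hs1, pr_eq_sum hs2]
      apply Finset.sum_congr rfl
      intro w _
      have e1 : (a - b).coeff w = a.coeff w - b.coeff w := rfl
      have e2 : (a + b - (2:ℝ) • W).coeff w = a.coeff w + b.coeff w - 2 * W.coeff w := rfl
      rw [e1, e2, hWc]
      simp only [hf]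
      split_ifs with hle
      · rw [min_eq_left hle]; ring
      · rw [min_eq_right (not_le.1 hle).le]; ring
    rw [h2] at h1
    have h3 : pr (a + b - (2:ℝ) • W) (fun _ => 1) = 2 - 2 * mass W := by
      rw [pr_sub, pr_add, pr_smul]
      have := hma
      have := hmb
      unfold mass at *
      linarith
    rw [h3] at h1
    have := (abs_le.1 h1).2
    linarith
  rcases hc0.eq_or_lt with h0 | h0
  · exact ⟨0, pos_zero, fun w => by simpa using ha w, fun w => by simpa using hb w,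
      by rw [mass_zero, h0]⟩
  · have hWm : 0 < mass W := lt_of_lt_of_le h0 hmass
    have hle : c / mass W ≤ 1 := (div_le_one hWm).2 hmass
    have hd : Dom ((c / mass W) • W) W := by
      have := Dom.smul_right hWpos hle
      rwa [one_smul] at this
    refine ⟨(c / mass W) • W, hWpos.smul (by positivity), hd.trans hWa, hd.trans hWb, ?_⟩
    rw [mass_smul]
    field_simp

end Overlap

end Vale.Agent.P321S
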