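import Vale.Agent.Lib.P321S.Smear

/-! Module BINOM (section 2 of docs P321). -/

namespace Vale.Agent.P321S

open Finset

namespace BinomAux

/-- `C(2D,D)/4^D` -/
noncomputable def cbr (D : ℕ) : ℝ := (Nat.centralBinom D : ℝ) / 4 ^ D

theorem cbr_nonneg (D : ℕ) : 0 ≤ cbr D := by unfold cbr; positivity

theorem cbr_succ (D : ℕ) : cbr (D + 1) = cbr D * ((2 * D + 1) / (2 * D + 2)) := by
  have h := Nat.succ_mul_centralBinom_succ D
  have h' : ((D : ℝ) + 1) * (Nat.centralBinom (D + 1) : ℝ) =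
      2 * (2 * D + 1) * (Nat.centralBinom D : ℝ) := by exact_mod_cast h
  unfold cbr
  rw [pow_succ]
  have h4 : (4 : ℝ) ^ D ≠ 0 := by positivity
  have hD : (2 * (D : ℝ) + 2) ≠ 0 := by positivity
  field_simp
  linarith

theorem cbr_sq_le (D : ℕ) : cbr D ^ 2 * (D + 1) ≤ 1 := by
  induction D with
  | zero => simp [cbr]
  | succ D ih =>
    rw [cbr_succ]
    have hD : (0 : ℝ) ≤ D := Nat.cast_nonneg D
    have h1 : (cbr D * ((2 * D + 1) / (2 * D + 2))) ^ 2 * (((D + 1 : ℕ) : ℝ) + 1) =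
        (cbr D ^ 2 * (D + 1)) * (((2 * D + 1) ^ 2 * (D + 2)) / (4 * (D + 1) ^ 3)) := by
      push_cast
      field_simp
      ring
    rw [h1]
    have h2 : ((2 * (D : ℝ) + 1) ^ 2 * (D + 2)) / (4 * (D + 1) ^ 3) ≤ 1 := by
      rw [div_le_one (by positivity)]
      nlinarith
    have h3 : 0 ≤ ((2 * (D : ℝ) + 1) ^ 2 * (D + 2)) / (4 * (D + 1) ^ 3) := by positivity
    have h4 : 0 ≤ cbr D ^ 2 * (D + 1) := by positivity
    nlinarith

theorem cbr_sq_le' (D : ℕ) : cbr D ^ 2 * (2 * D + 1) ≤ 1 := by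
  induction D with
  | zero => simp [cbr]
  | succ D ih =>
    rw [cbr_succ]
    have hD : (0 : ℝ) ≤ D := Nat.cast_nonneg D
    have h1 : (cbr D * ((2 * D + 1) / (2 * D + 2))) ^ 2 * (2 * ((D + 1 : ℕ) : ℝ) + 1) =
        (cbr D ^ 2 * (2 * D + 1)) * (((2 * D + 1) * (2 * D + 3)) / (2 * D + 2) ^ 2) := by
      push_cast
      field_simp
      ring
    rw [h1]
    have h2 : ((2 * (D : ℝ) + 1) * (2 * D + 3)) / (2 * D + 2) ^ 2 ≤ 1 := by
      rw [div_le_one (by positivity)]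
      nlinarith
    have h3 : 0 ≤ ((2 * (D : ℝ) + 1) * (2 * D + 3)) / (2 * D + 2) ^ 2 := by positivity
    have h4 : 0 ≤ cbr D ^ 2 * (2 * D + 1) := by positivity
    nlinarith

theorem le_inv_sqrt {x y : ℝ} (hx : 0 ≤ x) (hy : 0 < y) (h : x ^ 2 * y ≤ 1) : x ≤ 1 / √y := by
  have hs : 0 < √y := Real.sqrt_pos.2 hy
  rw [le_div_iff₀ hs]
  have h2 : (x * √y) ^ 2 ≤ 1 := by rw [mul_pow, Real.sq_sqrt hy.le]; exact h
  have h3 : 0 ≤ x * √y := by positivity
  nlinarith

theorem cbr_le (D : ℕ) : cbr D ≤ 1 / √(D + 1) :=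
  le_inv_sqrt (cbr_nonneg D) (by positivity) (cbr_sq_le D)

theorem cbr_le' (D : ℕ) : cbr D ≤ 1 / √(2 * D + 1) :=
  le_inv_sqrt (cbr_nonneg D) (by positivity) (cbr_sq_le' D)

theorem sum_sq (D : ℕ) : ∑ i ∈ range (D + 1), ((D.choose i : ℝ)) ^ 2 = Nat.centralBinom D := by
  rw [Nat.centralBinom_eq_two_mul_choose]
  exact_mod_cast Nat.sum_range_choose_sq D

theorem middle_le (D : ℕ) : (D.choose (D / 2) : ℝ) / 2 ^ D ≤ 1 / √(D + 1) := by
  rcases Nat.even_or_odd' D with ⟨k, hk | hk⟩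
  · subst hk
    have e : 2 * k / 2 = k := by omega
    rw [e, ← Nat.centralBinom_eq_two_mul_choose]
    have h := cbr_le' k
    unfold cbr at h
    have e2 : (2 : ℝ) ^ (2 * k) = 4 ^ k := by rw [pow_mul]; norm_num
    rw [e2]
    push_cast
    exact h
  · subst hk
    have e : (2 * k + 1) / 2 = k := by omega
    rw [e]
    have h := cbr_le' (k + 1)
    unfold cbr at h
    have e1 : Nat.centralBinom (k + 1) = 2 * (2 * k + 1).choose k := by
      rw [Nat.centralBinom_eq_two_mul_choose]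
      have : 2 * (k + 1) = (2 * k + 1) + 1 := by ring
      rw [this, Nat.choose_succ_succ, Nat.choose_symm_half]
      ring
    rw [e1] at h
    have e2 : ((2 * (2 * k + 1).choose k : ℕ) : ℝ) / 4 ^ (k + 1) =
        ((2 * k + 1).choose k : ℝ) / 2 ^ (2 * k + 1) := by
      have : (4 : ℝ) ^ (k + 1) = 2 * 2 ^ (2 * k + 1) := by
        rw [show (4 : ℝ) = 2 ^ 2 by norm_num, ← pow_mul, ← pow_succ']
        congr 1
      rw [this]
      push_cast
      field_simp
    rw [e2] at h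
    refine h.trans ?_
    apply one_div_le_one_div_of_le
    · exact Real.sqrt_pos.2 (by positivity)
    · apply Real.sqrt_le_sqrt
      push_cast
      linarith

end BinomAux

open BinomAux

theorem cb_le (D : ℕ) : ∑ i ∈ range (D + 1), ((D.choose i : ℝ) / 2 ^ D) ^ 2 ≤ 1 / √(D + 1) := by
  have h : ∑ i ∈ range (D + 1), ((D.choose i : ℝ) / 2 ^ D) ^ 2 = cbr D := by
    simp only [div_pow]
    rw [← Finset.sum_div, sum_sq]
    unfold cbr
    rw [← pow_mul, mul_comm D 2, pow_mul]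
    norm_num
  rw [h]
  exact cbr_le D

/-- every single binomial weight -/
theorem choose_div_le (D i : ℕ) : (D.choose i : ℝ) / 2 ^ D ≤ 1 / √(D + 1) := by
  refine le_trans ?_ (middle_le D)
  exact div_le_div_of_nonneg_right (by exact_mod_cast Nat.choose_le_middle i D) (by positivity)

/-- first difference of the binomial coefficients `C(D,i) - C(D,i-1)` -/
noncomputable def dch (D i : ℕ) : ℝ :=
  (D.choose i : ℝ) - (if i = 0 then 0 else (D.choose (i - 1) : ℝ))

namespace BinomAux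

theorem sum_dch (D m : ℕ) : ∑ i ∈ range (m + 1), dch D i = D.choose m := by
  induction m with
  | zero => simp [dch]
  | succ m ih =>
    rw [Finset.sum_range_succ, ih]
    simp [dch]

theorem dch_nonneg {D i : ℕ} (h : i ≤ D / 2) : 0 ≤ dch D i := by
  unfold dch
  split_ifs with h0
  · simp
  · rw [sub_nonneg]
    obtain ⟨j, rfl⟩ : ∃ j, i = j + 1 := ⟨i - 1, by omega⟩
    rw [Nat.add_sub_cancel]
    exact_mod_cast Nat.choose_le_succ_of_lt_half_left (by omega)

theorem dch_nonpos {D i : ℕ} (h : D / 2 < i) : dch D i ≤ 0 := by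
  unfold dch
  rw [if_neg (by omega), sub_nonpos]
  obtain ⟨j, rfl⟩ : ∃ j, i = j + 1 := ⟨i - 1, by omega⟩
  rw [Nat.add_sub_cancel]
  have h1 : D / 2 ≤ j := by omega
  by_cases hD : j + 1 ≤ D
  · have h2 := Nat.choose_symm (n := D) (k := j + 1) hD
    have h3 := Nat.choose_symm (n := D) (k := j) (by omega)
    rw [← h2, ← h3]
    have e : D - j = (D - (j + 1)) + 1 := by omega
    rw [e]
    by_cases h4 : D - (j + 1) < D / 2
    · exact_mod_cast Nat.choose_le_succ_of_lt_half_left h4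
    · have h5 : D - (j + 1) = D / 2 := by omega
      have h6 : D = 2 * (D / 2) + 1 := by omega
      rw [h5]
      have h7 : D.choose (D / 2) = D.choose (D / 2 + 1) := by
        have h8 := Nat.choose_symm_half (D / 2)
        rw [← h6] at h8
        exact h8.symm
      rw [h7]
  · rw [Nat.choose_eq_zero_of_lt (by omega : D < j + 1), Nat.cast_zero]
    positivity

theorem sum_abs_dch (D : ℕ) : ∑ i ∈ range (D + 2), |dch D i| = 2 * D.choose (D / 2) := by
  have hle : D / 2 + 1 ≤ D + 2 := by omega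
  have hsplit := Finset.sum_range_add_sum_Ico (fun i => |dch D i|) hle
  rw [← hsplit]
  have hsplit2 := Finset.sum_range_add_sum_Ico (fun i => dch D i) hle
  have h1 : ∑ i ∈ range (D / 2 + 1), |dch D i| = ∑ i ∈ range (D / 2 + 1), dch D i :=
    Finset.sum_congr rfl fun i hi => abs_of_nonneg (dch_nonneg (by
      rw [Finset.mem_range] at hi; omega))
  have h2 : ∑ i ∈ Finset.Ico (D / 2 + 1) (D + 2), |dch D i| =
      -∑ i ∈ Finset.Ico (D / 2 + 1) (D + 2), dch D i := by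
    rw [← Finset.sum_neg_distrib]
    exact Finset.sum_congr rfl fun i hi => abs_of_nonpos (dch_nonpos (by
      rw [Finset.mem_Ico] at hi; omega))
  have h3 := sum_dch D (D / 2)
  have h4 := sum_dch D (D + 1)
  rw [Nat.choose_eq_zero_of_lt (by omega : D < D + 1)] at h4
  rw [show D + 1 + 1 = D + 2 from rfl] at h4
  rw [h1, h2, h3]
  rw [h3, h4] at hsplit2
  push_cast at hsplit2
  linarith

theorem sum_cross (D : ℕ) : ∑ i ∈ range (D + 1), (D.choose (i + 1) : ℝ) * D.choose i =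
    (2 * D).choose (D + 1) := by
  have h := Nat.add_choose_eq D D (D + 1)
  rw [← two_mul, Finset.Nat.sum_antidiagonal_eq_sum_range_succ_mk] at h
  rw [Finset.sum_range_succ' ] at h
  have h0 : D.choose 0 * D.choose (D + 1 - 0) = 0 := by
    rw [Nat.choose_eq_zero_of_lt (by omega : D < D + 1 - 0), mul_zero]
  rw [show ((0, D + 1 - 0) : ℕ × ℕ).1 = 0 from rfl,
    show ((0, D + 1 - 0) : ℕ × ℕ).2 = D + 1 - 0 from rfl, h0, add_zero] at h
  rw [h]
  push_cast
  refine Finset.sum_congr rfl fun i hi => ?_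
  rw [Finset.mem_range] at hi
  rw [Nat.choose_symm (by omega : i ≤ D)]

theorem sum_dch_sq (D : ℕ) : ∑ i ∈ range (D + 2), dch D i ^ 2 =
    2 * Nat.centralBinom D / (D + 1) := by
  rw [Finset.sum_range_succ']
  have h0 : dch D 0 = 1 := by simp [dch]
  have h1 : ∀ i, dch D (i + 1) = D.choose (i + 1) - D.choose i := by intro i; simp [dch]
  rw [h0]
  have h2 : ∑ i ∈ range (D + 1), dch D (i + 1) ^ 2 =
      ∑ i ∈ range (D + 1), (D.choose (i + 1) : ℝ) ^ 2 + ∑ i ∈ range (D + 1), (D.choose i : ℝ) ^ 2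
        - 2 * ∑ i ∈ range (D + 1), (D.choose (i + 1) : ℝ) * D.choose i := by
    rw [Finset.mul_sum, ← Finset.sum_add_distrib, ← Finset.sum_sub_distrib]
    refine Finset.sum_congr rfl fun i _ => ?_
    rw [h1]; ring
  have h3 : ∑ i ∈ range (D + 1), (D.choose (i + 1) : ℝ) ^ 2 + 1 = Nat.centralBinom D := by
    have h := Finset.sum_range_succ' (fun i => (D.choose i : ℝ) ^ 2) (D + 1)
    rw [Finset.sum_range_succ, sum_sq] at h
    rw [Nat.choose_eq_zero_of_lt (by omega : D < D + 1)] at h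
    simp only [Nat.choose_zero_right, Nat.cast_one, one_pow, Nat.cast_zero] at h
    norm_num at h
    exact h.symm
  rw [h2, sum_sq, sum_cross]
  have h4 : ((2 * D).choose (D + 1) : ℝ) * (D + 1) = Nat.centralBinom D * D := by
    rw [Nat.centralBinom_eq_two_mul_choose]
    have h := Nat.choose_succ_right_eq (2 * D) D
    have e : 2 * D - D = D := by omega
    rw [e] at h
    exact_mod_cast h
  have hD : (D : ℝ) + 1 ≠ 0 := by positivity
  have h5 : ((2 * D).choose (D + 1) : ℝ) = Nat.centralBinom D * D / (D + 1) := by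
    rw [eq_div_iff hD]; exact h4
  rw [h5]
  have h6 : ∑ i ∈ range (D + 1), (D.choose (i + 1) : ℝ) ^ 2 = Nat.centralBinom D - 1 := by linarith
  rw [h6]
  field_simp
  ring

end BinomAux

theorem dch_abs_le (D : ℕ) : ∑ i ∈ range (D + 2), |dch D i| / 2 ^ D ≤ 2 / √(D + 1) := by
  rw [← Finset.sum_div, sum_abs_dch]
  have h := middle_le D
  calc 2 * (D.choose (D / 2) : ℝ) / 2 ^ D = 2 * ((D.choose (D / 2) : ℝ) / 2 ^ D) := by ring
    _ ≤ 2 * (1 / √(D + 1)) := by linarith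
    _ = _ := by ring

/-- the sum of the squared first differences is `2 C(2D,D)/(D+1)` -/
theorem dch_sq_le (D : ℕ) :
    ∑ i ∈ range (D + 2), (dch D i / 2 ^ D) ^ 2 ≤ 2 / ((D + 1) * √(D + 1)) := by
  have h : ∑ i ∈ range (D + 2), (dch D i / 2 ^ D) ^ 2 = 2 / (D + 1) * cbr D := by
    simp only [div_pow]
    rw [← Finset.sum_div, sum_dch_sq]
    unfold cbr
    rw [← pow_mul, mul_comm D 2, pow_mul]
    norm_num
    ring
  rw [h]
  have h2 := cbr_le D
  have h3 : (0 : ℝ) ≤ 2 / (D + 1) := by positivity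
  calc 2 / ((D : ℝ) + 1) * cbr D ≤ 2 / (D + 1) * (1 / √(D + 1)) := mul_le_mul_of_nonneg_left h2 h3
    _ = _ := by field_simp

namespace BinomAux

/-- `1 / ((D+1)(D+2)...(D+k))` -/
noncomputable def ff (k D : ℕ) : ℝ := ∏ j ∈ range k, (1 / ((D : ℝ) + 1 + j))

theorem ff_nonneg (k D : ℕ) : 0 ≤ ff k D := Finset.prod_nonneg fun j _ => by positivity

theorem ff_succ (k D : ℕ) : ff (k + 1) D = ff k (D + 1) / ((D : ℝ) + 1) := by
  unfold ff
  rw [Finset.prod_range_succ']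
  have : ∀ j ∈ range k, (1 : ℝ) / ((D : ℝ) + 1 + ((j + 1 : ℕ) : ℝ)) =
      1 / (((D + 1 : ℕ) : ℝ) + 1 + j) := by
    intro j _
    push_cast
    congr 1
    ring
  rw [Finset.prod_congr rfl this]
  simp
  ring

theorem le_ff (k D : ℕ) : 1 / ((D : ℝ) + 1) ^ k ≤ k.factorial * ff k D := by
  induction k with
  | zero => simp [ff]
  | succ k ih =>
    have e : ff (k + 1) D = ff k D * (1 / ((D : ℝ) + 1 + k)) := by
      unfold ff
      rw [Finset.prod_range_succ]
    rw [e, Nat.factorial_succ, pow_succ]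
    push_cast
    have h1 : (1 : ℝ) / (D + 1) ≤ (k + 1) * (1 / ((D : ℝ) + 1 + k)) := by
      rw [mul_one_div, div_le_div_iff₀ (by positivity) (by positivity)]
      have hD : (0 : ℝ) ≤ D := Nat.cast_nonneg D
      have hk : (0 : ℝ) ≤ k := Nat.cast_nonneg k
      nlinarith [mul_nonneg hD hk]
    calc 1 / (((D : ℝ) + 1) ^ k * (D + 1)) = (1 / ((D : ℝ) + 1) ^ k) * (1 / (D + 1)) := by
          field_simp
      _ ≤ (k.factorial * ff k D) * ((k + 1) * (1 / ((D : ℝ) + 1 + k))) :=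
          mul_le_mul ih h1 (by positivity) (mul_nonneg (by positivity) (ff_nonneg k D))
      _ = _ := by ring

theorem Bsum_const_one (N : ℕ) (x : ℝ) : Bsum N x (fun _ => 1) = 1 := by
  unfold Bsum
  have h := add_pow x (1 - x) N
  rw [add_sub_cancel, one_pow] at h
  refine Eq.trans (Finset.sum_congr rfl fun D _ => ?_) h.symm
  ring

theorem Bsum_shift {N : ℕ} {x : ℝ} (hx0 : 0 < x) (hx1 : x ≤ 1) {e : ℕ → ℝ} (he : ∀ D, 0 ≤ e D) :
    Bsum N x (fun D => e (D + 1) / ((D : ℝ) + 1)) ≤ (1 / ((N + 1) * x)) * Bsum (N + 1) x e := by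
  unfold Bsum
  rw [Finset.sum_range_succ' _ (N + 1), mul_add, Finset.mul_sum]
  have h0 : 0 ≤ 1 / (((N : ℝ) + 1) * x) *
      (((N + 1).choose 0 : ℝ) * x ^ 0 * (1 - x) ^ (N + 1 - 0) * e 0) := by
    have : 0 ≤ 1 - x := by linarith
    have := he 0
    positivity
  refine le_trans (le_of_eq ?_) (le_add_of_nonneg_right h0)
  refine Finset.sum_congr rfl fun D _ => ?_
  have h1 : ((N + 1).choose (D + 1) : ℝ) * (D + 1) = (N + 1) * N.choose D := by
    have h := Nat.add_one_mul_choose_eq N D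
    exact_mod_cast h.symm
  have hD : (D : ℝ) + 1 ≠ 0 := by positivity
  have hN : (N : ℝ) + 1 ≠ 0 := by positivity
  have h2 : ((N + 1).choose (D + 1) : ℝ) = (N + 1) * N.choose D / (D + 1) := by
    rw [eq_div_iff hD]; exact h1
  rw [h2]
  have e1 : N + 1 - (D + 1) = N - D := by omega
  rw [e1, pow_succ]
  field_simp

theorem Bsum_ff {k : ℕ} {x : ℝ} (hx0 : 0 < x) (hx1 : x ≤ 1) :
    ∀ N : ℕ, Bsum N x (fun D => ff k D) ≤ 1 / ((N + 1) * x) ^ k := by
  induction k with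
  | zero =>
    intro N
    have : (fun D => ff 0 D) = fun _ => (1 : ℝ) := by funext D; simp [ff]
    rw [this, Bsum_const_one]
    simp
  | succ k ih =>
    intro N
    have e : (fun D => ff (k + 1) D) = fun D : ℕ => ff k (D + 1) / ((D : ℝ) + 1) := by
      funext D; exact ff_succ k D
    rw [e]
    refine (Bsum_shift hx0 hx1 (e := fun D => ff k D) (fun D => ff_nonneg k D)).trans ?_
    have h1 := ih (N + 1)
    have hN : (0 : ℝ) ≤ N := Nat.cast_nonneg N
    have hp : (0 : ℝ) < ((N : ℝ) + 1) * x := by positivity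
    have h2 : (1 : ℝ) / ((((N + 1 : ℕ) : ℝ) + 1) * x) ^ k ≤ 1 / (((N : ℝ) + 1) * x) ^ k := by
      apply one_div_le_one_div_of_le (by positivity)
      apply pow_le_pow_left₀ hp.le
      push_cast
      nlinarith
    calc 1 / (((N : ℝ) + 1) * x) * Bsum (N + 1) x (fun D => ff k D)
        ≤ 1 / (((N : ℝ) + 1) * x) * (1 / (((N : ℝ) + 1) * x) ^ k) :=
          mul_le_mul_of_nonneg_left (h1.trans h2) (by positivity)
      _ = _ := by rw [pow_succ]; field_simp

/-- Cauchy-Schwarz for binomial averages -/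
theorem Bsum_cs {N : ℕ} {x : ℝ} (hx0 : 0 < x) (hx1 : x ≤ 1) (f g : ℕ → ℝ) :
    (Bsum N x (fun D => f D * g D)) ^ 2 ≤
      Bsum N x (fun D => f D ^ 2) * Bsum N x (fun D => g D ^ 2) := by
  unfold Bsum
  have hw : ∀ D, 0 ≤ (N.choose D : ℝ) * x ^ D * (1 - x) ^ (N - D) := by
    intro D
    have : 0 ≤ 1 - x := by linarith
    positivity
  have h := Finset.sum_mul_sq_le_sq_mul_sq (range (N + 1))
    (fun D => √((N.choose D : ℝ) * x ^ D * (1 - x) ^ (N - D)) * f D)
    (fun D => √((N.choose D : ℝ) * x ^ D * (1 - x) ^ (N - D)) * g D)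
  have e1 : ∀ D, (√((N.choose D : ℝ) * x ^ D * (1 - x) ^ (N - D)) * f D) *
      (√((N.choose D : ℝ) * x ^ D * (1 - x) ^ (N - D)) * g D) =
      (N.choose D : ℝ) * x ^ D * (1 - x) ^ (N - D) * (f D * g D) := by
    intro D
    have := Real.mul_self_sqrt (hw D)
    calc _ = (√((N.choose D : ℝ) * x ^ D * (1 - x) ^ (N - D)) *
          √((N.choose D : ℝ) * x ^ D * (1 - x) ^ (N - D))) * (f D * g D) := by ring
      _ = _ := by rw [this]
  have e2 : ∀ (F : ℕ → ℝ) (D : ℕ), (√((N.choose D : ℝ) * x ^ D * (1 - x) ^ (N - D)) * F D) ^ 2 =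
      (N.choose D : ℝ) * x ^ D * (1 - x) ^ (N - D) * F D ^ 2 := by
    intro F D
    rw [mul_pow, Real.sq_sqrt (hw D)]
  rw [Finset.sum_congr rfl fun D _ => e1 D, Finset.sum_congr rfl fun D _ => e2 f D,
    Finset.sum_congr rfl fun D _ => e2 g D] at h
  exact h

end BinomAux

theorem Bsum_inv_pow {N k : ℕ} {x : ℝ} (hx0 : 0 < x) (hx1 : x ≤ 1) :
    Bsum N x (fun D => 1 / ((D : ℝ) + 1) ^ k) ≤ k.factorial / ((N + 1) * x) ^ k := by
  refine (Bsum_mono hx0.le hx1 (e' := fun D => k.factorial * ff k D) fun D => le_ff k D).trans ?_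
  rw [Bsum_mul]
  calc (k.factorial : ℝ) * Bsum N x (fun D => ff k D)
      ≤ k.factorial * (1 / ((N + 1) * x) ^ k) :=
        mul_le_mul_of_nonneg_left (Bsum_ff hx0 hx1 N) (by positivity)
    _ = _ := by ring

namespace BinomAux

theorem Bsum_cs_inv {N k l : ℕ} {x : ℝ} (hx0 : 0 < x) (hx1 : x ≤ 1) (f : ℕ → ℝ)
    (hf : ∀ D, 0 ≤ f D) (hf2 : ∀ D, f D ^ 2 = 1 / ((D : ℝ) + 1) ^ (k + l)) :
    (Bsum N x f) ^ 2 ≤ (k.factorial / ((N + 1) * x) ^ k) * (l.factorial / ((N + 1) * x) ^ l) := by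
  have e : ∀ D, f D = √(1 / ((D : ℝ) + 1) ^ k) * √(1 / ((D : ℝ) + 1) ^ l) := by
    intro D
    rw [← Real.sqrt_mul (by positivity)]
    symm
    rw [Real.sqrt_eq_iff_mul_self_eq (by positivity) (hf D), ← sq, hf2 D, pow_add]
    field_simp
  have hfe : f = fun D : ℕ => √(1 / ((D : ℝ) + 1) ^ k) * √(1 / ((D : ℝ) + 1) ^ l) := funext e
  rw [hfe]
  refine (Bsum_cs hx0 hx1 (fun D : ℕ => √(1 / ((D : ℝ) + 1) ^ k))
    (fun D : ℕ => √(1 / ((D : ℝ) + 1) ^ l))).trans ?_
  have e2 : ∀ m : ℕ, (fun D : ℕ => √(1 / ((D : ℝ) + 1) ^ m) ^ 2) =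
      fun D : ℕ => 1 / ((D : ℝ) + 1) ^ m := by
    intro m; funext D; rw [Real.sq_sqrt (by positivity)]
  rw [e2 k, e2 l]
  exact mul_le_mul (Bsum_inv_pow hx0 hx1) (Bsum_inv_pow hx0 hx1)
    (Bsum_nonneg hx0.le hx1 fun D => by positivity) (by positivity)

end BinomAux

theorem Bsum_inv_sqrt {N : ℕ} {x : ℝ} (hx0 : 0 < x) (hx1 : x ≤ 1) :
    Bsum N x (fun D => 1 / √((D : ℝ) + 1)) ≤ 1 / √((N + 1) * x) := by
  have hy : 0 < ((N : ℝ) + 1) * x := by positivity
  have h := Bsum_cs_inv (N := N) (k := 0) (l := 1) hx0 hx1 (fun D => 1 / √((D : ℝ) + 1))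
    (fun D => by positivity) (fun D => by
      rw [div_pow, Real.sq_sqrt (by positivity)]; simp)
  refine le_inv_sqrt (Bsum_nonneg hx0.le hx1 fun D => by positivity) hy ?_
  have h2 := mul_le_mul_of_nonneg_right h hy.le
  refine h2.trans (le_of_eq ?_)
  simp
  field_simp

theorem Bsum_inv_three_half {N : ℕ} {x : ℝ} (hx0 : 0 < x) (hx1 : x ≤ 1) :
    Bsum N x (fun D => 1 / (((D : ℝ) + 1) * √((D : ℝ) + 1))) ≤
      2 / (((N + 1) * x) * √((N + 1) * x)) := by
  have hy : 0 < ((N : ℝ) + 1) * x := by positivity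
  have h := Bsum_cs_inv (N := N) (k := 1) (l := 2) hx0 hx1
    (fun D : ℕ => 1 / (((D : ℝ) + 1) * √((D : ℝ) + 1)))
    (fun D => by positivity) (fun D => by
      have e : ((D : ℝ) + 1) ^ 2 * ((D : ℝ) + 1) = (D + 1) ^ (1 + 2) := by ring
      rw [div_pow, mul_pow, Real.sq_sqrt (by positivity), e, one_pow])
  generalize ((N : ℝ) + 1) * x = y at hy h ⊢
  have hb : 0 ≤ 2 / (y * √y) := by positivity
  refine le_of_sq_le_sq (h.trans ?_) hb
  rw [div_pow, mul_pow, Real.sq_sqrt hy.le, div_mul_div_comm,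
    div_le_div_iff₀ (by positivity) (by positivity)]
  norm_num [Nat.factorial]
  ring_nf
  nlinarith [pow_pos hy 3]

theorem Bsum_inv_five_half {N : ℕ} {x : ℝ} (hx0 : 0 < x) (hx1 : x ≤ 1) :
    Bsum N x (fun D => 1 / (((D : ℝ) + 1) ^ 2 * √((D : ℝ) + 1))) ≤
      4 / (((N + 1) * x) ^ 2 * √((N + 1) * x)) := by
  have hy : 0 < ((N : ℝ) + 1) * x := by positivity
  have h := Bsum_cs_inv (N := N) (k := 2) (l := 3) hx0 hx1
    (fun D : ℕ => 1 / (((D : ℝ) + 1) ^ 2 * √((D : ℝ) + 1)))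
    (fun D => by positivity) (fun D => by
      have e : (((D : ℝ) + 1) ^ 2) ^ 2 * ((D : ℝ) + 1) = (D + 1) ^ (2 + 3) := by ring
      rw [div_pow, mul_pow, Real.sq_sqrt (by positivity), e, one_pow])
  generalize ((N : ℝ) + 1) * x = y at hy h ⊢
  have hb : 0 ≤ 4 / (y ^ 2 * √y) := by positivity
  refine le_of_sq_le_sq (h.trans ?_) hb
  rw [div_pow, mul_pow, Real.sq_sqrt hy.le, div_mul_div_comm,
    div_le_div_iff₀ (by positivity) (by positivity)]
  norm_num [Nat.factorial]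
  ring_nf
  nlinarith [pow_pos hy 5]

/-- LEMMA 2 -/
theorem lazy_pow {M : Type*} [Monoid M] {t : Ms M} {J : ℕ} {c : ℝ} (ht : Lazy t J c)
    (N L m : ℕ) (hm : (J + 1) * N ≤ m) :
    N1 (2 * L / √((N + 1) * c)) (t ^ (m + L) - t ^ m) := by
  have hexp : ∀ D : ℕ, ((1 / 2 : ℝ) • (1 + t)) ^ D * (1 - t) =
      ∑ i ∈ range (D + 2), (dch D i / 2 ^ D) • t ^ i := by
    intro D
    have h1 : ((1 / 2 : ℝ) • (1 + t)) ^ D = ∑ i ∈ range (D + 1), ((D.choose i : ℝ) / 2 ^ D) • t ^ i := by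
      rw [smul_pow, add_comm (1 : Ms M) t, (Commute.one_right t).add_pow, Finset.smul_sum]
      refine Finset.sum_congr rfl fun i _ => ?_
      rw [one_pow, mul_one, ← nsmul_eq_mul', ← Nat.cast_smul_eq_nsmul ℝ, smul_smul]
      congr 1
      rw [div_pow, one_pow]
      ring
    rw [h1, mul_sub, mul_one, Finset.sum_mul]
    have h2 : ∀ i ∈ range (D + 1), ((D.choose i : ℝ) / 2 ^ D) • t ^ i * t =
        ((D.choose i : ℝ) / 2 ^ D) • t ^ (i + 1) := by
      intro i _; rw [smul_mul_assoc, pow_succ]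
    rw [Finset.sum_congr rfl h2]
    have h3 : ∑ i ∈ range (D + 2), (dch D i / 2 ^ D) • t ^ i =
        ∑ i ∈ range (D + 2), ((D.choose i : ℝ) / 2 ^ D) • t ^ i -
        ∑ i ∈ range (D + 2), ((if i = 0 then 0 else (D.choose (i - 1) : ℝ)) / 2 ^ D) • t ^ i := by
      rw [← Finset.sum_sub_distrib]
      refine Finset.sum_congr rfl fun i _ => ?_
      rw [← sub_smul, ← sub_div]
      rfl
    rw [h3]
    congr 1
    · rw [Finset.sum_range_succ _ (D + 1), Nat.choose_eq_zero_of_lt (by omega : D < D + 1)]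
      simp
    · rw [Finset.sum_range_succ' _ (D + 1)]
      simp
  have hstep : N1 (2 / √((N + 1) * c)) (t ^ ((J + 1) * N) * (1 - t)) := by
    have h := smear_one ht (X := 1 - t) (e := fun D => 2 / √((D : ℝ) + 1)) (fun D => by
      rw [hexp D]
      refine N1.mono (N1.sum (ε := fun i => |dch D i| / 2 ^ D) fun i _ => ?_) (dch_abs_le D)
      have h1 := ((ht.prob.pow i).n1).smul (dch D i / 2 ^ D)
      rw [abs_div, abs_of_pos (by positivity : (0 : ℝ) < 2 ^ D), mul_one] at h1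
      exact h1) N
    refine h.mono ?_
    have e : (fun D : ℕ => 2 / √((D : ℝ) + 1)) = fun D : ℕ => 2 * (1 / √((D : ℝ) + 1)) := by
      funext D; ring
    rw [e, Bsum_mul]
    have h2 := Bsum_inv_sqrt (N := N) ht.c_pos ht.c_le
    calc 2 * Bsum N c (fun D => 1 / √((D : ℝ) + 1)) ≤ 2 * (1 / √((N + 1) * c)) := by linarith
      _ = _ := by ring
  have hone : ∀ k, (J + 1) * N ≤ k → N1 (2 / √((N + 1) * c)) (t ^ (k + 1) - t ^ k) := by
    intro k hk
    obtain ⟨r, rfl⟩ := Nat.exists_eq_add_of_le' hk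
    have h1 := ((ht.prob.pow r).n1.mul hstep).neg
    rw [one_mul] at h1
    have e : -(t ^ r * (t ^ ((J + 1) * N) * (1 - t))) =
        t ^ (r + (J + 1) * N + 1) - t ^ (r + (J + 1) * N) := by
      rw [← mul_assoc, ← pow_add, mul_sub, mul_one, neg_sub, pow_succ]
    rw [e] at h1
    exact h1
  induction L with
  | zero =>
    simp only [add_zero, sub_self, Nat.cast_zero, mul_zero, zero_div]
    exact N1.zero
  | succ L ih =>
    have h1 := (hone (m + L) (by omega)).trans ih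
    have e : 2 / √((N + 1) * c) + 2 * (L : ℝ) / √((N + 1) * c) =
        2 * ((L + 1 : ℕ) : ℝ) / √((N + 1) * c) := by
      push_cast; ring
    rw [e] at h1
    exact h1

end Vale.Agent.P321S
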