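import Vale.Agent.Lib.P321S.Letters

/-! Module FLAT (section 12 of docs P321): the flat `L²` form on words. -/

namespace Vale.Agent.P321S

open Finset

/-- normalised probability weight of a word among the words of its length -/
noncomputable def hw (q : ℝ) : Wd →* ℝ := FreeMonoid.lift (fun a => om q a / (1 - q ^ 2))

/-- flat inner product `∑ w, z(w) z'(w) / hw(w)` -/
noncomputable def ip (q : ℝ) (z z' : Ms Wd) : ℝ := pr z (fun w => z'.coeff w / hw q w)

/-- length of a word -/
def wl (w : Wd) : ℕ := FreeMonoid.length w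

/-- normalised nonempty part of `bb` -/
noncomputable def bh (q : ℝ) : Ms Wd := (1 / (1 - q ^ 2)) • bet q

/-- neutral letter -/
noncomputable def hh (q : ℝ) : Ms Wd := q • 1 + (1 - q) • bh q

/-- mean-zero letter -/
noncomputable def zz (q : ℝ) : Ms Wd := (1 - q) • (sg 1 - bh q)

theorem dd_eq (q : ℝ) : dd q = hh q + zz q := by
  unfold dd hh zz
  module

theorem bb_eq {q : ℝ} (h0 : 0 < q) (h1 : q < 1) : bb q = (q ^ 2) • 1 + (1 - q ^ 2) • bh q := by
  unfold bb bh
  have h : (1 - q ^ 2) ≠ 0 := by nlinarith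
  rw [smul_smul, mul_one_div_cancel h, one_smul]

theorem om_pos {q : ℝ} (h0 : 0 < q) (h1 : q < 1) (a : Fin 3) : 0 < om q a := by
  unfold om
  split_ifs
  · have : 0 < 1 - q := by linarith
    positivity
  · exact mul_pos (by linarith) h0

theorem hw_of (q : ℝ) (a : Fin 3) : hw q (FreeMonoid.of a) = om q a / (1 - q ^ 2) := by
  simp [hw]

theorem hw_of_pos {q : ℝ} (h0 : 0 < q) (h1 : q < 1) (a : Fin 3) : 0 < hw q (FreeMonoid.of a) := by
  rw [hw_of]
  exact div_pos (om_pos h0 h1 a) (by nlinarith)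

theorem hw_pos {q : ℝ} (h0 : 0 < q) (h1 : q < 1) (w : Wd) : 0 < hw q w := by
  induction w using FreeMonoid.recOn with
  | one => simp
  | of_mul a w ih =>
    rw [map_mul]
    exact mul_pos (hw_of_pos h0 h1 a) ih

theorem sum_hw_of {q : ℝ} (h0 : 0 < q) (h1 : q < 1) : ∑ a, hw q (FreeMonoid.of a) = 1 := by
  have h : (1 - q ^ 2) ≠ 0 := by nlinarith
  simp only [hw_of, Fin.sum_univ_three]
  have h2 : (om q 0) = (1 - q) * q := by simp [om]
  have h3 : (om q 1) = (1 - q) * q := by simp [om]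
  have h4 : (om q 2) = (1 - q) ^ 2 := by simp [om]
  rw [h2, h3, h4]
  field_simp
  ring

theorem ip_eq_sum (q : ℝ) {s : Finset Wd} {z z' : Ms Wd} (h : z.coeff.support ⊆ s) :
    ip q z z' = ∑ w ∈ s, z.coeff w * z'.coeff w / hw q w := by
  unfold ip
  rw [pr_eq_sum h]
  exact Finset.sum_congr rfl fun w _ => by ring

theorem ip_add_left (q : ℝ) (x y z : Ms Wd) : ip q (x + y) z = ip q x z + ip q y z :=
  pr_add _ _ _

theorem ip_smul_left (q : ℝ) (c : ℝ) (x z : Ms Wd) : ip q (c • x) z = c * ip q x z :=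
  pr_smul _ _ _

theorem ip_comm (q : ℝ) (x z : Ms Wd) : ip q x z = ip q z x := by
  classical
  rw [ip_eq_sum q (s := x.coeff.support ∪ z.coeff.support) Finset.subset_union_left,
    ip_eq_sum q (s := x.coeff.support ∪ z.coeff.support) Finset.subset_union_right]
  exact Finset.sum_congr rfl fun w _ => by ring

theorem ip_add_right (q : ℝ) (x y z : Ms Wd) : ip q x (y + z) = ip q x y + ip q x z := by
  rw [ip_comm, ip_add_left, ip_comm q y, ip_comm q z]

theorem ip_smul_right (q : ℝ) (c : ℝ) (x z : Ms Wd) : ip q x (c • z) = c * ip q x z := by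
  rw [ip_comm, ip_smul_left, ip_comm q z]

theorem ip_neg_left (q : ℝ) (x z : Ms Wd) : ip q (-x) z = -ip q x z := pr_neg _ _

theorem ip_neg_right (q : ℝ) (x z : Ms Wd) : ip q x (-z) = -ip q x z := by
  rw [ip_comm, ip_neg_left, ip_comm q z]

theorem ip_sub_left (q : ℝ) (x y z : Ms Wd) : ip q (x - y) z = ip q x z - ip q y z :=
  pr_sub _ _ _

theorem ip_sub_right (q : ℝ) (x y z : Ms Wd) : ip q x (y - z) = ip q x y - ip q x z := by
  rw [ip_comm, ip_sub_left, ip_comm q y, ip_comm q z]

theorem ip_sum_left {ι : Type*} (q : ℝ) (s : Finset ι) (x : ι → Ms Wd) (z : Ms Wd) :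
    ip q (∑ i ∈ s, x i) z = ∑ i ∈ s, ip q (x i) z :=
  pr_sum _ _ _

theorem ip_sum_right {ι : Type*} (q : ℝ) (s : Finset ι) (x : ι → Ms Wd) (z : Ms Wd) :
    ip q z (∑ i ∈ s, x i) = ∑ i ∈ s, ip q z (x i) := by
  rw [ip_comm, ip_sum_left]
  exact Finset.sum_congr rfl fun i _ => ip_comm _ _ _

theorem ip_self_nonneg {q : ℝ} (h0 : 0 < q) (h1 : q < 1) (z : Ms Wd) : 0 ≤ ip q z z := by
  rw [ip_eq_sum q (Finset.Subset.refl _)]
  exact Finset.sum_nonneg fun w _ => div_nonneg (mul_self_nonneg _) (hw_pos h0 h1 w).le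

/-- AM-GM -/
theorem ip_le {q : ℝ} (h0 : 0 < q) (h1 : q < 1) (x z : Ms Wd) :
    ip q x z ≤ (ip q x x + ip q z z) / 2 := by
  have h := ip_self_nonneg h0 h1 (x - z)
  rw [ip_sub_left, ip_sub_right, ip_sub_right, ip_comm q z x] at h
  linarith

theorem ip_one_one (q : ℝ) : ip q 1 1 = 1 := by
  unfold ip
  rw [pr_one]
  simp [MonoidAlgebra.one_def]

theorem coeff_sg_mul (a b : Fin 3) (z : Ms Wd) (w : Wd) :
    (sg a * z).coeff (FreeMonoid.of b * w) = if a = b then z.coeff w else 0 := by
  classical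
  unfold sg
  split_ifs with h
  · subst h
    simp
  · refine MonoidAlgebra.coeff_single_mul_of_forall_mul_ne _ _ fun d hd => h ?_
    have h2 : (a :: d.toList) = (b :: w.toList) := congrArg FreeMonoid.toList hd
    exact (List.cons.inj h2).1

theorem coeff_sg_mul_one (a : Fin 3) (z : Ms Wd) : (sg a * z).coeff 1 = 0 := by
  unfold sg
  refine MonoidAlgebra.coeff_single_mul_of_forall_mul_ne _ _ fun d hd => ?_
  have h2 : (a :: d.toList) = ([] : List (Fin 3)) := congrArg FreeMonoid.toList hd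
  exact List.cons_ne_nil _ _ h2

theorem ip_sg_sg {q : ℝ} (h0 : 0 < q) (h1 : q < 1) (a b : Fin 3) (x z : Ms Wd) :
    ip q (sg a * x) (sg b * z) =
      if a = b then (hw q (FreeMonoid.of a))⁻¹ * ip q x z else 0 := by
  have h : ip q (sg a * x) (sg b * z) =
      pr x (fun w => (sg b * z).coeff (FreeMonoid.of a * w) / hw q (FreeMonoid.of a * w)) := by
    unfold ip
    rw [pr_mul]
    conv_lhs => unfold sg
    rw [pr_single, one_mul]
    rfl
  rw [h]
  simp only [coeff_sg_mul, map_mul]
  split_ifs with h2 h3 h3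
  · rw [ip, ← pr_mul_fun]
    congr 1
    funext w
    have := (hw_of_pos h0 h1 a).ne'
    field_simp
  · exact absurd h2.symm h3
  · exact absurd h3.symm h2
  · simp [pr_zero_fun]

theorem ip_letters {q : ℝ} (h0 : 0 < q) (h1 : q < 1) (c c' : Fin 3 → ℝ) (x z : Ms Wd) :
    ip q ((∑ a, c a • sg a) * x) ((∑ a, c' a • sg a) * z) =
      (∑ a, c a * c' a / hw q (FreeMonoid.of a)) * ip q x z := by
  rw [Finset.sum_mul, Finset.sum_mul, ip_sum_left, Finset.sum_mul]
  refine Finset.sum_congr rfl fun a _ => ?_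
  rw [ip_sum_right, Finset.sum_eq_single a]
  · rw [smul_mul_assoc, smul_mul_assoc, ip_smul_left, ip_smul_right, ip_sg_sg h0 h1, if_pos rfl]
    ring
  · intro b _ hb
    rw [smul_mul_assoc, smul_mul_assoc, ip_smul_left, ip_smul_right, ip_sg_sg h0 h1,
      if_neg hb.symm, mul_zero, mul_zero]
  · intro h
    exact absurd (Finset.mem_univ _) h

theorem bh_eq (q : ℝ) : bh q = ∑ a, hw q (FreeMonoid.of a) • sg a := by
  unfold bh bet
  rw [Finset.smul_sum]
  refine Finset.sum_congr rfl fun a _ => ?_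
  rw [smul_smul, hw_of]
  congr 1
  ring

theorem zz_eq (q : ℝ) :
    zz q = ∑ a, ((1 - q) * ((if a = 1 then 1 else 0) - hw q (FreeMonoid.of a))) • sg a := by
  unfold zz
  rw [bh_eq]
  simp only [Fin.sum_univ_three]
  simp only [Fin.isValue, zero_ne_one, ↓reduceIte, show ((2 : Fin 3) = 1) = False by decide]
  module

theorem ip_bh_bh {q : ℝ} (h0 : 0 < q) (h1 : q < 1) (x z : Ms Wd) :
    ip q (bh q * x) (bh q * z) = ip q x z := by
  rw [bh_eq, ip_letters h0 h1]
  have h : ∀ a : Fin 3, hw q (FreeMonoid.of a) * hw q (FreeMonoid.of a) / hw q (FreeMonoid.of a) =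
      hw q (FreeMonoid.of a) := fun a => by
    have := (hw_of_pos h0 h1 a).ne'
    field_simp
  simp only [h]
  rw [sum_hw_of h0 h1, one_mul]

theorem ip_zz_bh {q : ℝ} (h0 : 0 < q) (h1 : q < 1) (x z : Ms Wd) :
    ip q (zz q * x) (bh q * z) = 0 := by
  rw [bh_eq, zz_eq, ip_letters h0 h1]
  have h : ∀ a : Fin 3, (1 - q) * ((if a = 1 then 1 else 0) - hw q (FreeMonoid.of a)) *
      hw q (FreeMonoid.of a) / hw q (FreeMonoid.of a) =
      (1 - q) * (if a = 1 then 1 else 0) - (1 - q) * hw q (FreeMonoid.of a) := fun a => by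
    have := (hw_of_pos h0 h1 a).ne'
    field_simp
  simp only [h]
  rw [Finset.sum_sub_distrib, ← Finset.mul_sum, ← Finset.mul_sum, sum_hw_of h0 h1]
  simp

theorem ip_zz_zz {q : ℝ} (h0 : 0 < q) (h1 : q < 1) (x z : Ms Wd) :
    ip q (zz q * x) (zz q * z) = (1 - q) ^ 2 / q * ip q x z := by
  rw [zz_eq, ip_letters h0 h1]
  congr 1
  have h : (1 - q ^ 2) ≠ 0 := by nlinarith
  have h3 : (om q 1) = (1 - q) * q := by simp [om]
  have hs := sum_hw_of h0 h1
  simp only [Fin.sum_univ_three] at hs ⊢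
  simp only [Fin.isValue, zero_ne_one, ↓reduceIte, show ((2 : Fin 3) = 1) = False by decide]
  have e0 := (hw_of_pos h0 h1 0).ne'
  have e1 := (hw_of_pos h0 h1 1).ne'
  have e2 := (hw_of_pos h0 h1 2).ne'
  have e3 : hw q (FreeMonoid.of 1) = q / (1 + q) := by
    rw [hw_of, h3]
    have : (1 + q) ≠ 0 := by linarith
    field_simp
    ring
  have e4 : (1 - q) * (0 - hw q (FreeMonoid.of 0)) * ((1 - q) * (0 - hw q (FreeMonoid.of 0))) /
      hw q (FreeMonoid.of 0) = (1 - q) ^ 2 * hw q (FreeMonoid.of 0) := by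
    field_simp
    ring
  have e5 : (1 - q) * (0 - hw q (FreeMonoid.of 2)) * ((1 - q) * (0 - hw q (FreeMonoid.of 2))) /
      hw q (FreeMonoid.of 2) = (1 - q) ^ 2 * hw q (FreeMonoid.of 2) := by
    field_simp
    ring
  rw [e4, e5]
  have e6 : hw q (FreeMonoid.of 0) = 1 - hw q (FreeMonoid.of 1) - hw q (FreeMonoid.of 2) := by
    linarith
  rw [e6, e3]
  have : (1 + q) ≠ 0 := by linarith
  field_simp
  ring

theorem ip_one_left {q : ℝ} (z : Ms Wd) : ip q 1 z = z.coeff 1 := by
  unfold ip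
  rw [pr_one]
  simp

theorem ip_one_letters (q : ℝ) (c : Fin 3 → ℝ) (z : Ms Wd) :
    ip q 1 ((∑ a, c a • sg a) * z) = 0 := by
  rw [Finset.sum_mul, ip_sum_right]
  refine Finset.sum_eq_zero fun a _ => ?_
  rw [smul_mul_assoc, ip_smul_right, ip_one_left, coeff_sg_mul_one, mul_zero]

theorem ip_one_bh (q : ℝ) (z : Ms Wd) : ip q 1 (bh q * z) = 0 := by
  rw [bh_eq, ip_one_letters]

theorem ip_one_zz (q : ℝ) (z : Ms Wd) : ip q 1 (zz q * z) = 0 := by
  rw [zz_eq, ip_one_letters]

theorem bh_pos {q : ℝ} (h0 : 0 < q) (h1 : q < 1) : Pos (bh q) :=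
  (bet_pos h0.le h1.le).smul (by
    have : 0 < 1 - q ^ 2 := by nlinarith
    positivity)

theorem bh_mass {q : ℝ} (h0 : 0 < q) (h1 : q < 1) : mass (bh q) = 1 := by
  unfold bh
  have h : (1 - q ^ 2) ≠ 0 := by nlinarith
  rw [mass_smul, bet_mass]
  field_simp

theorem coeff_bh_pow {q : ℝ} (n : ℕ) (w : Wd) :
    (bh q ^ n).coeff w = if wl w = n then hw q w else 0 := by
  classical
  induction n generalizing w with
  | zero =>
    induction w using FreeMonoid.recOn with
    | one => simp [wl, MonoidAlgebra.one_def]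
    | of_mul a w _ =>
      have h : (FreeMonoid.of a * w : Wd) ≠ 1 := by
        intro hd
        have h2 : (a :: w.toList) = ([] : List (Fin 3)) := congrArg FreeMonoid.toList hd
        exact List.cons_ne_nil _ _ h2
      rw [pow_zero, if_neg]
      · rw [MonoidAlgebra.one_def, MonoidAlgebra.coeff_single, Finsupp.single_apply, if_neg h.symm]
      · unfold wl
        rw [FreeMonoid.length_mul, FreeMonoid.length_of]
        omega
  | succ n ih =>
    rw [pow_succ', bh_eq, Finset.sum_mul]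
    induction w using FreeMonoid.recOn with
    | one =>
      rw [if_neg (by simp [wl])]
      rw [MonoidAlgebra.coeff_sum, Finsupp.finsetSum_apply]
      refine Finset.sum_eq_zero fun a _ => ?_
      rw [smul_mul_assoc, MonoidAlgebra.coeff_smul, Finsupp.smul_apply, coeff_sg_mul_one,
        smul_zero]
    | of_mul b w _ =>
      rw [MonoidAlgebra.coeff_sum, Finsupp.finsetSum_apply, Finset.sum_eq_single b]
      · rw [smul_mul_assoc, MonoidAlgebra.coeff_smul, Finsupp.smul_apply, coeff_sg_mul, if_pos rfl,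
          ← bh_eq, ih, map_mul]
        have : wl (FreeMonoid.of b * w) = n + 1 ↔ wl w = n := by
          unfold wl
          rw [FreeMonoid.length_mul, FreeMonoid.length_of]
          omega
        simp only [this]
        split_ifs <;> simp
      · intro a _ ha
        rw [smul_mul_assoc, MonoidAlgebra.coeff_smul, Finsupp.smul_apply, coeff_sg_mul, if_neg ha,
          smul_zero]
      · intro h
        exact absurd (Finset.mem_univ _) h

theorem sum_hw_le {q : ℝ} (h0 : 0 < q) (h1 : q < 1) (s : Finset Wd) (n : ℕ) :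
    ∑ w ∈ s, (if wl w = n then hw q w else 0) ≤ 1 := by
  classical
  have h := (bh_pos h0 h1).pow n
  have hm : mass (bh q ^ n) = 1 := by rw [mass_pow, bh_mass h0 h1, one_pow]
  rw [← hm]
  unfold mass
  rw [pr_eq_sum (s := s ∪ (bh q ^ n).coeff.support) Finset.subset_union_right]
  simp only [mul_one]
  calc _ = ∑ w ∈ s, (bh q ^ n).coeff w :=
        Finset.sum_congr rfl fun w _ => (coeff_bh_pow n w).symm
    _ ≤ _ := Finset.sum_le_sum_of_subset_of_nonneg Finset.subset_union_left fun w _ _ => h w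

theorem sum_hw_le_card {q : ℝ} (h0 : 0 < q) (h1 : q < 1) (s : Finset Wd) (I : Finset ℕ) :
    ∑ w ∈ s, (if wl w ∈ I then hw q w else 0) ≤ #I := by
  classical
  calc _ = ∑ w ∈ s, ∑ n ∈ I, (if wl w = n then hw q w else 0) := by
        refine Finset.sum_congr rfl fun w _ => ?_
        rw [Finset.sum_ite_eq]
    _ = ∑ n ∈ I, ∑ w ∈ s, (if wl w = n then hw q w else 0) := Finset.sum_comm
    _ ≤ ∑ n ∈ I, (1 : ℝ) := Finset.sum_le_sum fun n _ => sum_hw_le h0 h1 s n
    _ = #I := by simp

/-- `L¹` bound on a window of lengths by the flat form -/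
theorem N1_window {q : ℝ} (h0 : 0 < q) (h1 : q < 1) {A A' : Ms Wd} (hA : Pos A) (hA' : Pos A')
    (I : Finset ℕ) :
    N1 (√(#I * ip q (A - A') (A - A')) + pr A (fun w => if wl w ∈ I then 0 else 1) +
      pr A' (fun w => if wl w ∈ I then 0 else 1)) (A - A') := by
  classical
  intro f hf
  set D := A - A' with hD
  have e : pr D f = pr D (fun w => if wl w ∈ I then f w else 0) +
      (pr A (fun w => if wl w ∈ I then 0 else f w) -
        pr A' (fun w => if wl w ∈ I then 0 else f w)) := by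
    rw [← pr_sub, ← hD, ← pr_add_fun]
    congr 1
    funext w
    split_ifs <;> simp
  have b1 : |pr D (fun w => if wl w ∈ I then f w else 0)| ≤ √(#I * ip q D D) := by
    apply Real.abs_le_sqrt
    rw [ip_eq_sum q (Finset.Subset.refl _), pr_eq_sum (Finset.Subset.refl _)]
    have h := Finset.sum_mul_sq_le_sq_mul_sq D.coeff.support
      (fun w => if wl w ∈ I then √(hw q w) * f w else 0)
      (fun w => D.coeff w / √(hw q w))
    have e1 : ∑ w ∈ D.coeff.support, D.coeff w * (if wl w ∈ I then f w else 0) =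
        ∑ w ∈ D.coeff.support, (if wl w ∈ I then √(hw q w) * f w else 0) *
          (D.coeff w / √(hw q w)) := by
      refine Finset.sum_congr rfl fun w _ => ?_
      have := Real.sqrt_pos.mpr (hw_pos h0 h1 w)
      split_ifs
      · field_simp
      · ring
    rw [e1]
    refine h.trans ?_
    have e2 : ∑ w ∈ D.coeff.support, (if wl w ∈ I then √(hw q w) * f w else 0) ^ 2 ≤ #I := by
      refine le_trans (Finset.sum_le_sum fun w _ => ?_) (sum_hw_le_card h0 h1 D.coeff.support I)
      split_ifs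
      · rw [mul_pow, Real.sq_sqrt (hw_pos h0 h1 w).le]
        have h2 : f w ^ 2 ≤ 1 := by
          rw [← sq_abs]
          exact pow_le_one₀ (abs_nonneg _) (hf w)
        nlinarith [hw_pos h0 h1 w]
      · simp
    have e3 : ∑ w ∈ D.coeff.support, (D.coeff w / √(hw q w)) ^ 2 =
        ∑ w ∈ D.coeff.support, D.coeff w * D.coeff w / hw q w := by
      refine Finset.sum_congr rfl fun w _ => ?_
      rw [div_pow, Real.sq_sqrt (hw_pos h0 h1 w).le, sq]
    rw [e3]
    exact mul_le_mul_of_nonneg_right e2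
      (Finset.sum_nonneg fun w _ => div_nonneg (mul_self_nonneg _) (hw_pos h0 h1 w).le)
  have b2 : ∀ {Z : Ms Wd}, Pos Z → |pr Z (fun w => if wl w ∈ I then 0 else f w)| ≤
      pr Z (fun w => if wl w ∈ I then 0 else 1) := by
    intro Z hZ
    rw [abs_le]
    constructor
    · have h := hZ.pr_mono (f := fun w => (-1) * (if wl w ∈ I then (0 : ℝ) else 1))
        (g := fun w => if wl w ∈ I then 0 else f w) (fun w => by
          split_ifs
          · simp
          · have := (abs_le.1 (hf w)).1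
            linarith)
      rw [pr_mul_fun] at h
      linarith
    · exact hZ.pr_mono fun w => by
        split_ifs
        · exact le_rfl
        · exact (abs_le.1 (hf w)).2
  rw [e]
  refine (abs_add_le _ _).trans ?_
  have h3 := abs_sub (pr A (fun w => if wl w ∈ I then 0 else f w))
    (pr A' (fun w => if wl w ∈ I then 0 else f w))
  have h4 := b2 hA
  have h5 := b2 hA'
  linarith

end Vale.Agent.P321S
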