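import Vale.Agent.Lib.P321S.Binom

/-! Module GOOD (section 3 of docs P321). -/

namespace Vale.Agent.P321S

open Finset

variable {M : Type*} [Monoid M]

/-- good elements: energy `a` relative to `t^n`, which gains `1/√(D+1)` after `D` smearing steps,
also after multiplication on the right by any element of bounded energy. -/
def Gd (t : Ms M) (a : ℝ) (n : ℕ) (X : Ms M) : Prop :=
  ∀ (n' : ℕ) (a' : ℝ) (X' : Ms M), 0 ≤ a' → Q a' X' (t ^ n') →
    ∀ D : ℕ, Q (a * a' / √((D : ℝ) + 1)) (Sit t D (X * X')) (t ^ (D + n + n'))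

/-- (3.0) -/
theorem orth_sum {t z : Ms M} {g b : ℝ} (ht : Prob t) (hz0 : mass z = 0) (hz : Q g z t)
    (hg : 0 ≤ g) (hb : 0 ≤ b) (N : ℕ) (al : ℕ → ℝ) (Y : ℕ → Ms M)
    (hY : ∀ i ≤ N, Q b (Y i) (t ^ (N - i))) :
    Q (g * b * ∑ i ∈ range (N + 1), al i ^ 2)
      (∑ i ∈ range (N + 1), al i • (t ^ i * z * Y i)) (t ^ (N + 1)) := by
  induction N generalizing al Y with
  | zero =>
    have h0 := hY 0 le_rfl
    have h1 := (hz.mul h0 ht.pos hg).smul_left (al 0)
    simp only [Nat.sub_zero, pow_zero, mul_one] at h1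
    simp only [zero_add, Finset.sum_range_one, pow_zero, pow_one, one_mul]
    have e : g * b * al 0 ^ 2 = al 0 ^ 2 * (g * b) := by ring
    rw [e]
    exact h1
  | succ N ih =>
    have h1 := ih (fun i => al (i + 1)) (fun i => Y (i + 1)) (fun i hi => by
      have h := hY (i + 1) (by omega)
      rwa [Nat.add_sub_add_right] at h)
    have h0 := (hY 0 (Nat.zero_le _)).smul_left (al 0)
    rw [Nat.sub_zero] at h0
    have hs : 0 ≤ ∑ i ∈ range (N + 1), al (i + 1) ^ 2 := Finset.sum_nonneg fun i _ => sq_nonneg _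
    have h2 := Q.orth ht.pos ht.mass_eq (ht.pos.pow (N + 1)) hz0 hz h1 h0 hg
      (mul_nonneg (mul_nonneg hg hb) hs) (mul_nonneg (sq_nonneg _) hb)
    rw [← pow_succ'] at h2
    rw [Finset.sum_range_succ' _ (N + 1), Finset.sum_range_succ' _ (N + 1)]
    have e1 : g * b * (∑ i ∈ range (N + 1), al (i + 1) ^ 2 + al 0 ^ 2) =
        g * b * ∑ i ∈ range (N + 1), al (i + 1) ^ 2 + g * (al 0 ^ 2 * b) := by ring
    have e2 : ∑ i ∈ range (N + 1), al (i + 1) • (t ^ (i + 1) * z * Y (i + 1)) +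
        al 0 • (t ^ 0 * z * Y 0) =
        t * ∑ i ∈ range (N + 1), al (i + 1) • (t ^ i * z * Y (i + 1)) + z * (al 0 • Y 0) := by
      rw [Finset.mul_sum, pow_zero, one_mul, mul_smul_comm]
      congr 1
      refine Finset.sum_congr rfl fun i _ => ?_
      rw [mul_smul_comm, pow_succ']
      simp only [mul_assoc]
    rw [e1, e2]
    exact h2

theorem Gd.letter {t z : Ms M} {g : ℝ} (ht : Prob t) (hz0 : mass z = 0) (hz : Q g z t)
    (hg : 0 ≤ g) : Gd t g 1 z := by
  classical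
  intro n' a' X' ha' hX' D
  have h := orth_sum ht hz0 hz hg ha' (D + n') (fun i => (D.choose i : ℝ) / 2 ^ D)
    (fun i => if i ≤ D then X' * t ^ (D - i) else 0) (fun i hi => by
      split_ifs with hd
      · have h1 := hX'.mul (ht.q_pow (D - i)) (ht.pos.pow n') ha'
        rw [mul_one, ← pow_add] at h1
        rw [show D + n' - i = n' + (D - i) by omega]
        exact h1
      · exact Q.zero ha' (ht.pos.pow _))
  have e1 : ∑ i ∈ range (D + n' + 1), ((D.choose i : ℝ) / 2 ^ D) ^ 2 =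
      ∑ i ∈ range (D + 1), ((D.choose i : ℝ) / 2 ^ D) ^ 2 := by
    symm
    refine Finset.sum_subset (fun i hi => ?_) (fun i _ hi => ?_)
    · rw [Finset.mem_range] at hi ⊢
      omega
    · rw [Finset.mem_range, not_lt] at hi
      rw [Nat.choose_eq_zero_of_lt (by omega)]
      simp
  have e2 : ∑ i ∈ range (D + n' + 1), ((D.choose i : ℝ) / 2 ^ D) •
      (t ^ i * z * (if i ≤ D then X' * t ^ (D - i) else 0)) = Sit t D (z * X') := by
    rw [Sit_eq_sum]
    symm
    refine (Finset.sum_congr rfl fun i hi => ?_).trans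
      (Finset.sum_subset (s₁ := range (D + 1)) (fun i hi => ?_) (fun i _ hi => ?_))
    · rw [Finset.mem_range] at hi
      rw [if_pos (by omega)]
      simp only [mul_assoc]
    · rw [Finset.mem_range] at hi ⊢
      omega
    · rw [Finset.mem_range, not_lt] at hi
      rw [Nat.choose_eq_zero_of_lt (by omega)]
      simp
  rw [e1, e2] at h
  rw [show D + 1 + n' = D + n' + 1 by ring]
  refine h.mono (ht.pos.pow _) ?_
  have h3 := mul_le_mul_of_nonneg_left (cb_le D) (mul_nonneg hg ha')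
  refine h3.trans (le_of_eq ?_)
  ring

theorem Gd.zero {t : Ms M} {a : ℝ} (ht : Prob t) (ha : 0 ≤ a) (n : ℕ) : Gd t a n 0 := by
  intro n' a' X' ha' _ D
  rw [zero_mul, Sit_map_zero]
  exact Q.zero (by positivity) (ht.pos.pow _)

theorem Gd.mono {t X : Ms M} {a b : ℝ} {n : ℕ} (h : Gd t a n X) (ht : Prob t) (hab : a ≤ b) :
    Gd t b n X := by
  intro n' a' X' ha' hX' D
  refine (h n' a' X' ha' hX' D).mono (ht.pos.pow _) ?_
  exact div_le_div_of_nonneg_right (mul_le_mul_of_nonneg_right hab ha') (by positivity)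

theorem Gd.right {t X Y : Ms M} {a b : ℝ} {n k : ℕ} (h : Gd t a n X) (ht : Prob t)
    (ha : 0 ≤ a) (hb : 0 ≤ b) (hY : Q b Y (t ^ k)) : Gd t (a * b) (n + k) (X * Y) := by
  intro n' a' X' ha' hX' D
  have h1 := hY.mul hX' (ht.pos.pow k) hb
  rw [← pow_add] at h1
  have h2 := h (k + n') (b * a') (Y * X') (mul_nonneg hb ha') h1 D
  rw [mul_assoc X, show D + (n + k) + n' = D + n + (k + n') by ring, mul_assoc a]
  exact h2

theorem Gd.left {t X : Ms M} {a : ℝ} {n : ℕ} (h : Gd t a n X) (ht : Prob t) (ha : 0 ≤ a)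
    (k : ℕ) : Gd t a (k + n) (t ^ k * X) := by
  intro n' a' X' ha' hX' D
  have h1 := h n' a' X' ha' hX' D
  have h2 := (ht.q_pow k).mul h1 (ht.pos.pow k) zero_le_one
  rw [← pow_add, one_mul, ← Sit_mul_left] at h2
  rw [mul_assoc, show D + (k + n) + n' = k + (D + n + n') by ring]
  exact h2

theorem Gd.add {t X Y : Ms M} {a b : ℝ} {n : ℕ} (h : Gd t a n X) (h' : Gd t b n Y)
    (ht : Prob t) (ha : 0 ≤ a) (hb : 0 ≤ b) : Gd t (2 * a + 2 * b) n (X + Y) := by
  intro n' a' X' ha' hX' D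
  have h1 := (h n' a' X' ha' hX' D).add' (h' n' a' X' ha' hX' D) (ht.pos.pow _)
    (by positivity) (by positivity)
  rw [add_mul X Y X', Sit_map_add]
  have e : (2 * a + 2 * b) * a' / √((D : ℝ) + 1) =
      2 * (a * a' / √((D : ℝ) + 1)) + 2 * (b * a' / √((D : ℝ) + 1)) := by ring
  rw [e]
  exact h1

theorem Gd.smul {t X : Ms M} {a : ℝ} {n : ℕ} (h : Gd t a n X) (c : ℝ) :
    Gd t (c ^ 2 * a) n (c • X) := by
  intro n' a' X' ha' hX' D
  have h1 := (h n' a' X' ha' hX' D).smul_left c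
  rw [smul_mul_assoc, Sit_map_smul]
  have e : c ^ 2 * a * a' / √((D : ℝ) + 1) = c ^ 2 * (a * a' / √((D : ℝ) + 1)) := by ring
  rw [e]
  exact h1

theorem Gd.toQ {t X : Ms M} {a : ℝ} {n : ℕ} (h : Gd t a n X) : Q a X (t ^ n) := by
  have h1 := h 0 1 1 zero_le_one (by rw [pow_zero]; exact Q.one) 0
  rw [Sit_zero, mul_one, mul_one, zero_add, add_zero, Nat.cast_zero, zero_add, Real.sqrt_one,
    div_one] at h1
  exact h1

/-- smearing of a good element in its own sea -/
theorem Gd.smear {t X : Ms M} {a c : ℝ} {n J : ℕ} (h : Gd t a n X) (ha : 0 ≤ a)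
    (ht : Lazy t J c) {N m : ℕ} (hm : (J + 1) * N ≤ m) :
    Q (a / √((N + 1) * (c ^ 2 / 2))) (t ^ m * X * t ^ m) (t ^ (2 * m + n)) := by
  have hc0 := ht.c_pos
  have hc1 := ht.c_le
  have hx0 : 0 < c ^ 2 / 2 := by positivity
  have hx1 : c ^ 2 / 2 ≤ 1 := by nlinarith
  have hD : ∀ D : ℕ, Q (a * (1 / √((D : ℝ) + 1))) (Sit t D X) (t ^ D * t ^ n) := by
    intro D
    have h1 := h 0 1 1 zero_le_one (by rw [pow_zero]; exact Q.one) D
    rw [mul_one, mul_one, add_zero, pow_add] at h1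
    rw [mul_one_div]
    exact h1
  have hs := P321S.smear ht (ht.prob.pos.pow n) ((Commute.refl t).pow_right n)
    (e := fun D => a * (1 / √((D : ℝ) + 1))) (fun D => by positivity) hD N
  rw [Bsum_mul] at hs
  have h2 : Q (a / √((N + 1) * (c ^ 2 / 2))) (t ^ ((J + 1) * N) * X * t ^ ((J + 1) * N))
      (t ^ (2 * ((J + 1) * N)) * t ^ n) := by
    refine hs.mono ((ht.prob.pos.pow _).mul (ht.prob.pos.pow _)) ?_
    refine (mul_le_mul_of_nonneg_left (Bsum_inv_sqrt hx0 hx1) ha).trans (le_of_eq ?_)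
    ring
  obtain ⟨r, rfl⟩ := Nat.exists_eq_add_of_le hm
  have h3 := h2.sandwich (by positivity) ((ht.prob.pos.pow _).mul (ht.prob.pos.pow _))
    (ht.prob.pos.pow r) (ht.prob.pos.pow r)
  rw [(ht.prob.pow r).mass_eq, one_mul, one_mul] at h3
  have e1 : t ^ r * (t ^ ((J + 1) * N) * X * t ^ ((J + 1) * N)) * t ^ r =
      t ^ ((J + 1) * N + r) * X * t ^ ((J + 1) * N + r) := by
    rw [add_comm ((J + 1) * N) r, pow_add, ← pow_add t r, add_comm r ((J + 1) * N), pow_add,
      ← pow_add]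
    simp only [mul_assoc, ← pow_add]
    rw [← mul_assoc (t ^ r), ← pow_add, add_comm r]
  have e2 : t ^ r * (t ^ (2 * ((J + 1) * N)) * t ^ n) * t ^ r =
      t ^ (2 * ((J + 1) * N + r) + n) := by
    rw [← pow_add, ← pow_add, ← pow_add]
    congr 1
    ring
  rw [e1, e2] at h3
  exact h3

end Vale.Agent.P321S
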