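import Vale.Agent.Lib.P321S.CrystalB
import Vale.Agent.Lib.P321S.Flat
import Vale.Agent.Lib.P321S.Good

/-! Module CRYSTAL C (section 12 of docs P321): transfer of an overlap, powers of `bb`,
concentration of the length. -/

namespace Vale.Agent.P321S

open Finset

/-- transfer of an overlap -/
theorem overlap_transfer {M : Type*} {α β γ : Ms M} {K : ℝ} (hα : Pos α) (hβ : Pos β)
    (hγ : Pos γ) (mα : mass α = 1) (mβ : mass β = 1) (mγ : mass γ = 1) (hK : 0 ≤ K)
    (h : Q K (α - β) β) (h' : N1 (1 / 2) (α - γ)) :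
    N1 (2 * (1 - 1 / (8 * (1 + K)))) (β - γ) := by
  have hK1 : 0 < 1 + K := by linarith
  -- `χ²`-domination of `α` by `β`
  have hQ : ∀ f : M → ℝ, (pr α f) ^ 2 ≤ (1 + K) * pr β (fun w => f w ^ 2) := by
    intro f
    set c := pr β f with hc
    have h1 := h (fun w => f w - c)
    rw [pr_sub_fun, pr_const, mass_sub, mα, mβ, sub_self, mul_zero, sub_zero, pr_sub] at h1
    have h2 : pr β (fun w => (f w - c) ^ 2) = pr β (fun w => f w ^ 2) - c ^ 2 := by
      have e1 : (fun w => (f w - c) ^ 2) = fun w => (f w ^ 2 - (2 * c) * f w) + c ^ 2 := by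
        funext w
        ring
      rw [e1, pr_add_fun, pr_sub_fun, pr_mul_fun, pr_const, mβ, ← hc]
      ring
    rw [h2, ← hc] at h1
    -- (c + e)² ≤ (1 + K)(c² + e² / K), without division
    have hP : c ^ 2 ≤ pr β (fun w => f w ^ 2) := by
      have h3 : 0 ≤ pr β (fun w => (f w - c) ^ 2) := hβ.pr_nonneg fun _ => sq_nonneg _
      rw [h2] at h3
      linarith
    set P := pr β (fun w => f w ^ 2) with hPdef
    set e := pr α f - c with he
    have e1 : pr α f = c + e := by rw [he]; ring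
    rw [e1]
    rcases hK.eq_or_lt with h0 | h0
    · have h3 : e = 0 := by
        rw [← h0, zero_mul] at h1
        exact pow_eq_zero_iff (two_ne_zero) |>.mp (le_antisymm h1 (sq_nonneg _))
      rw [h3, ← h0]
      linarith
    · -- K (c+e)² ≤ (1+K)(K c² + e²) ≤ K (1+K) P
      have h3 : K * (c + e) ^ 2 ≤ (1 + K) * (K * c ^ 2 + e ^ 2) := by
        nlinarith [sq_nonneg (K * c - e)]
      have h4 : K * (c + e) ^ 2 ≤ K * ((1 + K) * P) := by nlinarith
      exact le_of_mul_le_mul_left h4 h0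
  -- the main estimate
  have key : ∀ g : M → ℝ, (∀ w, 0 ≤ g w) → (∀ w, g w ≤ 1) →
      pr γ g - pr β g ≤ 1 - 1 / (8 * (1 + K)) := by
    intro g hg0 hg1
    set u := pr α g with hu
    have hu0 : 0 ≤ u := hα.pr_nonneg hg0
    have hv1 : pr γ g ≤ 1 := by
      rw [← mγ]
      exact hγ.pr_mono hg1
    have h1 : pr γ g ≤ u + 1 / 4 := by
      have h2 := h' (fun w => 2 * g w - 1) (fun w => by
        rw [abs_le]
        constructor <;> linarith [hg0 w, hg1 w])
      rw [pr_sub_fun, pr_mul_fun, pr_const, mass_sub, mα, mγ, pr_sub] at h2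
      have := (abs_le.1 h2).1
      rw [← hu] at this
      linarith
    have h2 : u ^ 2 ≤ (1 + K) * pr β g := by
      refine (hQ g).trans (mul_le_mul_of_nonneg_left (hβ.pr_mono fun w => ?_) hK1.le)
      nlinarith [hg0 w, hg1 w]
    have h3 : u ^ 2 / (1 + K) ≤ pr β g := by
      rw [div_le_iff₀ hK1]
      linarith
    rcases le_or_gt u (3 / 4) with h4 | h4
    · have h5 : 1 / (8 * (1 + K)) ≤ u ^ 2 / (1 + K) + (3 / 4 - u) := by
        have e2 : u ^ 2 / (1 + K) + (3 / 4 - u) = (u ^ 2 + (3 / 4 - u) * (1 + K)) / (1 + K) := by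
          field_simp
        have e3 : 1 / (8 * (1 + K)) = (1 / 8) / (1 + K) := by
          field_simp
        rw [e2, e3]
        refine div_le_div_of_nonneg_right ?_ hK1.le
        nlinarith [sq_nonneg (u - 1 / 2), mul_nonneg (sub_nonneg.mpr h4) hK]
      linarith
    · have h5 : 1 / (8 * (1 + K)) ≤ u ^ 2 / (1 + K) := by
        have e3 : 1 / (8 * (1 + K)) = (1 / 8) / (1 + K) := by
          field_simp
        rw [e3]
        refine div_le_div_of_nonneg_right ?_ hK1.le
        nlinarith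
      linarith
  intro f hf
  have h1 := key (fun w => (1 - f w) / 2) (fun w => by linarith [(abs_le.1 (hf w)).2])
    (fun w => by linarith [(abs_le.1 (hf w)).1])
  have h2 := key (fun w => (1 + f w) / 2) (fun w => by linarith [(abs_le.1 (hf w)).1])
    (fun w => by linarith [(abs_le.1 (hf w)).2])
  have e1 : (fun w => (1 - f w) / 2) = fun w => 1 / 2 - (1 / 2) * f w := by
    funext w
    ring
  have e2 : (fun w => (1 + f w) / 2) = fun w => 1 / 2 + (1 / 2) * f w := by
    funext w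
    ring
  rw [e1, pr_sub_fun, pr_sub_fun, pr_const, pr_const, pr_mul_fun, pr_mul_fun, mγ, mβ] at h1
  rw [e2, pr_add_fun, pr_add_fun, pr_const, pr_const, pr_mul_fun, pr_mul_fun, mγ, mβ] at h2
  rw [pr_sub, abs_le]
  constructor <;> linarith

/-- energy of one step -/
theorem bb_step_q {M : Type*} [Monoid M] {b : Ms M} {g : ℝ} (hb : Prob b) (hg : 0 ≤ g)
    (hz : Q g (1 - b) b) (N : ℕ) : Q (g / (N + 1)) ((1 - b) * b ^ N) (b ^ (N + 1)) := by
  have hz0 : mass (1 - b) = 0 := by rw [mass_sub, mass_one, hb.mass_eq, sub_self]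
  have h := orth_sum hb hz0 hz hg zero_le_one N (fun _ => 1 / ((N : ℝ) + 1))
    (fun i => b ^ (N - i)) (fun i _ => hb.q_pow _)
  have e1 : ∑ i ∈ range (N + 1), (1 / ((N : ℝ) + 1)) • (b ^ i * (1 - b) * b ^ (N - i)) =
      (1 - b) * b ^ N := by
    have e2 : ∀ i ∈ range (N + 1), (1 / ((N : ℝ) + 1)) • (b ^ i * (1 - b) * b ^ (N - i)) =
        (1 / ((N : ℝ) + 1)) • ((1 - b) * b ^ N) := by
      intro i hi
      have hi' : i ≤ N := Nat.lt_succ_iff.mp (mem_range.mp hi)
      have hc : Commute (b ^ i) (1 - b) :=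
        (Commute.one_right _).sub_right ((Commute.refl b).pow_left i)
      rw [hc.eq, mul_assoc, ← pow_add, Nat.add_sub_cancel' hi']
    rw [sum_congr rfl e2, sum_const, card_range, ← Nat.cast_smul_eq_nsmul ℝ, smul_smul]
    push_cast
    rw [mul_one_div_cancel (by positivity), one_smul]
  rw [e1] at h
  have e3 : g * 1 * ∑ i ∈ range (N + 1), (1 / ((N : ℝ) + 1)) ^ 2 = g / (N + 1) := by
    rw [sum_const, card_range, nsmul_eq_mul]
    push_cast
    field_simp
  rwa [e3] at h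

/-- `χ²(b^(m-k) | b^m) = O(1/m)` -/
theorem bb_pow_q {q : ℝ} (h0 : 0 < q) (h1 : q < 1) (k : ℕ) : ∃ C : ℝ, 0 < C ∧
    ∀ m : ℕ, 2 * k ≤ m → 1 ≤ m → Q (C / m) (bb q ^ (m - k) - bb q ^ m) (bb q ^ m) := by
  have hb := bb_prob h0.le h1.le
  have q1 : Q (1 / q ^ 2) (1 : Ms Wd) (bb q) := by
    have h := (((pos_one (M := Wd)).smul (sq_nonneg q)).q_dom
      (one_dom_bb h0.le h1.le)).smul_left (1 / q ^ 2)
    have hq2 : q ^ 2 ≠ 0 := by positivity
    rw [smul_smul, mass_smul, mass_one, one_div, inv_mul_cancel₀ hq2, one_smul] at h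
    have e : ((q ^ 2)⁻¹) ^ 2 * (q ^ 2 * 1) = 1 / q ^ 2 := by field_simp
    rwa [e] at h
  have q2 : Q 1 (bb q) (bb q) := by
    have := hb.q_pow 1
    rwa [pow_one] at this
  have hz := q1.sub' q2 hb.pos (by positivity) zero_le_one
  obtain ⟨g, hg⟩ : ∃ g : ℝ, g = 2 * (1 / q ^ 2) + 2 * 1 := ⟨_, rfl⟩
  rw [← hg] at hz
  have hg0 : 0 ≤ g := by rw [hg]; positivity
  -- changing the power of the reference measure
  have hd : ∀ i j : ℕ, Dom (bb q ^ i) (((1 / q ^ 2) ^ j) • bb q ^ (i + j)) := by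
    intro i j
    induction j with
    | zero => simpa using Dom.refl _
    | succ j ih =>
      refine ih.trans ?_
      have h2 : Dom (1 : Ms Wd) ((1 / q ^ 2) • bb q) := by
        have h3 := (one_dom_bb h0.le h1.le).smul (c := 1 / q ^ 2) (by positivity)
        rwa [smul_smul, one_div, inv_mul_cancel₀ (by positivity), one_smul, ← one_div] at h3
      have h4 := (h2.mul_left (hb.pos.pow (i + j))).smul (c := (1 / q ^ 2) ^ j) (by positivity)
      rw [mul_one, mul_smul_comm, smul_smul, ← pow_succ, ← pow_succ] at h4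
      exact h4
  refine ⟨(k : ℝ) ^ 2 * ((1 / q ^ 2) ^ k * (2 * g)) + 1, by positivity, fun m hkm hm => ?_⟩
  have hm0 : (0 : ℝ) < m := by exact_mod_cast hm
  have hkm' : 2 * (k : ℝ) ≤ m := by exact_mod_cast hkm
  have hq1 : 1 ≤ 1 / q ^ 2 := by
    rw [one_le_div (by positivity)]
    exact pow_le_one₀ h0.le h1.le
  have hterm : ∀ j ∈ range k, Q ((1 / q ^ 2) ^ k * (2 * g) / m)
      ((1 - bb q) * bb q ^ (m - k + j)) (bb q ^ m) := by
    intro j hj
    have hj' := mem_range.mp hj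
    have h2 := bb_step_q hb hg0 hz (m - k + j)
    have h3 := hd (m - k + j + 1) (k - j - 1)
    have e1 : m - k + j + 1 + (k - j - 1) = m := by omega
    rw [e1] at h3
    have h4 := h2.dom_smul (by positivity) h3
    refine h4.mono (hb.pos.pow _) ?_
    rw [mul_div_assoc]
    refine mul_le_mul ?_ ?_ (by positivity) (by positivity)
    · exact pow_le_pow_right₀ hq1 (by omega)
    · have e2 : ((m - k + j : ℕ) : ℝ) = (m : ℝ) - k + j := by
        push_cast [Nat.cast_sub (show k ≤ m by omega)]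
        ring
      rw [e2, div_le_div_iff₀ (by
        have : (0 : ℝ) ≤ j := by positivity
        linarith) hm0]
      have : (0 : ℝ) ≤ j := by positivity
      nlinarith
  have hs := Q.wsum (c := fun _ => (1 : ℝ)) (hb.pos.pow m) (by positivity) hterm
  simp only [abs_one, sum_const, card_range, nsmul_eq_mul, mul_one, one_smul] at hs
  have e1 : ∑ j ∈ range k, (1 - bb q) * bb q ^ (m - k + j) = bb q ^ (m - k) - bb q ^ m := by
    have e2 := sum_range_sub' (fun j => bb q ^ (m - k + j)) k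
    simp only [add_zero] at e2
    rw [Nat.sub_add_cancel (show k ≤ m by omega)] at e2
    rw [← e2]
    refine sum_congr rfl fun j _ => ?_
    rw [sub_mul, one_mul, ← pow_succ', add_assoc]
  rw [e1] at hs
  refine hs.mono (hb.pos.pow m) ?_
  rw [← mul_div_assoc]
  exact div_le_div_of_nonneg_right (by linarith) hm0.le

/-! ### the length -/

theorem pr_bet (q : ℝ) (f : Wd → ℝ) :
    pr (bet q) f = ∑ a, om q a * f (FreeMonoid.of a) := by
  unfold bet sg
  rw [pr_sum]
  refine sum_congr rfl fun a _ => ?_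
  rw [pr_smul, pr_single, one_mul]

theorem sum_om (q : ℝ) : ∑ a, om q a = 1 - q ^ 2 := by
  rw [Fin.sum_univ_three]
  have h2 : (om q 0) = (1 - q) * q := by simp [om]
  have h3 : (om q 1) = (1 - q) * q := by simp [om]
  have h4 : (om q 2) = (1 - q) ^ 2 := by simp [om]
  rw [h2, h3, h4]
  ring

/-- a measure `s • 1 + (mass 1 - s on letters)` -/
theorem mv_letters {X : Ms Wd} {μ : ℝ} (hX : Prob X) (hμ0 : 0 ≤ μ) (hμ1 : μ ≤ 1)
    (h : ∀ g : ℕ → ℝ, pr X (fun w => g (FreeMonoid.length w)) = (1 - μ) * g 0 + μ * g 1) :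
    MV X μ 1 := by
  refine ⟨hX, ?_, ?_⟩
  · have := h (fun n => (n : ℝ))
    unfold len
    rw [this]
    simp
  · have := h (fun n => ((n : ℝ) - μ) ^ 2)
    unfold len
    rw [this]
    simp only [Nat.cast_zero, Nat.cast_one, zero_sub]
    nlinarith

theorem mv_bb {q : ℝ} (h0 : 0 < q) (h1 : q < 1) : MV (bb q) (1 - q ^ 2) 1 := by
  refine mv_letters (bb_prob h0.le h1.le) (by nlinarith) (by nlinarith) fun g => ?_
  unfold bb
  rw [pr_add, pr_smul, pr_one, pr_bet]
  simp only [FreeMonoid.length_one, FreeMonoid.length_of]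
  rw [← sum_mul, sum_om]
  ring

theorem mv_dd {q : ℝ} (h0 : 0 < q) (h1 : q < 1) : MV (dd q) (1 - q) 1 := by
  refine mv_letters (dd_prob h0.le h1.le) (by linarith) (by linarith) fun g => ?_
  unfold dd sg
  rw [pr_add, pr_smul, pr_one, pr_smul, pr_single]
  simp only [FreeMonoid.length_one, FreeMonoid.length_of]
  ring

theorem hh_prob {q : ℝ} (h0 : 0 < q) (h1 : q < 1) : Prob (hh q) := by
  constructor
  · exact (pos_one.smul h0.le).add ((bh_pos h0 h1).smul (by linarith))
  · unfold hh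
    rw [mass_add, mass_smul, mass_smul, mass_one, bh_mass h0 h1]
    ring

theorem mv_hh {q : ℝ} (h0 : 0 < q) (h1 : q < 1) : MV (hh q) (1 - q) 1 := by
  refine mv_letters (hh_prob h0 h1) (by linarith) (by linarith) fun g => ?_
  have h : (1 - q ^ 2) ≠ 0 := by nlinarith
  unfold hh bh
  rw [pr_add, pr_smul, pr_one, pr_smul, pr_smul, pr_bet]
  simp only [FreeMonoid.length_one, FreeMonoid.length_of]
  rw [← sum_mul, sum_om]
  field_simp
  ring

theorem cheb {X : Ms Wd} {μ V : ℝ} (h : MV X μ V) {w : ℕ} (hw : 1 ≤ w) :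
    pr X (fun x => if |(wl x : ℝ) - μ| ≤ w then 0 else 1) ≤ V / (w : ℝ) ^ 2 := by
  have hw0 : (0 : ℝ) < w := by exact_mod_cast hw
  rw [le_div_iff₀ (by positivity)]
  refine le_trans ?_ h.var
  rw [mul_comm, ← pr_mul_fun]
  refine h.prob.pos.pr_mono fun x => ?_
  have e : (wl x : ℝ) = len x := rfl
  rw [e]
  split_ifs with h1
  · rw [mul_zero]
    exact sq_nonneg _
  · push Not at h1
    rw [mul_one, ← sq_abs (len x - μ)]
    exact pow_le_pow_left₀ hw0.le h1.le 2

/-- the length of the trace is concentrated (Chebyshev) -/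
theorem length_tail {q : ℝ} (h0 : 0 < q) (h1 : q < 1) (n₁ n₂ l w : ℕ) (hw : 1 ≤ w)
    (μ : ℝ) (hμ : μ = ((n₁ : ℝ) + n₂) * l * (1 - q ^ 2) + l * (1 - q)) :
    pr ((bb q ^ n₁ * dd q * bb q ^ n₂) ^ l) (fun x => if |(wl x : ℝ) - μ| ≤ w then 0 else 1) ≤
        (((n₁ : ℝ) + n₂) * l + l) / (w : ℝ) ^ 2 ∧
    pr (bb q ^ ((n₁ + n₂) * l) * hh q ^ l) (fun x => if |(wl x : ℝ) - μ| ≤ w then 0 else 1) ≤
        (((n₁ : ℝ) + n₂) * l + l) / (w : ℝ) ^ 2 := by
  have hb := mv_bb h0 h1
  constructor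
  · have h := ((((hb.pow n₁).mul (mv_dd h0 h1)).mul (hb.pow n₂)).pow l)
    have e1 : (l : ℝ) * (n₁ * (1 - q ^ 2) + (1 - q) + n₂ * (1 - q ^ 2)) = μ := by
      rw [hμ]
      ring
    have e2 : (l : ℝ) * (n₁ * 1 + 1 + n₂ * 1) = ((n₁ : ℝ) + n₂) * l + l := by ring
    rw [e1, e2] at h
    exact cheb h hw
  · have h := (hb.pow ((n₁ + n₂) * l)).mul ((mv_hh h0 h1).pow l)
    have e1 : (((n₁ + n₂) * l : ℕ) : ℝ) * (1 - q ^ 2) + l * (1 - q) = μ := by
      rw [hμ]
      push_cast
      ring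
    have e2 : (((n₁ + n₂) * l : ℕ) : ℝ) * 1 + l * 1 = ((n₁ : ℝ) + n₂) * l + l := by
      push_cast
      ring
    rw [e1, e2] at h
    exact cheb h hw

end Vale.Agent.P321S
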