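import Vale.Agent.Lib.P321S.Binom

/-! Module LAZY (section 6 of docs P321). -/

namespace Vale.Agent.P321S

open Finset

variable {M : Type*} [Monoid M]

/-- (6.1) -/
theorem Q.pow_sub_add {ν u : Ms M} {U : ℝ} (hν : Prob ν) (hu : mass u = 0) (hU : 0 ≤ U)
    (h : Q U u ν) (n : ℕ) :
    Q ((1 + U) ^ n - 1) ((ν + u) ^ n - ν ^ n) (ν ^ n) ∧ Q ((1 + U) ^ n) ((ν + u) ^ n) (ν ^ n) := by
  induction n with
  | zero =>
    constructor
    · simp only [pow_zero, sub_self]
      exact Q.zero le_rfl pos_one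
    · simpa using Q.one (M := M)
  | succ n ih =>
    have h1 : (1 : ℝ) ≤ (1 + U) ^ n := one_le_pow₀ (by linarith)
    constructor
    · have h2 := Q.orth hν.pos hν.mass_eq (hν.pos.pow n) hu h ih.1 ih.2 hU (by linarith)
        (by linarith)
      have e1 : ν * ((ν + u) ^ n - ν ^ n) + u * (ν + u) ^ n = (ν + u) ^ (n + 1) - ν ^ (n + 1) := by
        rw [pow_succ', pow_succ']
        noncomm_ring
      have e2 : (1 + U) ^ n - 1 + U * (1 + U) ^ n = (1 + U) ^ (n + 1) - 1 := by ring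
      rw [e1, e2, ← pow_succ'] at h2
      exact h2
    · have h2 := Q.orth hν.pos hν.mass_eq (hν.pos.pow n) hu h ih.2 ih.2 hU (by linarith)
        (by linarith)
      have e1 : ν * (ν + u) ^ n + u * (ν + u) ^ n = (ν + u) ^ (n + 1) := by
        rw [pow_succ']
        noncomm_ring
      have e2 : (1 + U) ^ n + U * (1 + U) ^ n = (1 + U) ^ (n + 1) := by ring
      rw [e1, e2, ← pow_succ'] at h2
      exact h2

theorem one_add_pow_le {U : ℝ} {n : ℕ} (hU : 0 ≤ U) (h : n * U ≤ 1) :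
    (1 + U) ^ n - 1 ≤ 2 * (n * U) := by
  have h0 : 0 ≤ n * U := by positivity
  have h1 : (1 + U) ^ n ≤ Real.exp (n * U) := by
    rw [Real.exp_nat_mul]
    exact pow_le_pow_left₀ (by linarith) (by linarith [Real.add_one_le_exp U]) n
  have h2 := Real.abs_exp_sub_one_le (x := n * U) (by rw [abs_of_nonneg h0]; exact h)
  rw [abs_of_nonneg h0] at h2
  have h3 := (abs_le.mp h2).2
  linarith

/-- telescoping in `L¹` -/
theorem N1.pow_sub {a b : Ms M} {ε : ℝ} (ha : N1 1 a) (hb : N1 1 b) (h : N1 ε (a - b)) (n : ℕ) :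
    N1 (n * ε) (a ^ n - b ^ n) := by
  have hpow : ∀ n : ℕ, N1 1 (a ^ n) := by
    intro n
    induction n with
    | zero => simpa using N1.one (M := M)
    | succ n ih =>
      rw [pow_succ]
      simpa using ih.mul ha
  induction n with
  | zero => simpa using N1.zero (M := M)
  | succ n ih =>
    have h1 := ((hpow n).mul h).add (ih.mul hb)
    have e1 : a ^ n * (a - b) + (a ^ n - b ^ n) * b = a ^ (n + 1) - b ^ (n + 1) := by
      rw [pow_succ, pow_succ]
      noncomm_ring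
    rw [e1] at h1
    exact h1.mono (by push_cast; linarith)

/-- (6.2) laziness propagates to the next level -/
theorem lazy_up {t t' ν' : Ms M} {J J' L N : ℕ} {c U ε : ℝ} (ht : Lazy t J c)
    (ht' : Prob t') (hν' : Prob ν') (hU : 0 ≤ U) (hQ : Q U (t' - ν') ν')
    (hε : 0 ≤ ε) (hε1 : ε ≤ 1) (hd : Dom ((1 - ε) • t ^ L) ν')
    (h1 : (J + 1) * N ≤ L * J') (h2 : 16 * (L : ℝ) ^ 2 ≤ (N + 1) * c)
    (h3 : 64 * ((J' : ℝ) + 1) * U ≤ 1) (h4 : 32 * ε * ((J' : ℝ) + 1) ≤ 1) :
    Lazy t' J' (1 / 4) := by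
  have hJ : (0 : ℝ) ≤ (J' : ℝ) := Nat.cast_nonneg _
  -- `t'^n` is close to `ν'^n`
  have hA : ∀ n : ℕ, n ≤ J' + 1 → N1 (1 / 4) (t' ^ n - ν' ^ n) := by
    intro n hn
    have hn' : (n : ℝ) ≤ (J' : ℝ) + 1 := by exact_mod_cast hn
    have hnU : (n : ℝ) * U ≤ 1 / 64 := by
      have := mul_le_mul_of_nonneg_right hn' hU
      linarith
    have hu : mass (t' - ν') = 0 := by rw [mass_sub, ht'.mass_eq, hν'.mass_eq, sub_self]
    have h5 := (Q.pow_sub_add hν' hu hU hQ n).1
    rw [add_sub_cancel] at h5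
    have h6 := one_add_pow_le (n := n) hU (by linarith)
    have h7 := h5.mono (hν'.pos.pow n) (h6.trans (b := 2 * (n * U)) (c := 1 / 32) (by linarith))
    have h8 := h7.n1 (hν'.pos.pow n) (by rw [(hν'.pow n).mass_eq]) (by norm_num)
    refine h8.mono ?_
    rw [Real.sqrt_le_left (by norm_num)]
    norm_num
  -- `ν'^n` is close to `t^(L n)`
  have hB : ∀ n : ℕ, n ≤ J' + 1 → N1 (1 / 16) (ν' ^ n - t ^ (L * n)) := by
    intro n hn
    have hn' : (n : ℝ) ≤ (J' : ℝ) + 1 := by exact_mod_cast hn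
    have htL := ht.prob.pow L
    have hrest : Pos (ν' - (1 - ε) • t ^ L) := dom_iff_pos.mp hd
    have hm : mass (ν' - (1 - ε) • t ^ L) = ε := by
      rw [mass_sub, mass_smul, hν'.mass_eq, htL.mass_eq]; ring
    have h5 := hrest.n1
    rw [hm] at h5
    have h6 : N1 ε (ε • t ^ L) := by
      have := htL.n1.smul ε
      rwa [abs_of_nonneg hε, mul_one] at this
    have h7 : N1 (2 * ε) (ν' - t ^ L) := by
      have h8 := h5.sub h6
      have e : ν' - (1 - ε) • t ^ L - ε • t ^ L = ν' - t ^ L := by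
        rw [sub_smul, one_smul]; abel
      rw [e] at h8
      exact h8.mono (by linarith)
    have h8 := N1.pow_sub hν'.n1 htL.n1 h7 n
    rw [← pow_mul] at h8
    refine h8.mono ?_
    have : (n : ℝ) * ε ≤ ((J' : ℝ) + 1) * ε := mul_le_mul_of_nonneg_right hn' hε
    linarith
  -- laziness of `t`
  have hC : N1 (1 / 2) (t ^ (L * J' + L) - t ^ (L * J')) := by
    have h5 := lazy_pow ht N L (L * J') h1
    refine h5.mono ?_
    rcases Nat.eq_zero_or_pos L with h0 | h0
    · subst h0; simp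
    · have hL : (0 : ℝ) < L := by exact_mod_cast h0
      have h6 : 4 * (L : ℝ) ≤ √((N + 1) * c) := by
        apply Real.le_sqrt_of_sq_le
        linarith
      rw [div_le_iff₀ (by linarith)]
      linarith
  refine ⟨ht', by norm_num, by norm_num, ?_⟩
  have e1 : L * J' + L = L * (J' + 1) := by ring
  rw [e1] at hC
  have h5 := ((hA (J' + 1) le_rfl).trans (hB (J' + 1) le_rfl)).trans hC
  have h6 := (hB J' (by omega)).symm
  have h7 := (hA J' (by omega)).symm
  have h8 := (h5.trans h6).trans h7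
  exact h8.mono (by norm_num)

end Vale.Agent.P321S
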