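import Vale.Agent.Lib.P321S.CrystalF
import Vale.Agent.Lib.P321S.CrystalG
import Vale.Agent.Lib.P321S.LazyUp

/-! Module CRYSTAL (section 12 of docs P321): Lemma M. -/

namespace Vale.Agent.P321S

open Finset

/-- the neutral laws with `j+1` and `j` neutral letters are close -/
theorem neutral_shift {q : ℝ} (h0 : 0 < q) (h1 : q < 1) (N j : ℕ) :
    N1 (2 / √(((N : ℝ) + 1) * q ^ 2))
      (bb q ^ N * nl q ^ (j + 1) - bb q ^ N * nl q ^ j) := by
  have hs : (1 : ℝ) - q ^ 2 ≠ 0 := by nlinarith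
  have hq1 : (1 : ℝ) + q ≠ 0 := by linarith
  have e1 : nl q - 1 = (1 / (1 + q)) • (bb q - 1) := by
    unfold nl bern
    rw [lt_omn]
    unfold bb
    have e2 : (1 - q) * (1 / (1 - q ^ 2)) = 1 / (1 + q) := by
      field_simp
      ring
    rw [smul_smul, e2, smul_sub, smul_add, smul_smul]
    have e3 : (1 / (1 + q) * q ^ 2 - 1 / (1 + q)) = (1 - (1 - q)) - 1 := by
      field_simp
      ring
    have e4 : (1 / (1 + q) * q ^ 2) • (1 : Ms Wd) + (1 / (1 + q)) • bet q -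
        (1 / (1 + q)) • (1 : Ms Wd) =
        (1 / (1 + q) * q ^ 2 - 1 / (1 + q)) • (1 : Ms Wd) + (1 / (1 + q)) • bet q := by
      module
    rw [e4, e3]
    module
  have hnl : Prob (nl q) := prob_bern (omn_wts h0 h1) (by linarith) (by linarith)
  have h2 := lazy_pow (bb_lazy h0 h1) N 1 N (by omega)
  have e5 : bb q ^ N * nl q ^ (j + 1) - bb q ^ N * nl q ^ j =
      ((1 / (1 + q)) • (bb q ^ (N + 1) - bb q ^ N)) * nl q ^ j := by
    have e6 : bb q ^ N * nl q ^ (j + 1) - bb q ^ N * nl q ^ j =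
        bb q ^ N * (nl q - 1) * nl q ^ j := by
      rw [pow_succ']; noncomm_ring
    rw [e6, e1, mul_smul_comm, mul_sub, mul_one, ← pow_succ]
  rw [e5]
  have h3 := (h2.smul (1 / (1 + q))).mul (hnl.pow j).n1
  refine h3.mono ?_
  rw [mul_one, abs_of_pos (by positivity)]
  have h4 : 1 / (1 + q) ≤ 1 := by
    rw [div_le_one (by linarith)]; linarith
  have h5 : 0 ≤ 2 * ((1 : ℕ) : ℝ) / √(((N : ℝ) + 1) * q ^ 2) := by positivity
  calc 1 / (1 + q) * (2 * ((1 : ℕ) : ℝ) / √(((N : ℝ) + 1) * q ^ 2)) ≤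
      1 * (2 * ((1 : ℕ) : ℝ) / √(((N : ℝ) + 1) * q ^ 2)) := mul_le_mul_of_nonneg_right h4 h5
    _ = 2 / √(((N : ℝ) + 1) * q ^ 2) := by push_cast; ring

/-- LEMMA M -/
theorem crystal_lazy {q : ℝ} (h0 : 0 < q) (h1 : q < 1) : ∃ (k i₀ : ℕ) (c : ℝ), 1 ≤ k ∧ 0 < c ∧
    ∀ i : ℕ, i₀ ≤ i → Lazy (bb q ^ (k * i) * dd q * bb q ^ (k * i)) (2 * i - 1) c := by
  have hb := bb_prob h0.le h1.le
  have hd := dd_prob h0.le h1.le
  obtain ⟨c0, hc0, n0, hM3⟩ := crystal_neutral' h0 h1 (1 / 8) (by norm_num)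
  obtain ⟨k, hk⟩ : ∃ k : ℕ, 2 / c0 + 1 ≤ k := ⟨⌈2 / c0 + 1⌉₊, Nat.le_ceil _⟩
  have hk2 : 2 ≤ c0 * k := by
    have : 2 / c0 ≤ k := by linarith
    rw [div_le_iff₀ hc0] at this
    linarith
  have hk1 : 1 ≤ k := by
    by_contra hcon
    have : k = 0 := by omega
    rw [this] at hk2
    norm_num at hk2
  obtain ⟨C, hC0, hC⟩ := bb_pow_q h0 h1 k
  obtain ⟨K, hK⟩ : ∃ K : ℝ, K = Real.exp (2 * C / k) := ⟨_, rfl⟩
  have hK0 : 0 < K := by rw [hK]; exact Real.exp_pos _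
  obtain ⟨i1, hi1⟩ : ∃ i1 : ℕ, 64 / q ^ 2 * 4 ≤ i1 := ⟨⌈64 / q ^ 2 * 4⌉₊, Nat.le_ceil _⟩
  refine ⟨k, max (max n0 i1) 2, 1 / (8 * (1 + K)), hk1, by positivity, ?_⟩
  intro i hi
  have hin0 : n0 ≤ i := le_trans (le_trans (le_max_left _ _) (le_max_left _ _)) hi
  have hii1 : i1 ≤ i := le_trans (le_trans (le_max_right _ _) (le_max_left _ _)) hi
  have hi2 : 2 ≤ i := le_trans (le_max_right _ _) hi
  obtain ⟨j, rfl⟩ : ∃ j, i = j + 1 := ⟨i - 1, by omega⟩
  have hkR : (0 : ℝ) < k := by exact_mod_cast hk1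
  have hT : Prob (bb q ^ (k * (j + 1)) * dd q * bb q ^ (k * (j + 1))) :=
    ((hb.pow _).mul hd).mul (hb.pow _)
  have hA : Prob (bb q ^ (k * (j + 1) - k) * dd q * bb q ^ (k * (j + 1))) :=
    ((hb.pow _).mul hd).mul (hb.pow _)
  refine ⟨hT, by positivity, ?_, ?_⟩
  · rw [div_le_one (by positivity)]; linarith
  have e2i : 2 * (j + 1) - 1 + 1 = 2 * (j + 1) := by omega
  rw [e2i]
  -- apply the transfer
  have hj1 : 1 ≤ j := by omega
  have hmk : k * (j + 1) - k = k * j := by rw [mul_add, mul_one, Nat.add_sub_cancel]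
  have hkj : j ≤ k * j := Nat.le_mul_of_pos_left j (by omega)
  have hA1 := hM3 (k * (j + 1) - k) (k * (j + 1)) (2 * (j + 1))
    (by rw [hmk, mul_add]; omega) (by rw [hmk, mul_add]; nlinarith)
    (by rw [hmk, mul_add]; omega) (by
      rw [hmk]; push_cast
      have : (1 : ℝ) ≤ j := by exact_mod_cast hj1
      nlinarith)
  have hT1 := hM3 (k * (j + 1)) (k * (j + 1)) (2 * (j + 1) - 1)
    (by rw [mul_add]; omega) (by omega) (by omega) (by
      rw [Nat.cast_sub (by omega)]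
      push_cast
      have : (1 : ℝ) ≤ j := by exact_mod_cast hj1
      nlinarith)
  -- the two neutral laws
  have eN1 : (k * (j + 1) - k + k * (j + 1)) * (2 * (j + 1)) =
      (k * (j + 1) + k * (j + 1)) * (2 * (j + 1) - 1) := by
    rw [hmk]
    have : 2 * (j + 1) - 1 = 2 * j + 1 := by omega
    rw [this]; ring
  rw [eN1] at hA1
  have hsh := neutral_shift h0 h1 ((k * (j + 1) + k * (j + 1)) * (2 * (j + 1) - 1))
    (2 * (j + 1) - 1)
  rw [e2i] at hsh
  have hshn : 2 / √(((((k * (j + 1) + k * (j + 1)) * (2 * (j + 1) - 1) : ℕ) : ℝ) + 1) * q ^ 2)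
      ≤ 1 / 8 := by
    have hbig : (64 / q ^ 2 * 4 : ℝ) ≤
        (((k * (j + 1) + k * (j + 1)) * (2 * (j + 1) - 1) : ℕ) : ℝ) + 1 := by
      have h5 : j + 1 ≤ (k * (j + 1) + k * (j + 1)) * (2 * (j + 1) - 1) := by
        have h6 : j + 1 ≤ k * (j + 1) := Nat.le_mul_of_pos_left _ (by omega)
        have h7 : 1 ≤ 2 * (j + 1) - 1 := by omega
        calc j + 1 ≤ (k * (j + 1) + k * (j + 1)) * 1 := by omega
          _ ≤ _ := Nat.mul_le_mul_left _ h7
      have h8 : (i1 : ℝ) ≤ (((k * (j + 1) + k * (j + 1)) * (2 * (j + 1) - 1) : ℕ) : ℝ) := by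
        exact_mod_cast hii1.trans h5
      linarith
    have h9 : (16 : ℝ) ≤
        √(((((k * (j + 1) + k * (j + 1)) * (2 * (j + 1) - 1) : ℕ) : ℝ) + 1) * q ^ 2) := by
      apply Real.le_sqrt_of_sq_le
      have hq2 : 0 < q ^ 2 := by positivity
      have := mul_le_mul_of_nonneg_right hbig hq2.le
      have e : 64 / q ^ 2 * 4 * q ^ 2 = 256 := by field_simp; norm_num
      rw [e] at this
      linarith
    rw [div_le_iff₀ (by linarith)]
    linarith
  have hAT : N1 (1 / 2) ((bb q ^ (k * (j + 1) - k) * dd q * bb q ^ (k * (j + 1))) ^ (2 * (j + 1)) -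
      (bb q ^ (k * (j + 1)) * dd q * bb q ^ (k * (j + 1))) ^ (2 * (j + 1) - 1)) := by
    have := (hA1.trans hsh).trans hT1.symm
    refine this.mono ?_
    linarith
  -- the energy
  have hen : Q K ((bb q ^ (k * (j + 1) - k) * dd q * bb q ^ (k * (j + 1))) ^ (2 * (j + 1)) -
      (bb q ^ (k * (j + 1)) * dd q * bb q ^ (k * (j + 1))) ^ (2 * (j + 1)))
      ((bb q ^ (k * (j + 1)) * dd q * bb q ^ (k * (j + 1))) ^ (2 * (j + 1))) := by
    have hm0 : 1 ≤ k * (j + 1) := Nat.one_le_iff_ne_zero.2 (by positivity)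
    have h5 := hC (k * (j + 1)) (by rw [mul_comm 2 k]; exact Nat.mul_le_mul_left _ (by omega)) hm0
    have hr : Q 1 (dd q * bb q ^ (k * (j + 1))) (dd q * bb q ^ (k * (j + 1))) := by
      have := (hd.mul (hb.pow (k * (j + 1)))).q_pow 1
      rwa [pow_one] at this
    have h6 := h5.mul hr (hb.pow _).pos (by positivity)
    rw [mul_one] at h6
    have e6 : (bb q ^ (k * (j + 1) - k) - bb q ^ (k * (j + 1))) * (dd q * bb q ^ (k * (j + 1))) =
        bb q ^ (k * (j + 1) - k) * dd q * bb q ^ (k * (j + 1)) -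
          bb q ^ (k * (j + 1)) * dd q * bb q ^ (k * (j + 1)) := by
      rw [sub_mul, mul_assoc, mul_assoc]
    rw [e6, ← mul_assoc] at h6
    have h7 := (Q.pow_sub_add hT (by rw [mass_sub, hA.mass_eq, hT.mass_eq, sub_self])
      (by positivity) h6 (2 * (j + 1))).1
    rw [add_sub_cancel] at h7
    refine h7.mono (hT.pow _).pos ?_
    have h8 : (1 + C / ((k * (j + 1) : ℕ) : ℝ)) ^ (2 * (j + 1)) ≤ K := by
      rw [hK]
      have h9 : 1 + C / ((k * (j + 1) : ℕ) : ℝ) ≤ Real.exp (C / ((k * (j + 1) : ℕ) : ℝ)) := by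
        have := Real.add_one_le_exp (C / ((k * (j + 1) : ℕ) : ℝ))
        linarith
      calc (1 + C / ((k * (j + 1) : ℕ) : ℝ)) ^ (2 * (j + 1)) ≤
            (Real.exp (C / ((k * (j + 1) : ℕ) : ℝ))) ^ (2 * (j + 1)) :=
            pow_le_pow_left₀ (by positivity) h9 _
        _ = Real.exp (2 * C / k) := by
            rw [← Real.exp_nat_mul]
            congr 1
            push_cast
            have : (j : ℝ) + 1 ≠ 0 := by positivity
            field_simp
    linarith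
  exact overlap_transfer (hA.pow _).pos (hT.pow _).pos (hT.pow _).pos (hA.pow _).mass_eq
    (hT.pow _).mass_eq (hT.pow _).mass_eq hK0.le hen hAT

end Vale.Agent.P321S
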