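import Vale.Agent.Lib.P321S.Binom

/-! Module CRYSTAL A (section 12 of docs P321): the `F`-form on the free monoid. -/

namespace Vale.Agent.P321S

open Finset

variable {A : Type*} [Fintype A]

/-- a combination of letters -/
noncomputable def lt (u : A → ℝ) : Ms (FreeMonoid A) :=
  ∑ a, MonoidAlgebra.single (FreeMonoid.of a) (u a)

omit [Fintype A] in
/-- product weight of a word -/
noncomputable def wt (ω : A → ℝ) : FreeMonoid A →* ℝ := FreeMonoid.lift ω

omit [Fintype A] in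
/-- length of a word -/
noncomputable def len (w : FreeMonoid A) : ℝ := (w.length : ℝ)

/-- `(1-s) + s β` where `β = lt ω` -/
noncomputable def bern (ω : A → ℝ) (s : ℝ) : Ms (FreeMonoid A) := (1 - s) • 1 + s • lt ω

theorem pr_lt (u : A → ℝ) (f : FreeMonoid A → ℝ) :
    pr (lt u) f = ∑ a, u a * f (FreeMonoid.of a) := by
  rw [lt, pr_sum]
  exact Finset.sum_congr rfl (fun a _ => pr_single _ _ _)

theorem pr_lt_mul (u : A → ℝ) (X : Ms (FreeMonoid A)) (f : FreeMonoid A → ℝ) :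
    pr (lt u * X) f = ∑ a, u a * pr X (fun w => f (FreeMonoid.of a * w)) := by
  rw [pr_mul, pr_lt]

omit [Fintype A] in
theorem of_mul_inj {a a' : A} {w w' : FreeMonoid A} :
    FreeMonoid.of a * w = FreeMonoid.of a' * w' ↔ a = a' ∧ w = w' := by
  constructor
  · intro h
    have h1 : (a :: FreeMonoid.toList w) = (a' :: FreeMonoid.toList w') := congrArg FreeMonoid.toList h
    simpa using h1
  · rintro ⟨rfl, rfl⟩; rfl

omit [Fintype A] in
theorem of_mul_ne_one {a : A} {w : FreeMonoid A} : FreeMonoid.of a * w ≠ 1 := by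
  intro h
  have := congrArg FreeMonoid.length h
  rw [FreeMonoid.length_mul, FreeMonoid.length_of, FreeMonoid.length_one] at this
  omega

theorem coeff_lt_mul (v : A → ℝ) (Y : Ms (FreeMonoid A)) (a : A) (w : FreeMonoid A) :
    (lt v * Y).coeff (FreeMonoid.of a * w) = v a * Y.coeff w := by
  classical
  rw [coeff_eq_pr, pr_lt_mul, coeff_eq_pr Y w]
  rw [Finset.sum_eq_single a]
  · congr 2
    funext w'
    have : (FreeMonoid.of a * w' = FreeMonoid.of a * w) = (w' = w) := by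
      rw [of_mul_inj]; simp
    simp only [this]
  · intro b _ hb
    have : (fun w' => if FreeMonoid.of b * w' = FreeMonoid.of a * w then (1:ℝ) else 0) =
        fun _ => 0 := by
      funext w'
      rw [if_neg]
      rw [of_mul_inj]
      exact fun h => hb h.1
    rw [this, pr_zero_fun, mul_zero]
  · intro h; exact absurd (Finset.mem_univ a) h

theorem coeff_lt_mul_one (v : A → ℝ) (Y : Ms (FreeMonoid A)) :
    (lt v * Y).coeff 1 = 0 := by
  classical
  rw [coeff_eq_pr, pr_lt_mul]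
  apply Finset.sum_eq_zero
  intro b _
  have : (fun w' => if FreeMonoid.of b * w' = (1 : FreeMonoid A) then (1:ℝ) else 0) =
      fun _ => 0 := by
    funext w'
    rw [if_neg of_mul_ne_one]
  rw [this, pr_zero_fun, mul_zero]

omit [Fintype A] in
theorem coeff_one_one : (1 : Ms (FreeMonoid A)).coeff 1 = 1 := by
  classical
  rw [coeff_eq_pr, pr_one]; simp

omit [Fintype A] in
theorem coeff_one_of_mul (a : A) (w : FreeMonoid A) :
    (1 : Ms (FreeMonoid A)).coeff (FreeMonoid.of a * w) = 0 := by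
  classical
  rw [coeff_eq_pr, pr_one, if_neg]
  exact fun h => of_mul_ne_one h.symm

omit [Fintype A] in
theorem wt_of_mul (ω : A → ℝ) (a : A) (w : FreeMonoid A) :
    wt ω (FreeMonoid.of a * w) = ω a * wt ω w := by
  rw [map_mul]; rfl

omit [Fintype A] in
theorem wt_pos {ω : A → ℝ} (hω : ∀ a, 0 < ω a) (w : FreeMonoid A) : 0 < wt ω w := by
  induction w using FreeMonoid.inductionOn' with
  | one => rw [map_one]; norm_num
  | of_mul b a ih => rw [wt_of_mul]; exact mul_pos (hω b) ih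

/-! ### the form -/

omit [Fintype A] in
/-- the weighted inner product `∑ X(w) Y(w) / ω̂(w)` -/
noncomputable def F (ω : A → ℝ) (X Y : Ms (FreeMonoid A)) : ℝ :=
  pr X (fun w => Y.coeff w / wt ω w)

omit [Fintype A] in
theorem F_eq_sum (ω : A → ℝ) {X Y : Ms (FreeMonoid A)} {s : Finset (FreeMonoid A)}
    (h : X.coeff.support ⊆ s) :
    F ω X Y = ∑ w ∈ s, X.coeff w * (Y.coeff w / wt ω w) := pr_eq_sum h _

omit [Fintype A] in
theorem F_comm (ω : A → ℝ) (X Y : Ms (FreeMonoid A)) : F ω X Y = F ω Y X := by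
  classical
  rw [F_eq_sum ω (Finset.subset_union_left : X.coeff.support ⊆ X.coeff.support ∪ Y.coeff.support),
    F_eq_sum ω (Finset.subset_union_right : Y.coeff.support ⊆ X.coeff.support ∪ Y.coeff.support)]
  exact Finset.sum_congr rfl (fun w _ => by ring)

omit [Fintype A] in
theorem F_add_left (ω : A → ℝ) (X X' Y : Ms (FreeMonoid A)) :
    F ω (X + X') Y = F ω X Y + F ω X' Y := pr_add _ _ _

omit [Fintype A] in
theorem F_add_right (ω : A → ℝ) (X Y Y' : Ms (FreeMonoid A)) :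
    F ω X (Y + Y') = F ω X Y + F ω X Y' := by
  rw [F_comm, F_add_left, F_comm ω Y, F_comm ω Y']

omit [Fintype A] in
theorem F_smul_left (ω : A → ℝ) (c : ℝ) (X Y : Ms (FreeMonoid A)) :
    F ω (c • X) Y = c * F ω X Y := pr_smul _ _ _

omit [Fintype A] in
theorem F_smul_right (ω : A → ℝ) (c : ℝ) (X Y : Ms (FreeMonoid A)) :
    F ω X (c • Y) = c * F ω X Y := by
  rw [F_comm, F_smul_left, F_comm ω Y]

omit [Fintype A] in
theorem F_sum_left (ω : A → ℝ) {ι : Type*} (s : Finset ι) (X : ι → Ms (FreeMonoid A))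
    (Y : Ms (FreeMonoid A)) : F ω (∑ i ∈ s, X i) Y = ∑ i ∈ s, F ω (X i) Y := pr_sum _ _ _

omit [Fintype A] in
theorem F_sum_right (ω : A → ℝ) {ι : Type*} (s : Finset ι) (X : ι → Ms (FreeMonoid A))
    (Y : Ms (FreeMonoid A)) : F ω Y (∑ i ∈ s, X i) = ∑ i ∈ s, F ω Y (X i) := by
  rw [F_comm, F_sum_left]
  exact Finset.sum_congr rfl (fun i _ => F_comm _ _ _)

omit [Fintype A] in
theorem F_self_nonneg {ω : A → ℝ} (hω : ∀ a, 0 < ω a) (X : Ms (FreeMonoid A)) :
    0 ≤ F ω X X := by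
  rw [F_eq_sum ω (Finset.Subset.refl _)]
  apply Finset.sum_nonneg
  intro w _
  have := wt_pos hω w
  have h2 : X.coeff w * (X.coeff w / wt ω w) = X.coeff w ^ 2 / wt ω w := by ring
  rw [h2]
  positivity

omit [Fintype A] in
theorem F_le {ω : A → ℝ} (hω : ∀ a, 0 < ω a) (X Y : Ms (FreeMonoid A)) :
    F ω X Y ≤ (F ω X X + F ω Y Y) / 2 := by
  have h := F_self_nonneg hω (X + (-1 : ℝ) • Y)
  rw [F_add_left, F_add_right, F_add_right, F_smul_left, F_smul_left, F_smul_right,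
    F_smul_right, F_comm ω Y X] at h
  linarith

theorem F_lt_lt (ω : A → ℝ) (u v : A → ℝ) (X Y : Ms (FreeMonoid A)) :
    F ω (lt u * X) (lt v * Y) = (∑ a, u a * v a / ω a) * F ω X Y := by
  unfold F
  rw [pr_lt_mul, Finset.sum_mul]
  apply Finset.sum_congr rfl
  intro a _
  have : (fun w => (lt v * Y).coeff (FreeMonoid.of a * w) / wt ω (FreeMonoid.of a * w)) =
      fun w => (v a / ω a) * (Y.coeff w / wt ω w) := by
    funext w
    rw [coeff_lt_mul, wt_of_mul, mul_div_mul_comm]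
  rw [this, pr_mul_fun]
  ring

theorem F_one_lt (ω : A → ℝ) (v : A → ℝ) (Y : Ms (FreeMonoid A)) :
    F ω 1 (lt v * Y) = 0 := by
  unfold F
  rw [pr_one, coeff_lt_mul_one, zero_div]

omit [Fintype A] in
theorem F_one_one (ω : A → ℝ) : F ω 1 1 = 1 := by
  unfold F
  rw [pr_one, coeff_one_one, map_one, div_one]

/-- hypotheses on the weights -/
structure Wts (ω : A → ℝ) : Prop where
  pos : ∀ a, 0 < ω a
  sum_eq : ∑ a, ω a = 1

theorem Wts.beta_beta {ω : A → ℝ} (hω : Wts ω) (X Y : Ms (FreeMonoid A)) :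
    F ω (lt ω * X) (lt ω * Y) = F ω X Y := by
  rw [F_lt_lt]
  have : ∑ a, ω a * ω a / ω a = 1 := by
    rw [← hω.sum_eq]
    apply Finset.sum_congr rfl
    intro a _
    have := (hω.pos a).ne'
    field_simp
  rw [this, one_mul]

theorem Wts.z_beta {ω ζ : A → ℝ} (hω : Wts ω) (hζ : ∑ a, ζ a = 0) (X Y : Ms (FreeMonoid A)) :
    F ω (lt ζ * X) (lt ω * Y) = 0 := by
  rw [F_lt_lt]
  have : ∑ a, ζ a * ω a / ω a = 0 := by
    rw [← hζ]
    apply Finset.sum_congr rfl
    intro a _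
    have := (hω.pos a).ne'
    field_simp
  rw [this, zero_mul]

theorem Wts.beta_z {ω ζ : A → ℝ} (hω : Wts ω) (hζ : ∑ a, ζ a = 0) (X Y : Ms (FreeMonoid A)) :
    F ω (lt ω * X) (lt ζ * Y) = 0 := by
  rw [F_comm]; exact hω.z_beta hζ Y X

/-- neutral elements: polynomials in `β` -/
def Neu (ω : A → ℝ) (B : Ms (FreeMonoid A)) : Prop :=
  ∃ P : Polynomial ℝ, B = Polynomial.aeval (lt ω) P

theorem Neu.one (ω : A → ℝ) : Neu ω 1 := ⟨1, by simp⟩

theorem Neu.beta (ω : A → ℝ) : Neu ω (lt ω) := ⟨Polynomial.X, by simp⟩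

theorem Neu.add {ω : A → ℝ} {B B' : Ms (FreeMonoid A)} (h : Neu ω B) (h' : Neu ω B') :
    Neu ω (B + B') := by
  obtain ⟨P, rfl⟩ := h
  obtain ⟨P', rfl⟩ := h'
  exact ⟨P + P', by simp⟩

theorem Neu.mul {ω : A → ℝ} {B B' : Ms (FreeMonoid A)} (h : Neu ω B) (h' : Neu ω B') :
    Neu ω (B * B') := by
  obtain ⟨P, rfl⟩ := h
  obtain ⟨P', rfl⟩ := h'
  exact ⟨P * P', by simp⟩

theorem Neu.smul {ω : A → ℝ} {B : Ms (FreeMonoid A)} (h : Neu ω B) (c : ℝ) :
    Neu ω (c • B) := by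
  obtain ⟨P, rfl⟩ := h
  exact ⟨c • P, by simp⟩

theorem Neu.pow {ω : A → ℝ} {B : Ms (FreeMonoid A)} (h : Neu ω B) (n : ℕ) :
    Neu ω (B ^ n) := by
  obtain ⟨P, rfl⟩ := h
  exact ⟨P ^ n, by simp⟩

theorem Neu.bern (ω : A → ℝ) (s : ℝ) : Neu ω (bern ω s) :=
  ((Neu.one ω).smul _).add ((Neu.beta ω).smul _)

theorem Neu.commute {ω : A → ℝ} {B B' : Ms (FreeMonoid A)} (h : Neu ω B) (h' : Neu ω B') :
    Commute B B' := by
  obtain ⟨P, rfl⟩ := h
  obtain ⟨P', rfl⟩ := h'
  unfold Commute SemiconjBy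
  rw [← map_mul, ← map_mul, mul_comm]

theorem Neu.eq_sum {ω : A → ℝ} {B : Ms (FreeMonoid A)} (h : Neu ω B) :
    ∃ (N : ℕ) (a : ℕ → ℝ), B = ∑ i ∈ range N, a i • lt ω ^ i := by
  obtain ⟨P, rfl⟩ := h
  exact ⟨P.natDegree + 1, P.coeff, Polynomial.aeval_eq_sum_range _⟩

theorem Wts.pow_pow {ω ζ : A → ℝ} (hω : Wts ω) (hζ : ∑ a, ζ a = 0) (X Y : Ms (FreeMonoid A))
    (j : ℕ) : ∀ j', F ω (lt ω ^ j * (lt ζ * X)) (lt ω ^ j' * (lt ζ * Y)) =
      (∑ a, ζ a ^ 2 / ω a) * F ω (lt ω ^ j) (lt ω ^ j') * F ω X Y := by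
  induction j with
  | zero =>
    intro j'
    cases j' with
    | zero =>
      simp only [pow_zero, one_mul]
      rw [F_lt_lt, F_one_one, mul_one]
      congr 1
      exact Finset.sum_congr rfl (fun a _ => by rw [sq])
    | succ j' =>
      rw [pow_zero, one_mul, pow_succ', mul_assoc, hω.z_beta hζ, F_one_lt]
      ring
  | succ j ih =>
    intro j'
    cases j' with
    | zero =>
      rw [pow_zero, one_mul, pow_succ', mul_assoc, hω.beta_z hζ, F_comm ω (lt ω * lt ω ^ j),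
        F_one_lt]
      ring
    | succ j' =>
      rw [pow_succ', pow_succ', mul_assoc, mul_assoc, hω.beta_beta, hω.beta_beta, ih j']

/-- (F4) -/
theorem Wts.neu_neu {ω ζ : A → ℝ} (hω : Wts ω) (hζ : ∑ a, ζ a = 0) (X Y : Ms (FreeMonoid A))
    {B B' : Ms (FreeMonoid A)} (h : Neu ω B) (h' : Neu ω B') :
    F ω (B * (lt ζ * X)) (B' * (lt ζ * Y)) =
      (∑ a, ζ a ^ 2 / ω a) * F ω B B' * F ω X Y := by
  obtain ⟨N, a, rfl⟩ := h.eq_sum
  obtain ⟨N', a', rfl⟩ := h'.eq_sum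
  rw [Finset.sum_mul, Finset.sum_mul, F_sum_left, F_sum_left, Finset.mul_sum, Finset.sum_mul]
  apply Finset.sum_congr rfl
  intro i _
  rw [F_sum_right, F_sum_right, Finset.mul_sum, Finset.sum_mul]
  apply Finset.sum_congr rfl
  intro j _
  rw [smul_mul_assoc, smul_mul_assoc, F_smul_left, F_smul_right, F_smul_left, F_smul_right,
    hω.pow_pow hζ]
  ring

/-- (F5) -/
theorem Wts.neu_z {ω ζ : A → ℝ} (hω : Wts ω) (hζ : ∑ a, ζ a = 0) (Y : Ms (FreeMonoid A))
    {B B' : Ms (FreeMonoid A)} (h : Neu ω B) (h' : Neu ω B') :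
    F ω B (B' * (lt ζ * Y)) = 0 := by
  have key : ∀ j j', F ω (lt ω ^ j) (lt ω ^ j' * (lt ζ * Y)) = 0 := by
    intro j
    induction j with
    | zero =>
      intro j'
      cases j' with
      | zero => rw [pow_zero, one_mul, F_one_lt]
      | succ j' => rw [pow_zero, pow_succ', mul_assoc, F_one_lt]
    | succ j ih =>
      intro j'
      cases j' with
      | zero => rw [pow_zero, one_mul, pow_succ', hω.beta_z hζ]
      | succ j' => rw [pow_succ', pow_succ', mul_assoc, hω.beta_beta, ih j']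
  obtain ⟨N, a, rfl⟩ := h.eq_sum
  obtain ⟨N', a', rfl⟩ := h'.eq_sum
  rw [Finset.sum_mul, F_sum_left]
  apply Finset.sum_eq_zero
  intro i _
  rw [F_sum_right]
  apply Finset.sum_eq_zero
  intro j _
  rw [smul_mul_assoc, F_smul_left, F_smul_right, key, mul_zero, mul_zero]

end Vale.Agent.P321S
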