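import Vale.Agent.Lib.P321S.CrystalA

/-! Module CRYSTAL B (section 12 of docs P321): sup bounds, means and variances, collisions. -/

namespace Vale.Agent.P321S

open Finset

variable {A : Type*} [Fintype A]

omit [Fintype A] in
/-- `B ≤ σ ω̂` coefficientwise -/
def SupB (ω : A → ℝ) (σ : ℝ) (B : Ms (FreeMonoid A)) : Prop := ∀ w, B.coeff w ≤ σ * wt ω w

omit [Fintype A] in
theorem SupB.nonneg {ω : A → ℝ} {σ : ℝ} {B : Ms (FreeMonoid A)}
    (h : SupB ω σ B) (hB : Pos B) : 0 ≤ σ := by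
  have h1 := h 1
  rw [map_one (wt ω), mul_one] at h1
  exact (hB 1).trans h1

omit [Fintype A] in
theorem SupB.mono {ω : A → ℝ} (hω : ∀ a, 0 < ω a) {σ σ' : ℝ} {B : Ms (FreeMonoid A)}
    (h : SupB ω σ B) (hle : σ ≤ σ') : SupB ω σ' B :=
  fun w => (h w).trans (mul_le_mul_of_nonneg_right hle (wt_pos hω w).le)

omit [Fintype A] in
theorem SupB.add {ω : A → ℝ} {σ σ' : ℝ} {B B' : Ms (FreeMonoid A)}
    (h : SupB ω σ B) (h' : SupB ω σ' B') : SupB ω (σ + σ') (B + B') := by
  intro w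
  have e : (B + B').coeff w = B.coeff w + B'.coeff w := rfl
  rw [e, add_mul]
  exact add_le_add (h w) (h' w)

omit [Fintype A] in
theorem SupB.smul {ω : A → ℝ} {σ c : ℝ} {B : Ms (FreeMonoid A)}
    (h : SupB ω σ B) (hc : 0 ≤ c) : SupB ω (c * σ) (c • B) := by
  intro w
  have e : (c • B).coeff w = c * B.coeff w := rfl
  rw [e, mul_assoc]
  exact mul_le_mul_of_nonneg_left (h w) hc

theorem SupB.beta {ω : A → ℝ} (hω : ∀ a, 0 < ω a) {σ : ℝ} {B : Ms (FreeMonoid A)}
    (h : SupB ω σ B) (hσ : 0 ≤ σ) : SupB ω σ (lt ω * B) := by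
  intro w
  cases w with
  | one => rw [coeff_lt_mul_one, map_one]; linarith
  | of_mul a w =>
    rw [coeff_lt_mul, wt_of_mul]
    have := mul_le_mul_of_nonneg_left (h w) (hω a).le
    linarith

theorem SupB.bern_mul {ω : A → ℝ} (hω : ∀ a, 0 < ω a) {σ s : ℝ} {B : Ms (FreeMonoid A)}
    (h : SupB ω σ B) (hσ : 0 ≤ σ) (hs0 : 0 ≤ s) (hs1 : s ≤ 1) : SupB ω σ (bern ω s * B) := by
  have h1 := (h.smul (sub_nonneg.2 hs1)).add ((h.beta hω hσ).smul hs0)
  have e : (1 - s) * σ + s * σ = σ := by ring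
  rw [e] at h1
  rw [bern, add_mul, smul_mul_assoc, smul_mul_assoc, one_mul]
  exact h1

theorem SupB.bern_pow_mul {ω : A → ℝ} (hω : ∀ a, 0 < ω a) {σ s : ℝ} {B : Ms (FreeMonoid A)}
    (h : SupB ω σ B) (hσ : 0 ≤ σ) (hs0 : 0 ≤ s) (hs1 : s ≤ 1) (n : ℕ) :
    SupB ω σ (bern ω s ^ n * B) := by
  induction n with
  | zero => rw [pow_zero, one_mul]; exact h
  | succ n ih => rw [pow_succ', mul_assoc]; exact ih.bern_mul hω hσ hs0 hs1

theorem coeff_beta_pow (ω : A → ℝ) (i : ℕ) : ∀ w : FreeMonoid A,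
    (lt ω ^ i).coeff w = if w.length = i then wt ω w else 0 := by
  induction i with
  | zero =>
    intro w
    cases w with
    | one => simp
    | of_mul a w =>
      rw [pow_zero, coeff_one_of_mul, if_neg]
      rw [FreeMonoid.length_mul, FreeMonoid.length_of]; omega
  | succ i ih =>
    intro w
    cases w with
    | one => rw [pow_succ', coeff_lt_mul_one, if_neg]; rw [FreeMonoid.length_one]; omega
    | of_mul a w =>
      rw [pow_succ', coeff_lt_mul, ih, wt_of_mul, FreeMonoid.length_mul, FreeMonoid.length_of]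
      have : (1 + w.length = i + 1) = (w.length = i) := by
        apply propext; omega
      simp only [this]
      split_ifs <;> simp

theorem half_pow_sup {ω : A → ℝ} (hω : ∀ a, 0 < ω a) (D : ℕ) :
    SupB ω (1 / √((D : ℝ) + 1)) (((1 / 2 : ℝ) • (1 + lt ω)) ^ D) := by
  intro w
  have h1 : ((1 / 2 : ℝ) • (1 + lt ω)) ^ D =
      ∑ i ∈ range (D + 1), ((D.choose i : ℝ) / 2 ^ D) • lt ω ^ i := by
    rw [smul_pow, add_comm, (Commute.one_right (lt ω)).add_pow, Finset.smul_sum]
    apply Finset.sum_congr rfl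
    intro i _
    rw [one_pow, mul_one]
    have : lt ω ^ i * (D.choose i : Ms (FreeMonoid A)) = (D.choose i : ℝ) • lt ω ^ i := by
      rw [← nsmul_eq_mul', ← Nat.cast_smul_eq_nsmul ℝ]
    rw [this, smul_smul]
    congr 1
    rw [one_div, inv_pow, div_eq_inv_mul]
  have h2 : (((1 / 2 : ℝ) • (1 + lt ω)) ^ D).coeff w =
      ∑ i ∈ range (D + 1), ((D.choose i : ℝ) / 2 ^ D) * (lt ω ^ i).coeff w := by
    classical
    rw [h1, coeff_eq_pr, pr_sum]
    apply Finset.sum_congr rfl
    intro i _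
    rw [pr_smul, ← coeff_eq_pr]
  rw [h2]
  have h3 : ∀ i ∈ range (D + 1), ((D.choose i : ℝ) / 2 ^ D) * (lt ω ^ i).coeff w =
      if w.length = i then ((D.choose i : ℝ) / 2 ^ D) * wt ω w else 0 := by
    intro i _
    rw [coeff_beta_pow]
    split_ifs <;> simp
  rw [Finset.sum_congr rfl h3, Finset.sum_ite_eq]
  have hw := (wt_pos hω w).le
  split_ifs
  · exact mul_le_mul_of_nonneg_right (choose_div_le D _) hw
  · positivity

theorem SupB.bern_pow_gen {ω : A → ℝ} (hω : ∀ a, 0 < ω a) {s : ℝ} (hs0 : 0 ≤ s) (hs1 : s ≤ 1)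
    (N : ℕ) : ∀ (Z : Ms (FreeMonoid A)) (e : ℕ → ℝ), (∀ D, 0 ≤ e D) →
      (∀ D, SupB ω (e D) (((1 / 2 : ℝ) • (1 + lt ω)) ^ D * Z)) →
      SupB ω (Bsum N (2 * min s (1 - s)) e) (bern ω s ^ N * Z) := by
  obtain ⟨x, hx⟩ : ∃ x, x = 2 * min s (1 - s) := ⟨_, rfl⟩
  rw [← hx]
  have hx0 : 0 ≤ x := by
    rw [hx]; have : 0 ≤ min s (1 - s) := le_min hs0 (by linarith)
    linarith
  have hx1 : x ≤ 1 := by
    rw [hx]
    rcases le_total s (1 - s) with h | h
    · rw [min_eq_left h]; linarith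
    · rw [min_eq_right h]; linarith
  obtain ⟨H, hH⟩ : ∃ H : Ms (FreeMonoid A), H = (1 / 2 : ℝ) • (1 + lt ω) := ⟨_, rfl⟩
  rw [← hH]
  obtain ⟨E, hE, hbern, hcomm⟩ : ∃ E : Ms (FreeMonoid A), (E = 1 ∨ E = lt ω) ∧
      bern ω s = x • H + (1 - x) • E ∧ Commute H E := by
    rcases le_total s (1 - s) with h | h
    · refine ⟨1, Or.inl rfl, ?_, Commute.one_right _⟩
      rw [hx, min_eq_left h, hH, bern, smul_smul, smul_add]
      have e1 : 2 * s * (1 / 2) = s := by ring
      rw [e1]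
      have e2 : s • (1 : Ms (FreeMonoid A)) + s • lt ω + (1 - 2 * s) • (1 : Ms (FreeMonoid A)) =
          (s + (1 - 2 * s)) • (1 : Ms (FreeMonoid A)) + s • lt ω := by
        rw [add_smul]; abel
      rw [e2]
      congr 2
      ring
    · refine ⟨lt ω, Or.inr rfl, ?_, ?_⟩
      · rw [hx, min_eq_right h, hH, bern, smul_smul, smul_add]
        have e1 : 2 * (1 - s) * (1 / 2) = 1 - s := by ring
        rw [e1, add_assoc, ← add_smul]
        congr 2
        ring
      · rw [hH]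
        exact (((Commute.one_left _).add_left (Commute.refl _)).smul_left _)
  induction N with
  | zero =>
    intro Z e he h
    rw [Bsum_zero, pow_zero, one_mul]
    have := h 0
    rwa [pow_zero, one_mul] at this
  | succ N ih =>
    intro Z e he h
    have eZ : bern ω s * Z = x • (H * Z) + (1 - x) • (E * Z) := by
      rw [hbern, add_mul, smul_mul_assoc, smul_mul_assoc]
    rw [Bsum_succ, pow_succ, mul_assoc (bern ω s ^ N), eZ, mul_add, mul_smul_comm, mul_smul_comm]
    apply SupB.add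
    · apply SupB.smul _ hx0
      apply ih (H * Z) (fun D => e (D + 1)) (fun D => he _)
      intro D
      rw [← mul_assoc, ← pow_succ]
      exact h (D + 1)
    · apply SupB.smul _ (by linarith)
      apply ih (E * Z) e he
      intro D
      rw [← mul_assoc, (hcomm.pow_left D).eq, mul_assoc]
      rcases hE with rfl | rfl
      · rw [one_mul]; exact h D
      · exact (h D).beta hω (he D)

theorem bern_pow_sup {ω : A → ℝ} (hω : ∀ a, 0 < ω a) {s : ℝ} (hs0 : 0 < s) (hs1 : s < 1)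
    (N : ℕ) : SupB ω (1 / √(((N : ℝ) + 1) * (2 * min s (1 - s)))) (bern ω s ^ N) := by
  have h := SupB.bern_pow_gen hω hs0.le hs1.le N 1 (fun D => 1 / √((D : ℝ) + 1))
    (fun D => by positivity) (fun D => by rw [mul_one]; exact half_pow_sup hω D)
  rw [mul_one] at h
  refine h.mono hω ?_
  apply Bsum_inv_sqrt
  · have : 0 < min s (1 - s) := lt_min hs0 (by linarith)
    linarith
  · rcases le_total s (1 - s) with h | h
    · rw [min_eq_left h]; linarith
    · rw [min_eq_right h]; linarith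

/-! ### means and variances -/

omit [Fintype A] in
/-- probability measure with mean length `μ` and variance of the length at most `V` -/
structure MV (X : Ms (FreeMonoid A)) (μ V : ℝ) : Prop where
  prob : Prob X
  mean : pr X len = μ
  var : pr X (fun w => (len w - μ) ^ 2) ≤ V

omit [Fintype A] in
theorem len_mul (u v : FreeMonoid A) : len (u * v) = len u + len v := by
  unfold len; rw [FreeMonoid.length_mul]; push_cast; ring

omit [Fintype A] in
theorem MV.one : MV (1 : Ms (FreeMonoid A)) 0 0 := by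
  refine ⟨Prob.one, ?_, ?_⟩
  · rw [pr_one]; simp [len]
  · rw [pr_one]; simp [len]

omit [Fintype A] in
theorem MV.mono {X : Ms (FreeMonoid A)} {μ V V' : ℝ} (h : MV X μ V) (hV : V ≤ V') : MV X μ V' :=
  ⟨h.prob, h.mean, h.var.trans hV⟩

omit [Fintype A] in
theorem MV.mul {X Y : Ms (FreeMonoid A)} {μ V μ' V' : ℝ} (h : MV X μ V) (h' : MV Y μ' V') :
    MV (X * Y) (μ + μ') (V + V') := by
  refine ⟨h.prob.mul h'.prob, ?_, ?_⟩
  · rw [pr_mul]
    have : (fun u => pr Y (fun v => len (u * v))) = fun u => len u + μ' := by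
      funext u
      have e : (fun v => len (u * v)) = fun v => len u + len v := by
        funext v; exact len_mul u v
      rw [e, pr_add_fun, pr_const, h'.prob.mass_eq, h'.mean, mul_one]
    rw [this, pr_add_fun, pr_const, h.prob.mass_eq, h.mean, mul_one]
  · rw [pr_mul]
    have : (fun u => pr Y (fun v => (len (u * v) - (μ + μ')) ^ 2)) =
        fun u => (len u - μ) ^ 2 + pr Y (fun v => (len v - μ') ^ 2) := by
      funext u
      have e : (fun v => (len (u * v) - (μ + μ')) ^ 2) =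
          fun v => ((len u - μ) ^ 2 + 2 * (len u - μ) * (len v - μ')) + (len v - μ') ^ 2 := by
        funext v; rw [len_mul]; ring
      rw [e, pr_add_fun, pr_add_fun, pr_const, pr_mul_fun, pr_sub_fun, pr_const,
        h'.prob.mass_eq, h'.mean]
      ring
    rw [this, pr_add_fun, pr_const, h.prob.mass_eq, mul_one]
    exact add_le_add h.var h'.var

omit [Fintype A] in
theorem MV.pow {X : Ms (FreeMonoid A)} {μ V : ℝ} (h : MV X μ V) (n : ℕ) :
    MV (X ^ n) (n * μ) (n * V) := by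
  induction n with
  | zero => simpa using MV.one
  | succ n ih =>
    rw [pow_succ]
    have := ih.mul h
    have e1 : (n : ℝ) * μ + μ = ((n + 1 : ℕ) : ℝ) * μ := by push_cast; ring
    have e2 : (n : ℝ) * V + V = ((n + 1 : ℕ) : ℝ) * V := by push_cast; ring
    rwa [e1, e2] at this

theorem pr_bern (ω : A → ℝ) (s : ℝ) (f : FreeMonoid A → ℝ) :
    pr (bern ω s) f = (1 - s) * f 1 + s * ∑ a, ω a * f (FreeMonoid.of a) := by
  rw [bern, pr_add, pr_smul, pr_smul, pr_one, pr_lt]

theorem prob_bern {ω : A → ℝ} (hω : Wts ω) {s : ℝ} (hs0 : 0 ≤ s) (hs1 : s ≤ 1) :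
    Prob (bern ω s) := by
  constructor
  · apply pos_of_pr
    intro f hf
    rw [pr_bern]
    have h1 : 0 ≤ ∑ a, ω a * f (FreeMonoid.of a) :=
      Finset.sum_nonneg (fun a _ => mul_nonneg (hω.pos a).le (hf _))
    have := mul_nonneg hs0 h1
    have := mul_nonneg (sub_nonneg.2 hs1) (hf 1)
    linarith
  · unfold mass
    rw [pr_bern]
    simp only [mul_one]
    rw [hω.sum_eq]; ring

theorem MV.bern {ω : A → ℝ} (hω : Wts ω) {s : ℝ} (hs0 : 0 ≤ s) (hs1 : s ≤ 1) :
    MV (bern ω s) s 1 := by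
  refine ⟨prob_bern hω hs0 hs1, ?_, ?_⟩
  · rw [pr_bern]
    have e : ∑ a, ω a * len (FreeMonoid.of a) = 1 := by
      rw [← hω.sum_eq]
      apply Finset.sum_congr rfl
      intro a _
      simp [len]
    rw [e]
    simp [len]
  · rw [pr_bern]
    have e : ∑ a, ω a * (len (FreeMonoid.of a) - s) ^ 2 = (1 - s) ^ 2 := by
      have : ∀ a ∈ (Finset.univ : Finset A), ω a * (len (FreeMonoid.of a) - s) ^ 2 =
          ω a * (1 - s) ^ 2 := by
        intro a _
        simp [len]
      rw [Finset.sum_congr rfl this, ← Finset.sum_mul, hω.sum_eq, one_mul]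
    rw [e]
    simp only [len, FreeMonoid.length_one, Nat.cast_zero, zero_sub]
    nlinarith

/-- the perturbed letter `D = h + z` -/
theorem MV.bern_add {ω ζ : A → ℝ} (hω : Wts ω) (hζ : ∑ a, ζ a = 0) {p : ℝ} (hp0 : 0 ≤ p)
    (hp1 : p ≤ 1) (hP : Prob (Vale.Agent.P321S.bern ω p + lt ζ)) :
    MV (Vale.Agent.P321S.bern ω p + lt ζ) p 1 := by
  have h := MV.bern hω hp0 hp1
  refine ⟨hP, ?_, ?_⟩
  · rw [pr_add, h.mean, pr_lt]
    have e : ∑ a, ζ a * len (FreeMonoid.of a) = 0 := by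
      rw [← hζ]
      apply Finset.sum_congr rfl
      intro a _
      simp [len]
    rw [e, add_zero]
  · rw [pr_add, pr_lt]
    have e : ∑ a, ζ a * (len (FreeMonoid.of a) - p) ^ 2 = 0 := by
      have : ∀ a ∈ (Finset.univ : Finset A), ζ a * (len (FreeMonoid.of a) - p) ^ 2 =
          ζ a * (1 - p) ^ 2 := by
        intro a _
        simp [len]
      rw [Finset.sum_congr rfl this, ← Finset.sum_mul, hζ, zero_mul]
    rw [e, add_zero]
    exact h.var

/-! ### collisions -/

omit [Fintype A] in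
theorem F_self_le {ω : A → ℝ} (hω : ∀ a, 0 < ω a) {B : Ms (FreeMonoid A)} {σ : ℝ}
    (hB : Prob B) (hs : SupB ω σ B) : F ω B B ≤ σ := by
  unfold F
  have h1 : pr B (fun w => B.coeff w / wt ω w) ≤ pr B (fun _ => σ) := by
    apply hB.pos.pr_mono
    intro w
    rw [div_le_iff₀ (wt_pos hω w)]
    exact hs w
  rw [pr_const, hB.mass_eq, mul_one] at h1
  exact h1

omit [Fintype A] in
theorem F_nonneg {ω : A → ℝ} (hω : ∀ a, 0 < ω a) {B B' : Ms (FreeMonoid A)}
    (hB : Pos B) (hB' : Pos B') : 0 ≤ F ω B B' :=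
  hB.pr_nonneg (fun w => div_nonneg (hB' w) (wt_pos hω w).le)

omit [Fintype A] in
/-- collision probability of two separated laws -/
theorem F_collision {ω : A → ℝ} (hω : ∀ a, 0 < ω a) {B B' : Ms (FreeMonoid A)}
    {σ σ' μ μ' V V' : ℝ} (hB : MV B μ V) (hB' : MV B' μ' V')
    (hs : SupB ω σ B) (hs' : SupB ω σ' B') :
    F ω B B' * (μ - μ') ^ 2 ≤ 2 * (σ' * V + σ * V') := by
  classical
  set s := B.coeff.support ∪ B'.coeff.support with hsdef
  have h1 : B.coeff.support ⊆ s := Finset.subset_union_left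
  have h2 : B'.coeff.support ⊆ s := Finset.subset_union_right
  have hσ : 0 ≤ σ := hs.nonneg hB.prob.pos
  have hσ' : 0 ≤ σ' := hs'.nonneg hB'.prob.pos
  have e1 := hB.var
  have e2 := hB'.var
  rw [pr_eq_sum h1] at e1
  rw [pr_eq_sum h2] at e2
  have h3 : F ω B B' * (μ - μ') ^ 2 ≤
      2 * σ' * (∑ w ∈ s, B.coeff w * (len w - μ) ^ 2) +
      2 * σ * (∑ w ∈ s, B'.coeff w * (len w - μ') ^ 2) := by
    rw [F_eq_sum ω h1, Finset.sum_mul, Finset.mul_sum, Finset.mul_sum, ← Finset.sum_add_distrib]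
    apply Finset.sum_le_sum
    intro w _
    have hw := wt_pos hω w
    have hb := hB.prob.pos w
    have hb' := hB'.prob.pos w
    have k1 : B.coeff w * (B'.coeff w / wt ω w) ≤ B.coeff w * σ' := by
      apply mul_le_mul_of_nonneg_left _ hb
      rw [div_le_iff₀ hw]
      exact hs' w
    have k2 : B.coeff w * (B'.coeff w / wt ω w) ≤ B'.coeff w * σ := by
      have : B.coeff w * (B'.coeff w / wt ω w) = B'.coeff w * (B.coeff w / wt ω w) := by ring
      rw [this]
      apply mul_le_mul_of_nonneg_left _ hb'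
      rw [div_le_iff₀ hw]
      exact hs w
    have k0 : 0 ≤ B.coeff w * (B'.coeff w / wt ω w) :=
      mul_nonneg hb (div_nonneg hb' hw.le)
    have k3 : (μ - μ') ^ 2 ≤ 2 * (len w - μ) ^ 2 + 2 * (len w - μ') ^ 2 := by
      nlinarith [sq_nonneg ((len w - μ) + (len w - μ'))]
    calc B.coeff w * (B'.coeff w / wt ω w) * (μ - μ') ^ 2
        ≤ B.coeff w * (B'.coeff w / wt ω w) * (2 * (len w - μ) ^ 2 + 2 * (len w - μ') ^ 2) :=
          mul_le_mul_of_nonneg_left k3 k0
      _ = 2 * (B.coeff w * (B'.coeff w / wt ω w) * (len w - μ) ^ 2) +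
          2 * (B.coeff w * (B'.coeff w / wt ω w) * (len w - μ') ^ 2) := by ring
      _ ≤ 2 * (B.coeff w * σ' * (len w - μ) ^ 2) + 2 * (B'.coeff w * σ * (len w - μ') ^ 2) := by
          have := mul_le_mul_of_nonneg_right k1 (sq_nonneg (len w - μ))
          have := mul_le_mul_of_nonneg_right k2 (sq_nonneg (len w - μ'))
          linarith
      _ = _ := by ring
  have h4 := mul_le_mul_of_nonneg_left e1 (mul_nonneg (by norm_num : (0:ℝ) ≤ 2) hσ')
  have h5 := mul_le_mul_of_nonneg_left e2 (mul_nonneg (by norm_num : (0:ℝ) ≤ 2) hσ)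
  linarith

end Vale.Agent.P321S
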