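import Vale.Agent.Lib.P321S.CrystalB

/-! Module CRYSTAL C (section 12 of docs P321): the Volterra recursion and (M3). -/

namespace Vale.Agent.P321S

open Finset

/-! ### elementary sums -/

theorem sum_inv_sq_le (K : ℕ) : ∑ k ∈ range K, 1 / ((k : ℝ) + 1) ^ 2 ≤ 2 := by
  have h : ∑ k ∈ range K, 1 / ((k : ℝ) + 1) ^ 2 ≤ 2 * (1 - 1 / ((K : ℝ) + 1)) := by
    induction K with
    | zero => simp
    | succ K ih =>
      rw [Finset.sum_range_succ]
      have h1 : 1 / ((K : ℝ) + 1) ^ 2 ≤ 2 * (1 / ((K : ℝ) + 1) - 1 / ((K : ℝ) + 1 + 1)) := by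
        rw [div_sub_div _ _ (by positivity) (by positivity), ← mul_div_assoc,
          div_le_div_iff₀ (by positivity) (by positivity)]
        have : (0 : ℝ) ≤ K := Nat.cast_nonneg K
        nlinarith
      push_cast
      linarith
  have : 0 ≤ 1 / ((K : ℝ) + 1) := by positivity
  linarith

theorem sum_sep_le (i l : ℕ) (hi : i < l) :
    ∑ j ∈ range l, (if j = i then 0 else 1 / ((i : ℝ) - j) ^ 2) ≤ 4 := by
  rw [← Finset.sum_range_add_sum_Ico _ hi.le]
  have h1 : ∑ j ∈ range i, (if j = i then (0:ℝ) else 1 / ((i : ℝ) - j) ^ 2) =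
      ∑ k ∈ range i, 1 / ((k : ℝ) + 1) ^ 2 := by
    rw [← Finset.sum_range_reflect]
    apply Finset.sum_congr rfl
    intro j hj
    rw [Finset.mem_range] at hj
    rw [if_neg (by omega)]
    congr 2
    rw [Nat.cast_sub (by omega), Nat.cast_sub (by omega)]
    push_cast
    ring
  have h2 : ∑ j ∈ Ico i l, (if j = i then (0:ℝ) else 1 / ((i : ℝ) - j) ^ 2) =
      ∑ k ∈ range (l - (i + 1)), 1 / ((k : ℝ) + 1) ^ 2 := by
    rw [Finset.sum_eq_sum_Ico_succ_bot hi, if_pos rfl, zero_add, Finset.sum_Ico_eq_sum_range]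
    apply Finset.sum_congr rfl
    intro j _
    rw [if_neg (by omega)]
    congr 1
    push_cast
    ring
  rw [h1, h2]
  linarith [sum_inv_sq_le i, sum_inv_sq_le (l - (i + 1))]

theorem sum_inv_sqrt_le (l : ℕ) : ∑ i ∈ range l, 1 / √((i : ℝ) + 1) ≤ 2 * √l := by
  induction l with
  | zero => simp
  | succ l ih =>
    rw [Finset.sum_range_succ]
    have h0 : (0 : ℝ) ≤ l := Nat.cast_nonneg l
    have h1 : 0 < √((l : ℝ) + 1) := Real.sqrt_pos.2 (by linarith)
    have h2 : √(l : ℝ) ^ 2 = l := Real.sq_sqrt h0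
    have h3 : √((l : ℝ) + 1) ^ 2 = l + 1 := Real.sq_sqrt (by linarith)
    have h4 : 0 ≤ √(l : ℝ) := Real.sqrt_nonneg _
    have h5 : 1 / √((l : ℝ) + 1) ≤ 2 * (√((l : ℝ) + 1) - √l) := by
      rw [div_le_iff₀ h1]
      nlinarith [sq_nonneg (√((l : ℝ) + 1) - √l)]
    push_cast
    linarith

theorem inv_sqrt_mul_le {a b : ℝ} (ha : 0 < a) (hb : 0 < b) :
    1 / √a * (1 / √b) ≤ (1 / √a + 1 / √b) / √(a + b) := by
  have h1 : 0 < √a := Real.sqrt_pos.2 ha
  have h2 : 0 < √b := Real.sqrt_pos.2 hb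
  have h3 : 0 < √(a + b) := Real.sqrt_pos.2 (by linarith)
  have h4 : √(a + b) ≤ √a + √b := by
    rw [Real.sqrt_le_left (by positivity)]
    have e1 := Real.sq_sqrt ha.le
    have e2 := Real.sq_sqrt hb.le
    nlinarith
  rw [le_div_iff₀ h3]
  calc 1 / √a * (1 / √b) * √(a + b) ≤ 1 / √a * (1 / √b) * (√a + √b) :=
        mul_le_mul_of_nonneg_left h4 (by positivity)
    _ = 1 / √a + 1 / √b := by field_simp; ring

theorem arcsine_sum (l : ℕ) :
    ∑ i ∈ range l, 1 / √((i : ℝ) + 1) * (1 / √(((l - 1 - i : ℕ) : ℝ) + 1)) ≤ 4 := by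
  rcases Nat.eq_zero_or_pos l with rfl | hl
  · simp
  have hl0 : (0 : ℝ) < l := by exact_mod_cast hl
  have h3 : 0 < √((l : ℝ) + 1) := Real.sqrt_pos.2 (by linarith)
  have h1 : ∀ i ∈ range l, 1 / √((i : ℝ) + 1) * (1 / √(((l - 1 - i : ℕ) : ℝ) + 1)) ≤
      (1 / √((i : ℝ) + 1) + 1 / √(((l - 1 - i : ℕ) : ℝ) + 1)) / √((l : ℝ) + 1) := by
    intro i hi
    rw [Finset.mem_range] at hi
    have h2 := inv_sqrt_mul_le (a := (i : ℝ) + 1) (b := ((l - 1 - i : ℕ) : ℝ) + 1)
      (by positivity) (by positivity)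
    have e : (i : ℝ) + 1 + (((l - 1 - i : ℕ) : ℝ) + 1) = l + 1 := by
      rw [Nat.cast_sub (by omega), Nat.cast_sub (by omega)]
      push_cast; ring
    rwa [e] at h2
  refine (Finset.sum_le_sum h1).trans ?_
  rw [← Finset.sum_div, Finset.sum_add_distrib,
    Finset.sum_range_reflect (fun i => 1 / √((i : ℝ) + 1)) l, div_le_iff₀ h3]
  have h4 := sum_inv_sqrt_le l
  have h5 : √(l : ℝ) ≤ √((l : ℝ) + 1) := Real.sqrt_le_sqrt (by linarith)
  linarith

/-- pointwise bound behind the collision row sums -/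
theorem row_term {x y l : ℝ} (hx : 1 ≤ x) (hy : 1 ≤ y) (hxl : x ≤ l) (hyl : y ≤ l)
    (hxy : 1 ≤ |x - y|) :
    x * √x / √y + y ≤ 2 * l + 2 * (x - y) ^ 2 := by
  have hx0 : 0 ≤ √x := Real.sqrt_nonneg x
  have hy1 : 1 ≤ √y := Real.one_le_sqrt.2 hy
  have hy0 : 0 < √y := by linarith
  have hx2 : √x ^ 2 = x := Real.sq_sqrt (by linarith)
  have hy2 : √y ^ 2 = y := Real.sq_sqrt (by linarith)
  have h1 : √x ≤ √y + |x - y| := by
    have h2 : |√x - √y| ≤ |x - y| := by
      have e : x - y = (√x - √y) * (√x + √y) := by nlinarith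
      rw [e, abs_mul]
      have : 1 ≤ |√x + √y| := by
        rw [abs_of_nonneg (by linarith)]; linarith
      nlinarith [abs_nonneg (√x - √y)]
    have := (abs_le.1 h2).2
    linarith
  have h3 : √x / √y ≤ 2 * |x - y| := by
    rw [div_le_iff₀ hy0]
    have : √y ≤ |x - y| * √y := by nlinarith
    have : |x - y| ≤ |x - y| * √y := by nlinarith
    nlinarith
  have h4 : x ≤ y + |x - y| := by
    have := le_abs_self (x - y); linarith
  have h5 : y * (√x / √y) = √y * √x := by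
    field_simp
    nlinarith
  have h6 : √y * √x ≤ l := by
    have : √y ≤ √l := Real.sqrt_le_sqrt hyl
    have : √x ≤ √l := Real.sqrt_le_sqrt hxl
    have hl2 : √l ^ 2 = l := Real.sq_sqrt (by linarith)
    nlinarith
  have h7 : 0 ≤ √x / √y := by positivity
  have h8 : 0 ≤ |x - y| := abs_nonneg _
  calc x * √x / √y + y = x * (√x / √y) + y := by ring
    _ ≤ (y + |x - y|) * (√x / √y) + y := by
        have := mul_le_mul_of_nonneg_right h4 h7
        linarith
    _ = √y * √x + |x - y| * (√x / √y) + y := by rw [add_mul, h5]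
    _ ≤ l + |x - y| * (2 * |x - y|) + l := by
        have := mul_le_mul_of_nonneg_left h3 h8
        linarith
    _ = 2 * l + 2 * (x - y) ^ 2 := by rw [← sq_abs (x - y)]; ring

variable {A : Type*} [Fintype A]

/-- a family of neutral laws with controlled sup norms, means and variances -/
structure Fam (ω : A → ℝ) (B : ℕ → Ms (FreeMonoid A)) (n C s : ℝ) (μ : ℕ → ℝ) : Prop where
  neu : ∀ i, Neu ω (B i)
  mv : ∀ i : ℕ, MV (B i) (μ i) (2 * n * ((i : ℝ) + 1))
  sup : ∀ i : ℕ, SupB ω (C / √(n * ((i : ℝ) + 1))) (B i)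
  sep : ∀ i j : ℕ, (((i : ℝ) - j) * (n * s)) ^ 2 ≤ (μ i - μ j) ^ 2

theorem Fam.row {ω : A → ℝ} (hω : Wts ω) {B : ℕ → Ms (FreeMonoid A)} {n C s : ℝ} {μ : ℕ → ℝ}
    (h : Fam ω B n C s μ) (hn : 0 < n) (hs : 0 < s) (hC : 0 ≤ C) {l : ℕ} (hl : (l : ℝ) ≤ n)
    {i : ℕ} (hi : i < l) :
    ∑ j ∈ range l, F ω (B i) (B j) ≤ C * (1 + 40 / s ^ 2) / √(n * ((i : ℝ) + 1)) := by
  have hl0 : (0 : ℝ) < l := by exact_mod_cast (by omega : 0 < l)
  have hsi : 0 < √(n * ((i : ℝ) + 1)) := Real.sqrt_pos.2 (by positivity)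
  have hterm : ∀ j ∈ range l, F ω (B i) (B j) ≤
      (if j = i then C / √(n * ((i : ℝ) + 1)) else 0) +
      (4 * C / (n * s ^ 2)) / √(n * ((i : ℝ) + 1)) *
        (2 * l * (if j = i then 0 else 1 / ((i : ℝ) - j) ^ 2) + 2) := by
    intro j hj
    rw [Finset.mem_range] at hj
    by_cases hij : j = i
    · subst hij
      rw [if_pos rfl, if_pos rfl]
      have h1 := F_self_le hω.pos (h.mv j).prob (h.sup j)
      have h2 : 0 ≤ 4 * C / (n * s ^ 2) / √(n * ((j : ℝ) + 1)) * (2 * l * 0 + 2) := by positivity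
      linarith
    · rw [if_neg hij, if_neg hij, zero_add]
      have hsj : 0 < √(n * ((j : ℝ) + 1)) := Real.sqrt_pos.2 (by positivity)
      have h1 := F_collision hω.pos (h.mv i) (h.mv j) (h.sup i) (h.sup j)
      have h2 := h.sep i j
      have hd : 0 < ((i : ℝ) - j) ^ 2 := by
        apply sq_pos_of_ne_zero
        intro h0
        apply hij
        have : (i : ℝ) = j := by linarith
        exact_mod_cast this.symm
      have hF0 : 0 ≤ F ω (B i) (B j) := F_nonneg hω.pos (h.mv i).prob.pos (h.mv j).prob.pos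
      have hab : 1 ≤ |((i : ℝ) + 1) - ((j : ℝ) + 1)| := by
        have e : ((i : ℝ) + 1) - ((j : ℝ) + 1) = (((i : ℤ) - j : ℤ) : ℝ) := by push_cast; ring
        rw [e, ← Int.cast_abs]
        have : 1 ≤ |(i : ℤ) - j| := by
          apply Int.one_le_abs
          omega
        exact_mod_cast this
      have h3 := row_term (x := (i : ℝ) + 1) (y := (j : ℝ) + 1) (l := l)
        (by linarith [(Nat.cast_nonneg i : (0:ℝ) ≤ i)])
        (by linarith [(Nat.cast_nonneg j : (0:ℝ) ≤ j)])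
        (by exact_mod_cast (by omega : i + 1 ≤ l)) (by exact_mod_cast (by omega : j + 1 ≤ l)) hab
      have e0 : ((i : ℝ) + 1) - ((j : ℝ) + 1) = (i : ℝ) - j := by ring
      rw [e0] at h3
      -- rewrite everything with √(i+1), √(j+1)
      have hri : √(n * ((i : ℝ) + 1)) = √n * √((i : ℝ) + 1) := Real.sqrt_mul hn.le _
      have hrj : √(n * ((j : ℝ) + 1)) = √n * √((j : ℝ) + 1) := Real.sqrt_mul hn.le _
      have hnn : 0 < √n := Real.sqrt_pos.2 hn
      have hn2 : √n ^ 2 = n := Real.sq_sqrt hn.le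
      have hI : 0 < √((i : ℝ) + 1) := Real.sqrt_pos.2 (by positivity)
      have hJ : 0 < √((j : ℝ) + 1) := Real.sqrt_pos.2 (by positivity)
      have hI2 : √((i : ℝ) + 1) ^ 2 = (i : ℝ) + 1 := Real.sq_sqrt (by positivity)
      have h4 : F ω (B i) (B j) * (((i : ℝ) - j) * (n * s)) ^ 2 ≤
          2 * (C / √(n * ((j : ℝ) + 1)) * (2 * n * ((i : ℝ) + 1)) +
            C / √(n * ((i : ℝ) + 1)) * (2 * n * ((j : ℝ) + 1))) :=
        (mul_le_mul_of_nonneg_left h2 hF0).trans h1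
      have h5 : 2 * (C / √(n * ((j : ℝ) + 1)) * (2 * n * ((i : ℝ) + 1)) +
            C / √(n * ((i : ℝ) + 1)) * (2 * n * ((j : ℝ) + 1))) =
          4 * C * n / √(n * ((i : ℝ) + 1)) *
            (((i : ℝ) + 1) * √((i : ℝ) + 1) / √((j : ℝ) + 1) + ((j : ℝ) + 1)) := by
        rw [hri, hrj]
        field_simp
        ring
      rw [h5] at h4
      have h6 : F ω (B i) (B j) * (((i : ℝ) - j) * (n * s)) ^ 2 ≤
          4 * C * n / √(n * ((i : ℝ) + 1)) * (2 * l + 2 * ((i : ℝ) - j) ^ 2) :=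
        h4.trans (mul_le_mul_of_nonneg_left h3 (by positivity))
      have hpos : 0 < (((i : ℝ) - j) * (n * s)) ^ 2 := by
        rw [mul_pow]; positivity
      rw [← le_div_iff₀ hpos] at h6
      refine h6.trans (le_of_eq ?_)
      have hd' : ((i : ℝ) - j) ≠ 0 := by
        intro h0; rw [h0] at hd; simp at hd
      field_simp
  refine (Finset.sum_le_sum hterm).trans ?_
  rw [Finset.sum_add_distrib, Finset.sum_ite_eq' (range l) i, if_pos (Finset.mem_range.2 hi),
    ← Finset.mul_sum, Finset.sum_add_distrib, ← Finset.mul_sum, Finset.sum_const,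
    Finset.card_range, nsmul_eq_mul]
  have h7 := sum_sep_le i l hi
  have h8 : 2 * (l : ℝ) * ∑ j ∈ range l, (if j = i then 0 else 1 / ((i : ℝ) - j) ^ 2) + l * 2 ≤
      10 * n := by nlinarith
  have h9 : (4 * C / (n * s ^ 2)) / √(n * ((i : ℝ) + 1)) *
      (2 * (l : ℝ) * ∑ j ∈ range l, (if j = i then 0 else 1 / ((i : ℝ) - j) ^ 2) + l * 2) ≤
      (4 * C / (n * s ^ 2)) / √(n * ((i : ℝ) + 1)) * (10 * n) :=
    mul_le_mul_of_nonneg_left h8 (by positivity)
  have h10 : C / √(n * ((i : ℝ) + 1)) + (4 * C / (n * s ^ 2)) / √(n * ((i : ℝ) + 1)) * (10 * n) =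
      C * (1 + 40 / s ^ 2) / √(n * ((i : ℝ) + 1)) := by
    field_simp
    ring
  linarith

/-- the energy of a sum `∑ B_i z Y_i` -/
theorem Fam.quad {ω ζ : A → ℝ} (hω : Wts ω) (hζ : ∑ a, ζ a = 0)
    {B : ℕ → Ms (FreeMonoid A)} {n C s : ℝ} {μ : ℕ → ℝ}
    (h : Fam ω B n C s μ) (hn : 0 < n) (hs : 0 < s) (hC : 0 ≤ C) {l : ℕ} (hl : (l : ℝ) ≤ n)
    (Y : ℕ → Ms (FreeMonoid A)) :
    F ω (∑ i ∈ range l, B i * (lt ζ * Y i)) (∑ i ∈ range l, B i * (lt ζ * Y i)) ≤
      (∑ a, ζ a ^ 2 / ω a) * (C * (1 + 40 / s ^ 2)) *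
        ∑ i ∈ range l, F ω (Y i) (Y i) / √(n * ((i : ℝ) + 1)) := by
  set lam := ∑ a, ζ a ^ 2 / ω a with hlam
  have hlam0 : 0 ≤ lam := Finset.sum_nonneg (fun a _ => by
    have := hω.pos a
    positivity)
  have h1 : F ω (∑ i ∈ range l, B i * (lt ζ * Y i)) (∑ i ∈ range l, B i * (lt ζ * Y i)) =
      lam * ∑ i ∈ range l, ∑ j ∈ range l, F ω (B i) (B j) * F ω (Y i) (Y j) := by
    rw [F_sum_left, Finset.mul_sum]
    apply Finset.sum_congr rfl
    intro i _
    rw [F_sum_right, Finset.mul_sum]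
    apply Finset.sum_congr rfl
    intro j _
    rw [hω.neu_neu hζ _ _ (h.neu i) (h.neu j)]
    ring
  have h2 : ∑ i ∈ range l, ∑ j ∈ range l, F ω (B i) (B j) * F ω (Y i) (Y j) ≤
      ∑ i ∈ range l, (∑ j ∈ range l, F ω (B i) (B j)) * F ω (Y i) (Y i) := by
    have h3 : ∑ i ∈ range l, ∑ j ∈ range l, F ω (B i) (B j) * F ω (Y i) (Y j) ≤
        ∑ i ∈ range l, ∑ j ∈ range l,
          (F ω (B i) (B j) * F ω (Y i) (Y i) / 2 + F ω (B i) (B j) * F ω (Y j) (Y j) / 2) := by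
      apply Finset.sum_le_sum
      intro i _
      apply Finset.sum_le_sum
      intro j _
      have h0 : 0 ≤ F ω (B i) (B j) := F_nonneg hω.pos (h.mv i).prob.pos (h.mv j).prob.pos
      have := mul_le_mul_of_nonneg_left (F_le hω.pos (Y i) (Y j)) h0
      linarith
    have h4 : ∑ i ∈ range l, ∑ j ∈ range l,
          (F ω (B i) (B j) * F ω (Y i) (Y i) / 2 + F ω (B i) (B j) * F ω (Y j) (Y j) / 2) =
        ∑ i ∈ range l, (∑ j ∈ range l, F ω (B i) (B j)) * F ω (Y i) (Y i) := by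
      have e1 : ∑ i ∈ range l, ∑ j ∈ range l, F ω (B i) (B j) * F ω (Y j) (Y j) / 2 =
          ∑ i ∈ range l, ∑ j ∈ range l, F ω (B i) (B j) * F ω (Y i) (Y i) / 2 := by
        rw [Finset.sum_comm]
        apply Finset.sum_congr rfl
        intro i _
        apply Finset.sum_congr rfl
        intro j _
        rw [F_comm ω (B j)]
      simp only [Finset.sum_add_distrib]
      rw [e1, ← Finset.sum_add_distrib]
      apply Finset.sum_congr rfl
      intro i _
      rw [Finset.sum_mul, ← Finset.sum_add_distrib]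
      apply Finset.sum_congr rfl
      intro j _
      ring
    exact h3.trans h4.le
  have h5 : ∑ i ∈ range l, (∑ j ∈ range l, F ω (B i) (B j)) * F ω (Y i) (Y i) ≤
      ∑ i ∈ range l, C * (1 + 40 / s ^ 2) / √(n * ((i : ℝ) + 1)) * F ω (Y i) (Y i) := by
    apply Finset.sum_le_sum
    intro i hi
    exact mul_le_mul_of_nonneg_right (h.row hω hn hs hC hl (Finset.mem_range.1 hi))
      (F_self_nonneg hω.pos _)
  rw [h1]
  calc lam * ∑ i ∈ range l, ∑ j ∈ range l, F ω (B i) (B j) * F ω (Y i) (Y j)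
      ≤ lam * ∑ i ∈ range l, C * (1 + 40 / s ^ 2) / √(n * ((i : ℝ) + 1)) * F ω (Y i) (Y i) :=
        mul_le_mul_of_nonneg_left (h2.trans h5) hlam0
    _ = _ := by
        rw [mul_assoc, Finset.mul_sum (a := C * (1 + 40 / s ^ 2))]
        congr 1
        apply Finset.sum_congr rfl
        intro i _
        ring

/-- first-perturbation expansion -/
theorem pow_expand {R : Type*} [Ring R] (x y : R) (l : ℕ) :
    x ^ l = y ^ l + ∑ i ∈ range l, y ^ i * ((x - y) * x ^ (l - 1 - i)) := by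
  induction l with
  | zero => simp
  | succ l ih =>
    rw [Finset.sum_range_succ']
    have h1 : x ^ (l + 1) = y * x ^ l + (x - y) * x ^ l := by
      rw [pow_succ']; noncomm_ring
    have h2 : ∑ i ∈ range l, y ^ (i + 1) * ((x - y) * x ^ (l + 1 - 1 - (i + 1))) =
        y * ∑ i ∈ range l, y ^ i * ((x - y) * x ^ (l - 1 - i)) := by
      rw [Finset.mul_sum]
      apply Finset.sum_congr rfl
      intro i hi
      rw [Finset.mem_range] at hi
      rw [pow_succ', mul_assoc]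
      congr 3
      congr 1
      omega
    rw [h2, h1]
    have h3 : y * x ^ l = y ^ (l + 1) +
        y * ∑ i ∈ range l, y ^ i * ((x - y) * x ^ (l - 1 - i)) := by
      conv_lhs => rw [ih]
      rw [mul_add, ← pow_succ']
    rw [h3]
    simp [add_assoc]

end Vale.Agent.P321S
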