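import Vale.Agent.Lib.P321S.CrystalC

/-! Module CRYSTAL D (section 12 of docs P321): window and (M3). -/

namespace Vale.Agent.P321S

open Finset

/-! ### window -/

theorem Pos.sum_le_mass {M : Type*} {Z : Ms M} (hZ : Pos Z) (s : Finset M) :
    ∑ w ∈ s, Z.coeff w ≤ mass Z := by
  classical
  have h1 : mass Z = ∑ w ∈ s ∪ Z.coeff.support, Z.coeff w * 1 :=
    pr_eq_sum Finset.subset_union_right _
  rw [h1]
  simp only [mul_one]
  exact Finset.sum_le_sum_of_subset_of_nonneg Finset.subset_union_left (fun w _ _ => hZ w)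

theorem card_window (T : Finset ℕ) {μ R : ℝ} (hR : 0 ≤ R) (h : ∀ L ∈ T, |(L : ℝ) - μ| ≤ R) :
    (T.card : ℝ) ≤ 2 * R + 1 := by
  rcases T.eq_empty_or_nonempty with rfl | hne
  · simp; linarith
  · set a := T.min' hne
    set b := T.max' hne
    have ha := h a (T.min'_mem hne)
    have hb := h b (T.max'_mem hne)
    have hab : a ≤ b := T.min'_le b (T.max'_mem hne)
    have h1 : T ⊆ Finset.Icc a b := by
      intro L hL
      rw [Finset.mem_Icc]
      exact ⟨T.min'_le L hL, T.le_max' L hL⟩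
    have h2 := Finset.card_le_card h1
    rw [Nat.card_Icc] at h2
    have h3 : (T.card : ℝ) ≤ ((b + 1 - a : ℕ) : ℝ) := by exact_mod_cast h2
    rw [Nat.cast_sub (by omega)] at h3
    push_cast at h3
    have h4 := (abs_le.1 ha).1
    have h5 := (abs_le.1 hb).2
    linarith

variable {A : Type*} [Fintype A]

theorem prob_beta {ω : A → ℝ} (hω : Wts ω) : Prob (lt ω) := by
  have := prob_bern hω (s := 1) (by norm_num) le_rfl
  have e : bern ω 1 = lt ω := by rw [bern]; simp
  rwa [e] at this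

theorem window {ω : A → ℝ} (hω : Wts ω) {X : Ms (FreeMonoid A)} {Φ μ R : ℝ}
    (hX : F ω X X ≤ Φ) (hR : 0 ≤ R) (f : FreeMonoid A → ℝ) (hf : ∀ w, |f w| ≤ 1) :
    |pr X (fun w => if |len w - μ| ≤ R then f w else 0)| ≤ √((2 * R + 1) * Φ) := by
  classical
  apply Real.abs_le_sqrt
  set s := X.coeff.support with hs
  set g : FreeMonoid A → ℝ := fun w => if |len w - μ| ≤ R then f w else 0 with hg
  rw [pr_eq_sum (Finset.Subset.refl _)]
  have h1 : (∑ w ∈ s, X.coeff w * g w) ^ 2 ≤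
      (∑ w ∈ s, (X.coeff w / √(wt ω w)) ^ 2) * ∑ w ∈ s, (√(wt ω w) * g w) ^ 2 := by
    have h2 := Finset.sum_mul_sq_le_sq_mul_sq s (fun w => X.coeff w / √(wt ω w))
      (fun w => √(wt ω w) * g w)
    have h3 : ∑ w ∈ s, X.coeff w * g w =
        ∑ w ∈ s, X.coeff w / √(wt ω w) * (√(wt ω w) * g w) := by
      apply Finset.sum_congr rfl
      intro w _
      have : 0 < √(wt ω w) := Real.sqrt_pos.2 (wt_pos hω.pos w)
      field_simp
    rw [h3]
    exact h2
  have h4 : ∑ w ∈ s, (X.coeff w / √(wt ω w)) ^ 2 = F ω X X := by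
    rw [F_eq_sum ω (Finset.Subset.refl _)]
    apply Finset.sum_congr rfl
    intro w _
    rw [div_pow, Real.sq_sqrt (wt_pos hω.pos w).le]
    ring
  set T : Finset ℕ := (s.image FreeMonoid.length).filter (fun L => |(L : ℝ) - μ| ≤ R) with hT
  have h5 : ∑ w ∈ s, (√(wt ω w) * g w) ^ 2 ≤ T.card := by
    have h6 : ∀ w ∈ s, (√(wt ω w) * g w) ^ 2 ≤ ∑ L ∈ T, (lt ω ^ L).coeff w := by
      intro w hw
      have hw0 := (wt_pos hω.pos w).le
      rw [mul_pow, Real.sq_sqrt hw0]
      have h7 : ∑ L ∈ T, (lt ω ^ L).coeff w = ∑ L ∈ T, if w.length = L then wt ω w else 0 :=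
        Finset.sum_congr rfl (fun L _ => coeff_beta_pow ω L w)
      rw [h7, Finset.sum_ite_eq]
      by_cases hc : |len w - μ| ≤ R
      · have hmem : w.length ∈ T := by
          rw [hT, Finset.mem_filter]
          exact ⟨Finset.mem_image_of_mem _ hw, hc⟩
        rw [if_pos hmem]
        have e : g w = f w := by rw [hg]; simp only; rw [if_pos hc]
        rw [e]
        have := hf w
        have h8 : f w ^ 2 ≤ 1 := by
          rw [← sq_abs]; exact pow_le_one₀ (abs_nonneg _) this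
        nlinarith
      · have e : g w = 0 := by rw [hg]; simp only; rw [if_neg hc]
        rw [e]
        split_ifs <;> simp [hw0]
    refine (Finset.sum_le_sum h6).trans ?_
    rw [Finset.sum_comm]
    have h9 : ∀ L ∈ T, ∑ w ∈ s, (lt ω ^ L).coeff w ≤ 1 := by
      intro L _
      have hp := (prob_beta hω).pow L
      rw [← hp.mass_eq]
      exact hp.pos.sum_le_mass s
    refine (Finset.sum_le_sum h9).trans ?_
    simp
  have h10 : (T.card : ℝ) ≤ 2 * R + 1 := by
    apply card_window T (μ := μ) hR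
    intro L hL
    rw [hT, Finset.mem_filter] at hL
    exact hL.2
  have hF0 := F_self_nonneg hω.pos X
  calc (∑ w ∈ s, X.coeff w * g w) ^ 2 ≤ _ := h1
    _ = F ω X X * ∑ w ∈ s, (√(wt ω w) * g w) ^ 2 := by rw [h4]
    _ ≤ F ω X X * (2 * R + 1) := mul_le_mul_of_nonneg_left (h5.trans h10) hF0
    _ ≤ Φ * (2 * R + 1) := mul_le_mul_of_nonneg_right hX (by linarith)
    _ = (2 * R + 1) * Φ := mul_comm _ _

/-- `L¹` bound of the difference of two laws with the same mean length -/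
theorem n1_window {ω : A → ℝ} (hω : Wts ω) {P1 P2 : Ms (FreeMonoid A)} {Φ μ V R : ℝ}
    (h1 : MV P1 μ V) (h2 : MV P2 μ V) (hX : F ω (P1 - P2) (P1 - P2) ≤ Φ) (hR : 0 < R) :
    N1 (√((2 * R + 1) * Φ) + 2 * (V / R ^ 2)) (P1 - P2) := by
  intro f hf
  set g : FreeMonoid A → ℝ := fun w => if |len w - μ| ≤ R then f w else 0 with hg
  set g' : FreeMonoid A → ℝ := fun w => if |len w - μ| ≤ R then 0 else f w with hg'
  have e : f = fun w => g w + g' w := by
    funext w
    rw [hg, hg']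
    simp only
    split_ifs <;> simp
  have h3 : ∀ P : Ms (FreeMonoid A), MV P μ V → |pr P g'| ≤ V / R ^ 2 := by
    intro P hP
    have hb : ∀ w, |g' w| ≤ (1 / R ^ 2) * (len w - μ) ^ 2 := by
      intro w
      rw [hg']
      simp only
      split_ifs with hc
      · rw [abs_zero]; positivity
      · push Not at hc
        have h4 : R ^ 2 ≤ (len w - μ) ^ 2 := by
          rw [← sq_abs (len w - μ)]
          exact pow_le_pow_left₀ hR.le hc.le 2
        have h5 : 1 ≤ (1 / R ^ 2) * (len w - μ) ^ 2 := by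
          rw [one_div, ← div_eq_inv_mul, le_div_iff₀ (by positivity)]
          linarith
        exact (hf w).trans h5
    have h6 : pr P (fun w => (1 / R ^ 2) * (len w - μ) ^ 2) ≤ V / R ^ 2 := by
      rw [pr_mul_fun]
      have := mul_le_mul_of_nonneg_left hP.var (by positivity : 0 ≤ 1 / R ^ 2)
      calc _ ≤ _ := this
        _ = _ := by ring
    rw [abs_le]
    constructor
    · have h7 : pr P (fun w => (-1) * ((1 / R ^ 2) * (len w - μ) ^ 2)) ≤ pr P g' :=
        hP.prob.pos.pr_mono (fun w => by have := (abs_le.1 (hb w)).1; linarith)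
      rw [pr_mul_fun] at h7
      linarith
    · exact (hP.prob.pos.pr_mono (fun w => (abs_le.1 (hb w)).2)).trans h6
  rw [e, pr_add_fun]
  have h8 := window hω (μ := μ) hX hR.le f hf
  have h9 : |pr (P1 - P2) g'| ≤ 2 * (V / R ^ 2) := by
    rw [pr_sub]
    have := h3 P1 h1
    have := h3 P2 h2
    have := abs_sub (pr P1 g') (pr P2 g')
    linarith
  exact (abs_add_le _ _).trans (add_le_add h8 h9)

/-! ### the two families -/

theorem bern_pow_sup' {ω : A → ℝ} (hω : ∀ a, 0 < ω a) {s : ℝ} (hs0 : 0 < s) (hs1 : s < 1)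
    {N : ℕ} {y : ℝ} (hy : 0 < y) (hN : y / 3 ≤ N) :
    SupB ω (√(3 / (2 * min s (1 - s))) / √y) (bern ω s ^ N) := by
  refine (bern_pow_sup hω hs0 hs1 N).mono hω ?_
  have hx : 0 < 2 * min s (1 - s) := by
    have : 0 < min s (1 - s) := lt_min hs0 (by linarith)
    linarith
  have e1 : 1 / √(((N : ℝ) + 1) * (2 * min s (1 - s))) =
      √(1 / (((N : ℝ) + 1) * (2 * min s (1 - s)))) := by
    rw [Real.sqrt_div zero_le_one, Real.sqrt_one]
  rw [e1, ← Real.sqrt_div (by positivity)]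
  apply Real.sqrt_le_sqrt
  rw [div_div, div_le_div_iff₀ (by positivity) (by positivity)]
  nlinarith

theorem fam_cells {ω : A → ℝ} (hω : Wts ω) {s p : ℝ} (hs0 : 0 < s) (hs1 : s < 1)
    (hp0 : 0 ≤ p) (hp1 : p ≤ 1) {n1 n2 : ℕ} (hn : 1 ≤ n1 + n2) (h1 : n1 + n2 ≤ 3 * n1)
    {m : ℕ} (hm : m ≤ n2) :
    Fam ω (fun i => bern ω s ^ m * ((bern ω s ^ n1 * bern ω p * bern ω s ^ n2) ^ i *
      bern ω s ^ n1)) ((n1 + n2 : ℕ) : ℝ) (√(3 / (2 * min s (1 - s)))) s
      (fun i => m * s + (i * (n1 * s + p + n2 * s) + n1 * s)) := by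
  have hb := Neu.bern ω s
  have hh := Neu.bern ω p
  have hcell : Neu ω (bern ω s ^ n1 * bern ω p * bern ω s ^ n2) :=
    ((hb.pow n1).mul hh).mul (hb.pow n2)
  refine ⟨?_, ?_, ?_, ?_⟩
  · intro i
    exact (hb.pow m).mul ((hcell.pow i).mul (hb.pow n1))
  · intro i
    have hmb := MV.bern hω hs0.le hs1.le
    have hmh := MV.bern hω hp0 hp1
    have h := (hmb.pow m).mul (((((hmb.pow n1).mul hmh).mul (hmb.pow n2)).pow i).mul (hmb.pow n1))
    refine h.mono ?_
    have k1 : (1 : ℝ) ≤ ((n1 + n2 : ℕ) : ℝ) := by exact_mod_cast hn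
    have k2 : (m : ℝ) ≤ n2 := by exact_mod_cast hm
    push_cast at k1 ⊢
    have k3 : (0 : ℝ) ≤ i := Nat.cast_nonneg i
    nlinarith
  · intro i
    have e : bern ω s ^ m * ((bern ω s ^ n1 * bern ω p * bern ω s ^ n2) ^ i * bern ω s ^ n1) =
        bern ω p ^ i * bern ω s ^ (m + ((n1 + n2) * i + n1)) := by
      have hc : Commute (bern ω s) (bern ω p) := hb.commute hh
      have e1 : bern ω s ^ n1 * bern ω p * bern ω s ^ n2 = bern ω p * bern ω s ^ (n1 + n2) := by
        rw [(hc.pow_left n1).eq, mul_assoc, ← pow_add]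
      have hc2 : Commute (bern ω p) (bern ω s ^ (n1 + n2)) := (hc.symm.pow_right _)
      rw [e1, hc2.mul_pow, ← pow_mul, mul_assoc (bern ω p ^ i), ← pow_add, ← mul_assoc,
        ((hc.pow_left m).pow_right i).eq, mul_assoc, ← pow_add]
    rw [e]
    apply SupB.bern_pow_mul hω.pos _ (by positivity) hp0 hp1
    have hy : (0 : ℝ) < ((n1 + n2 : ℕ) : ℝ) * ((i : ℝ) + 1) := by
      have : (0 : ℝ) < ((n1 + n2 : ℕ) : ℝ) := by exact_mod_cast (by omega : 0 < n1 + n2)
      positivity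
    apply bern_pow_sup' hω.pos hs0 hs1 hy
    have k1 : ((n1 + n2 : ℕ) : ℝ) ≤ 3 * n1 := by exact_mod_cast h1
    have k3 : (0 : ℝ) ≤ i := Nat.cast_nonneg i
    have k4 : (0 : ℝ) ≤ m := Nat.cast_nonneg m
    push_cast at k1 ⊢
    have k5 : (0 : ℝ) ≤ (n1 + n2) * i := by positivity
    nlinarith
  · intro i j
    have e : (m : ℝ) * s + (i * (n1 * s + p + n2 * s) + n1 * s) -
        (m * s + (j * (n1 * s + p + n2 * s) + n1 * s)) = (i - j) * (n1 * s + p + n2 * s) := by
      ring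
    rw [e, mul_pow, mul_pow ((i : ℝ) - j)]
    apply mul_le_mul_of_nonneg_left _ (sq_nonneg _)
    apply pow_le_pow_left₀ (by positivity)
    push_cast
    nlinarith

/-- first-perturbation expansion of a power of cells -/
theorem cell_expand {R : Type*} [Ring R] (b1 b2 b0 h z : R) (l : ℕ) :
    b0 * (b1 * (h + z) * b2) ^ l = b0 * (b1 * h * b2) ^ l +
      ∑ i ∈ range l, (b0 * ((b1 * h * b2) ^ i * b1)) *
        (z * (b2 * (b1 * (h + z) * b2) ^ (l - 1 - i))) := by
  conv_lhs => rw [pow_expand (b1 * (h + z) * b2) (b1 * h * b2) l]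
  rw [mul_add, Finset.mul_sum]
  congr 1
  apply Finset.sum_congr rfl
  intro i _
  have : b1 * (h + z) * b2 - b1 * h * b2 = b1 * (z * b2) := by noncomm_ring
  rw [this]
  simp only [mul_assoc]

/-- the Volterra recursion: energy of `b^{n2} cell^l` -/
theorem volterra {ω ζ : A → ℝ} (hω : Wts ω) (hζ : ∑ a, ζ a = 0) {s p : ℝ} (hs0 : 0 < s)
    (hs1 : s < 1) (hp0 : 0 ≤ p) (hp1 : p ≤ 1) {n1 n2 : ℕ} (hn : 1 ≤ n1 + n2)
    (h1 : n1 + n2 ≤ 3 * n1) (h2 : n1 + n2 ≤ 3 * n2) {Lam C : ℝ}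
    (hC : C = √(3 / (2 * min s (1 - s))))
    (hLam : Lam = (∑ a, ζ a ^ 2 / ω a) * (C * (1 + 40 / s ^ 2))) (l : ℕ)
    (hl : (l : ℝ) ≤ ((n1 + n2 : ℕ) : ℝ))
    (hl2 : 64 * Lam ^ 2 * ((l : ℝ) + 1) ≤ ((n1 + n2 : ℕ) : ℝ)) :
    F ω (bern ω s ^ n2 * (bern ω s ^ n1 * (bern ω p + lt ζ) * bern ω s ^ n2) ^ l)
      (bern ω s ^ n2 * (bern ω s ^ n1 * (bern ω p + lt ζ) * bern ω s ^ n2) ^ l) ≤
      2 * C / √(((n1 + n2 : ℕ) : ℝ) * ((l : ℝ) + 1)) := by
  set n : ℝ := ((n1 + n2 : ℕ) : ℝ) with hndef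
  have hn0 : 0 < n := by
    rw [hndef]; exact_mod_cast (by omega : 0 < n1 + n2)
  have hC0 : 0 ≤ C := by rw [hC]; positivity
  have hLam0 : 0 ≤ Lam := by
    rw [hLam]
    apply mul_nonneg
    · exact Finset.sum_nonneg (fun a _ => by have := hω.pos a; positivity)
    · positivity
  have hfam := fam_cells (ω := ω) hω hs0 hs1 hp0 hp1 hn h1 (le_refl n2)
  rw [← hC, ← hndef] at hfam
  induction l using Nat.strong_induction_on with
  | _ l ih =>
    have hexp := cell_expand (bern ω s ^ n1) (bern ω s ^ n2) (bern ω s ^ n2) (bern ω p) (lt ζ) l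
    obtain ⟨cell, hcell⟩ : ∃ cell : Ms (FreeMonoid A),
        cell = bern ω s ^ n1 * (bern ω p + lt ζ) * bern ω s ^ n2 := ⟨_, rfl⟩
    obtain ⟨ch, hch⟩ : ∃ ch : Ms (FreeMonoid A),
        ch = bern ω s ^ n1 * bern ω p * bern ω s ^ n2 := ⟨_, rfl⟩
    rw [← hcell, ← hch] at hexp
    rw [← hcell] at ih ⊢
    rw [← hch] at hfam
    have hneu : Neu ω (bern ω s ^ n2 * ch ^ l) := by
      rw [hch]
      exact ((Neu.bern ω s).pow n2).mul
        (((((Neu.bern ω s).pow n1).mul (Neu.bern ω p)).mul ((Neu.bern ω s).pow n2)).pow l)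
    have hcross : F ω (bern ω s ^ n2 * ch ^ l)
        (∑ i ∈ range l, (bern ω s ^ n2 * (ch ^ i * bern ω s ^ n1)) *
          (lt ζ * (bern ω s ^ n2 * cell ^ (l - 1 - i)))) = 0 := by
      rw [F_sum_right]
      apply Finset.sum_eq_zero
      intro i _
      exact hω.neu_z hζ _ hneu (hfam.neu i)
    have hquad := hfam.quad hω hζ hn0 hs0 hC0 hl (fun i => bern ω s ^ n2 * cell ^ (l - 1 - i))
    rw [← hLam] at hquad
    -- the neutral term
    have hN : F ω (bern ω s ^ n2 * ch ^ l) (bern ω s ^ n2 * ch ^ l) ≤ C / √(n * ((l : ℝ) + 1)) := by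
      have hb := Neu.bern ω s
      have hh := Neu.bern ω p
      have e : bern ω s ^ n2 * ch ^ l = bern ω p ^ l * bern ω s ^ (n2 + (n1 + n2) * l) := by
        have hc : Commute (bern ω s) (bern ω p) := hb.commute hh
        have e1 : ch = bern ω p * bern ω s ^ (n1 + n2) := by
          rw [hch, (hc.pow_left n1).eq, mul_assoc, ← pow_add]
        have hc2 : Commute (bern ω p) (bern ω s ^ (n1 + n2)) := (hc.symm.pow_right _)
        rw [e1, hc2.mul_pow, ← pow_mul, ← mul_assoc, ((hc.pow_left n2).pow_right l).eq,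
          mul_assoc, ← pow_add]
      apply F_self_le hω.pos
      · rw [e]
        exact ((prob_bern hω hp0 hp1).pow l).mul ((prob_bern hω hs0.le hs1.le).pow _)
      · rw [e]
        apply SupB.bern_pow_mul hω.pos _ (by positivity) hp0 hp1
        rw [hC]
        apply bern_pow_sup' hω.pos hs0 hs1 (by positivity)
        have k1 : n ≤ 3 * n2 := by rw [hndef]; exact_mod_cast h2
        have k3 : (0 : ℝ) ≤ l := Nat.cast_nonneg l
        have k6 : ((n2 + (n1 + n2) * l : ℕ) : ℝ) = n2 + n * l := by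
          rw [hndef]; push_cast; ring
        rw [k6]
        have k5 : (0 : ℝ) ≤ n * l := by positivity
        nlinarith
    -- the perturbation term
    have hpert : ∑ i ∈ range l, F ω (bern ω s ^ n2 * cell ^ (l - 1 - i))
        (bern ω s ^ n2 * cell ^ (l - 1 - i)) / √(n * ((i : ℝ) + 1)) ≤ 8 * C / n := by
      have hterm : ∀ i ∈ range l, F ω (bern ω s ^ n2 * cell ^ (l - 1 - i))
          (bern ω s ^ n2 * cell ^ (l - 1 - i)) / √(n * ((i : ℝ) + 1)) ≤
          (2 * C / n) * (1 / √((i : ℝ) + 1) * (1 / √(((l - 1 - i : ℕ) : ℝ) + 1))) := by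
        intro i hi
        rw [Finset.mem_range] at hi
        have hle : ((l - 1 - i : ℕ) : ℝ) ≤ l := by exact_mod_cast (by omega : l - 1 - i ≤ l)
        have hi1 := ih (l - 1 - i) (by omega) (hle.trans hl) (by
          refine le_trans ?_ hl2
          apply mul_le_mul_of_nonneg_left _ (by positivity)
          linarith)
        have hsq : √n * √n = n := Real.mul_self_sqrt hn0.le
        have hs1' : 0 < √n := Real.sqrt_pos.2 hn0
        have hs2' : 0 < √((i : ℝ) + 1) := Real.sqrt_pos.2 (by positivity)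
        have hs3' : 0 < √(((l - 1 - i : ℕ) : ℝ) + 1) := Real.sqrt_pos.2 (by positivity)
        rw [Real.sqrt_mul hn0.le, div_le_iff₀ (by positivity)]
        rw [Real.sqrt_mul hn0.le] at hi1
        refine hi1.trans (le_of_eq ?_)
        rw [div_eq_iff (by positivity)]
        have : 2 * C / n * (1 / √((i : ℝ) + 1) * (1 / √(((l - 1 - i : ℕ) : ℝ) + 1))) *
            (√n * √((i : ℝ) + 1)) * (√n * √(((l - 1 - i : ℕ) : ℝ) + 1)) =
            2 * C / n * (√n * √n) * (√((i : ℝ) + 1) / √((i : ℝ) + 1)) *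
              (√(((l - 1 - i : ℕ) : ℝ) + 1) / √(((l - 1 - i : ℕ) : ℝ) + 1)) := by ring
        rw [this, hsq, div_self hs2'.ne', div_self hs3'.ne']
        field_simp
      refine (Finset.sum_le_sum hterm).trans ?_
      rw [← Finset.mul_sum]
      have := arcsine_sum l
      calc 2 * C / n * ∑ i ∈ range l, 1 / √((i : ℝ) + 1) * (1 / √(((l - 1 - i : ℕ) : ℝ) + 1))
          ≤ 2 * C / n * 4 := mul_le_mul_of_nonneg_left this (by positivity)
        _ = 8 * C / n := by ring
    have hfin : Lam * (8 * C / n) ≤ C / √(n * ((l : ℝ) + 1)) := by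
      have hs4 : 0 < √(n * ((l : ℝ) + 1)) := Real.sqrt_pos.2 (by positivity)
      rw [← mul_div_assoc, div_le_div_iff₀ hn0 hs4]
      have h5 : 8 * Lam * √(n * ((l : ℝ) + 1)) ≤ n := by
        have e : 8 * Lam * √(n * ((l : ℝ) + 1)) = √(64 * Lam ^ 2 * ((l : ℝ) + 1) * n) := by
          have : 64 * Lam ^ 2 * ((l : ℝ) + 1) * n = (8 * Lam) ^ 2 * (n * ((l : ℝ) + 1)) := by ring
          rw [this, Real.sqrt_mul (sq_nonneg (8 * Lam)), Real.sqrt_sq (by positivity)]
        rw [e, Real.sqrt_le_left hn0.le]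
        nlinarith
      calc Lam * (8 * C) * √(n * ((l : ℝ) + 1)) = C * (8 * Lam * √(n * ((l : ℝ) + 1))) := by ring
        _ ≤ C * n := mul_le_mul_of_nonneg_left h5 hC0
    rw [hexp, F_add_left, F_add_right, F_add_right, hcross, F_comm ω (∑ i ∈ range l, _) (_ * _),
      hcross]
    have h6 := mul_le_mul_of_nonneg_left hpert hLam0
    have h7 : 2 * C / √(n * ((l : ℝ) + 1)) = C / √(n * ((l : ℝ) + 1)) + C / √(n * ((l : ℝ) + 1)) := by
      ring
    rw [h7]
    linarith

end Vale.Agent.P321S
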