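import Vale.Agent.Lib.P321S.CrystalD

/-! Module CRYSTAL E (section 12 of docs P321): theorem (M3). -/

namespace Vale.Agent.P321S

open Finset

variable {A : Type*} [Fintype A]

/-- energy of the deviation from the neutral law -/
theorem dev_energy {ω ζ : A → ℝ} (hω : Wts ω) (hζ : ∑ a, ζ a = 0) {s p : ℝ} (hs0 : 0 < s)
    (hs1 : s < 1) (hp0 : 0 ≤ p) (hp1 : p ≤ 1) {n1 n2 : ℕ} (hn : 1 ≤ n1 + n2)
    (h1 : n1 + n2 ≤ 3 * n1) (h2 : n1 + n2 ≤ 3 * n2) {Lam C : ℝ}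
    (hC : C = √(3 / (2 * min s (1 - s))))
    (hLam : Lam = (∑ a, ζ a ^ 2 / ω a) * (C * (1 + 40 / s ^ 2))) (l : ℕ)
    (hl : (l : ℝ) ≤ ((n1 + n2 : ℕ) : ℝ))
    (hl2 : 64 * Lam ^ 2 * ((l : ℝ) + 1) ≤ ((n1 + n2 : ℕ) : ℝ)) :
    F ω ((bern ω s ^ n1 * (bern ω p + lt ζ) * bern ω s ^ n2) ^ l -
        (bern ω s ^ n1 * bern ω p * bern ω s ^ n2) ^ l)
      ((bern ω s ^ n1 * (bern ω p + lt ζ) * bern ω s ^ n2) ^ l -
        (bern ω s ^ n1 * bern ω p * bern ω s ^ n2) ^ l) ≤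
      8 * Lam * C / ((n1 + n2 : ℕ) : ℝ) := by
  have hvol := fun (l' : ℕ) (hl' : (l' : ℝ) ≤ ((n1 + n2 : ℕ) : ℝ)) hl2' =>
    volterra hω hζ hs0 hs1 hp0 hp1 hn h1 h2 hC hLam l' hl' hl2'
  have hexp := cell_expand (bern ω s ^ n1) (bern ω s ^ n2) 1 (bern ω p) (lt ζ) l
  have hfam := fam_cells (ω := ω) hω hs0 hs1 hp0 hp1 hn h1 (Nat.zero_le n2)
  obtain ⟨cell, hcell⟩ : ∃ cell : Ms (FreeMonoid A),
      cell = bern ω s ^ n1 * (bern ω p + lt ζ) * bern ω s ^ n2 := ⟨_, rfl⟩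
  obtain ⟨ch, hch⟩ : ∃ ch : Ms (FreeMonoid A),
      ch = bern ω s ^ n1 * bern ω p * bern ω s ^ n2 := ⟨_, rfl⟩
  rw [← hC, ← hch] at hfam
  rw [← hcell, ← hch] at hexp
  rw [← hcell, ← hch]
  simp only [← hcell] at hvol
  set n : ℝ := ((n1 + n2 : ℕ) : ℝ) with hndef
  have hn0 : 0 < n := by
    rw [hndef]; exact_mod_cast (by omega : 0 < n1 + n2)
  have hC0 : 0 ≤ C := by rw [hC]; positivity
  have hLam0 : 0 ≤ Lam := by
    rw [hLam]
    apply mul_nonneg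
    · exact Finset.sum_nonneg (fun a _ => by have := hω.pos a; positivity)
    · positivity
  have hquad := hfam.quad hω hζ hn0 hs0 hC0 hl (fun i => bern ω s ^ n2 * cell ^ (l - 1 - i))
  rw [← hLam] at hquad
  have hdiff : cell ^ l - ch ^ l = ∑ i ∈ range l,
      bern ω s ^ 0 * (ch ^ i * bern ω s ^ n1) * (lt ζ * (bern ω s ^ n2 * cell ^ (l - 1 - i))) := by
    rw [one_mul, one_mul] at hexp
    rw [hexp, add_sub_cancel_left]
    simp only [pow_zero]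
  rw [hdiff]
  refine hquad.trans ?_
  have hterm : ∀ i ∈ range l, F ω (bern ω s ^ n2 * cell ^ (l - 1 - i))
      (bern ω s ^ n2 * cell ^ (l - 1 - i)) / √(n * ((i : ℝ) + 1)) ≤
      (2 * C / n) * (1 / √((i : ℝ) + 1) * (1 / √(((l - 1 - i : ℕ) : ℝ) + 1))) := by
    intro i hi
    rw [Finset.mem_range] at hi
    have hle : ((l - 1 - i : ℕ) : ℝ) ≤ l := by exact_mod_cast (by omega : l - 1 - i ≤ l)
    have hi1 := hvol (l - 1 - i) (hle.trans hl) (by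
      refine le_trans ?_ hl2
      apply mul_le_mul_of_nonneg_left _ (by positivity)
      linarith)
    have hsq : √n * √n = n := Real.mul_self_sqrt hn0.le
    have hs1' : 0 < √n := Real.sqrt_pos.2 hn0
    have hs2' : 0 < √((i : ℝ) + 1) := Real.sqrt_pos.2 (by positivity)
    have hs3' : 0 < √(((l - 1 - i : ℕ) : ℝ) + 1) := Real.sqrt_pos.2 (by positivity)
    rw [Real.sqrt_mul hn0.le, div_le_iff₀ (by positivity)]
    rw [Real.sqrt_mul hn0.le] at hi1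
    refine hi1.trans (le_of_eq ?_)
    rw [div_eq_iff (by positivity)]
    have : 2 * C / n * (1 / √((i : ℝ) + 1) * (1 / √(((l - 1 - i : ℕ) : ℝ) + 1))) *
        (√n * √((i : ℝ) + 1)) * (√n * √(((l - 1 - i : ℕ) : ℝ) + 1)) =
        2 * C / n * (√n * √n) * (√((i : ℝ) + 1) / √((i : ℝ) + 1)) *
          (√(((l - 1 - i : ℕ) : ℝ) + 1) / √(((l - 1 - i : ℕ) : ℝ) + 1)) := by ring
    rw [this, hsq, div_self hs2'.ne', div_self hs3'.ne']
    field_simp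
  have hpert : ∑ i ∈ range l, F ω (bern ω s ^ n2 * cell ^ (l - 1 - i))
      (bern ω s ^ n2 * cell ^ (l - 1 - i)) / √(n * ((i : ℝ) + 1)) ≤ 8 * C / n := by
    refine (Finset.sum_le_sum hterm).trans ?_
    rw [← Finset.mul_sum]
    have := arcsine_sum l
    calc 2 * C / n * ∑ i ∈ range l, 1 / √((i : ℝ) + 1) * (1 / √(((l - 1 - i : ℕ) : ℝ) + 1))
        ≤ 2 * C / n * 4 := mul_le_mul_of_nonneg_left this (by positivity)
      _ = 8 * C / n := by ring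
  have hfinal := mul_le_mul_of_nonneg_left hpert hLam0
  refine hfinal.trans (le_of_eq ?_)
  ring

theorem M3_num {n l κ E u δ : ℝ} (hn0 : 0 < n) (hl : 0 < l) (hκ0 : 0 < κ) (hE0 : 0 ≤ E)
    (hδ : 0 < δ) (hκ : κ ^ 2 = 8 / δ) (hu : u = δ ^ 2 / (16 * κ * E + 1))
    (hnE : 8 * E / δ ^ 2 ≤ n) (hlc : l ≤ u ^ 2 / 2 * n) :
    √((2 * (κ * √(2 * n * l)) + 1) * (E / n)) + 2 * (2 * n * l / (κ * √(2 * n * l)) ^ 2) ≤ δ := by
  have hu0 : 0 < u := by rw [hu]; positivity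
  have hsq : √(2 * n * l) ^ 2 = 2 * n * l := Real.sq_sqrt (by positivity)
  have k1 : 2 * (2 * n * l / (κ * √(2 * n * l)) ^ 2) ≤ δ / 2 := by
    rw [mul_pow, hsq, hκ]
    have : 2 * n * l ≠ 0 := by positivity
    have e : 2 * n * l / (8 / δ * (2 * n * l)) = δ / 8 := by
      field_simp
    rw [e]; linarith
  have k2 : √(2 * n * l) ≤ u * n := by
    rw [Real.sqrt_le_left (by positivity)]
    have := mul_le_mul_of_nonneg_left hlc (by positivity : 0 ≤ 2 * n)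
    calc 2 * n * l ≤ 2 * n * (u ^ 2 / 2 * n) := this
      _ = (u * n) ^ 2 := by ring
  have k6 : E / n ≤ δ ^ 2 / 8 := by
    rw [div_le_div_iff₀ hn0 (by norm_num)]
    rw [div_le_iff₀ (by positivity)] at hnE
    linarith
  have hκE : 0 ≤ κ * E := mul_nonneg hκ0.le hE0
  have k7 : 2 * κ * E * u ≤ δ ^ 2 / 8 := by
    rw [hu, ← mul_div_assoc, div_le_div_iff₀ (by positivity) (by norm_num)]
    nlinarith [sq_nonneg δ]
  have k3 : √((2 * (κ * √(2 * n * l)) + 1) * (E / n)) ≤ δ / 2 := by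
    rw [Real.sqrt_le_left (by positivity)]
    have k4 : (2 * (κ * √(2 * n * l)) + 1) * (E / n) ≤ (2 * (κ * (u * n)) + 1) * (E / n) := by
      apply mul_le_mul_of_nonneg_right _ (by positivity)
      have := mul_le_mul_of_nonneg_left k2 hκ0.le
      linarith
    have k5 : (2 * (κ * (u * n)) + 1) * (E / n) = 2 * κ * E * u + E / n := by
      field_simp
    calc (2 * (κ * √(2 * n * l)) + 1) * (E / n) ≤ _ := k4
      _ = 2 * κ * E * u + E / n := k5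
      _ ≤ δ ^ 2 / 8 + δ ^ 2 / 8 := add_le_add k7 k6
      _ = (δ / 2) ^ 2 := by ring
  linarith

/-- (M3): powers of a crystal cell are close to the neutral law. -/
theorem M3 {ω ζ : A → ℝ} (hω : Wts ω) (hζ : ∑ a, ζ a = 0) {s p : ℝ} (hs0 : 0 < s)
    (hs1 : s < 1) (hp0 : 0 ≤ p) (hp1 : p ≤ 1) (hP : Prob (bern ω p + lt ζ)) {δ : ℝ}
    (hδ : 0 < δ) :
    ∃ c0 : ℝ, 0 < c0 ∧ ∃ n0 : ℕ, ∀ n1 n2 l : ℕ, n0 ≤ n1 + n2 → n1 + n2 ≤ 3 * n1 →
      n1 + n2 ≤ 3 * n2 → (l : ℝ) ≤ c0 * ((n1 + n2 : ℕ) : ℝ) →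
      N1 δ ((bern ω s ^ n1 * (bern ω p + lt ζ) * bern ω s ^ n2) ^ l -
        (bern ω s ^ n1 * bern ω p * bern ω s ^ n2) ^ l) := by
  obtain ⟨C, hC⟩ : ∃ C : ℝ, C = √(3 / (2 * min s (1 - s))) := ⟨_, rfl⟩
  obtain ⟨Lam, hLam⟩ : ∃ Lam : ℝ, Lam = (∑ a, ζ a ^ 2 / ω a) * (C * (1 + 40 / s ^ 2)) :=
    ⟨_, rfl⟩
  have hC0 : 0 ≤ C := by rw [hC]; positivity
  have hLam0 : 0 ≤ Lam := by
    rw [hLam]
    apply mul_nonneg
    · exact Finset.sum_nonneg (fun a _ => by have := hω.pos a; positivity)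
    · positivity
  obtain ⟨E, hE⟩ : ∃ E : ℝ, E = 8 * Lam * C := ⟨_, rfl⟩
  have hE0 : 0 ≤ E := by rw [hE]; positivity
  obtain ⟨κ, hκ0, hκ⟩ : ∃ κ : ℝ, 0 < κ ∧ κ ^ 2 = 8 / δ :=
    ⟨√(8 / δ), Real.sqrt_pos.2 (by positivity), Real.sq_sqrt (by positivity)⟩
  obtain ⟨u, hu⟩ : ∃ u : ℝ, u = δ ^ 2 / (16 * κ * E + 1) := ⟨_, rfl⟩
  have hu0 : 0 < u := by rw [hu]; positivity
  refine ⟨min (min 1 (1 / (128 * Lam ^ 2 + 1))) (u ^ 2 / 2), ?_, ⌈8 * E / δ ^ 2⌉₊ + 1, ?_⟩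
  · apply lt_min
    · apply lt_min <;> positivity
    · positivity
  · intro n1 n2 l hn h1 h2 hl
    have hn1 : 1 ≤ n1 + n2 := by omega
    obtain ⟨n, hndef⟩ : ∃ n : ℝ, n = ((n1 + n2 : ℕ) : ℝ) := ⟨_, rfl⟩
    rw [← hndef] at hl
    have hn0 : 0 < n := by rw [hndef]; exact_mod_cast (by omega : 0 < n1 + n2)
    have hnE : 8 * E / δ ^ 2 ≤ n := by
      have k1 : 8 * E / δ ^ 2 ≤ (⌈8 * E / δ ^ 2⌉₊ : ℝ) := Nat.le_ceil _
      have k2 : ((⌈8 * E / δ ^ 2⌉₊ + 1 : ℕ) : ℝ) ≤ n := by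
        rw [hndef]; exact_mod_cast hn
      push_cast at k2
      linarith
    rcases Nat.eq_zero_or_pos l with rfl | hlpos
    · simp only [pow_zero, sub_self]
      exact N1.zero.mono hδ.le
    have hl1 : (1 : ℝ) ≤ l := by exact_mod_cast hlpos
    have hla : (l : ℝ) ≤ n := by
      have : min (min 1 (1 / (128 * Lam ^ 2 + 1))) (u ^ 2 / 2) ≤ 1 :=
        (min_le_left _ _).trans (min_le_left _ _)
      nlinarith
    have hlb : 64 * Lam ^ 2 * ((l : ℝ) + 1) ≤ n := by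
      have k1 : min (min 1 (1 / (128 * Lam ^ 2 + 1))) (u ^ 2 / 2) ≤ 1 / (128 * Lam ^ 2 + 1) :=
        (min_le_left _ _).trans (min_le_right _ _)
      have k2 : (l : ℝ) ≤ 1 / (128 * Lam ^ 2 + 1) * n :=
        hl.trans (mul_le_mul_of_nonneg_right k1 hn0.le)
      have k3 : (l : ℝ) * (128 * Lam ^ 2 + 1) ≤ n := by
        calc (l : ℝ) * (128 * Lam ^ 2 + 1) ≤ 1 / (128 * Lam ^ 2 + 1) * n * (128 * Lam ^ 2 + 1) :=
              mul_le_mul_of_nonneg_right k2 (by positivity)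
          _ = n := by field_simp
      nlinarith [sq_nonneg Lam]
    have hlc : (l : ℝ) ≤ u ^ 2 / 2 * n :=
      hl.trans (mul_le_mul_of_nonneg_right (min_le_right _ _) hn0.le)
    have hdev := dev_energy hω hζ hs0 hs1 hp0 hp1 hn1 h1 h2 hC hLam l (by rw [← hndef]; exact hla)
      (by rw [← hndef]; exact hlb)
    rw [← hE, ← hndef] at hdev
    -- means and variances
    have hmb := MV.bern hω hs0.le hs1.le
    have hmh := MV.bern hω hp0 hp1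
    have hmD := MV.bern_add hω hζ hp0 hp1 hP
    have hV : (l : ℝ) * ((n1 : ℝ) * 1 + 1 + (n2 : ℝ) * 1) ≤ 2 * n * l := by
      have : (1 : ℝ) ≤ n := by rw [hndef]; exact_mod_cast hn1
      have e : (n1 : ℝ) + n2 = n := by rw [hndef]; push_cast; ring
      nlinarith
    have hP1 := ((((hmb.pow n1).mul hmD).mul (hmb.pow n2)).pow l).mono hV
    have hP2 := ((((hmb.pow n1).mul hmh).mul (hmb.pow n2)).pow l).mono hV
    have hR : 0 < κ * √(2 * n * l) := by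
      apply mul_pos hκ0
      apply Real.sqrt_pos.2
      positivity
    refine (n1_window hω hP1 hP2 hdev hR).mono ?_
    exact M3_num hn0 (by linarith) hκ0 hE0 hδ hκ hu hnE hlc

end Vale.Agent.P321S
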