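import Vale.Agent.Lib.P321S.Letters
import Vale.Agent.Lib.P321S.CrystalE

/-! Module CRYSTAL F (section 12 of docs P321): (M3) for the concrete letters. -/

namespace Vale.Agent.P321S

open Finset

/-- normalised weights -/
noncomputable def omn (q : ℝ) (a : Fin 3) : ℝ := om q a / (1 - q ^ 2)

/-- coefficients of the mean-zero letter -/
noncomputable def zcf (q : ℝ) (a : Fin 3) : ℝ :=
  (1 - q) * ((if a = 1 then 1 else 0) - omn q a)

/-- neutral letter -/
noncomputable def nl (q : ℝ) : Ms Wd := bern (omn q) (1 - q)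

theorem om_zero (q : ℝ) : om q 0 = (1 - q) * q := by simp [om]
theorem om_one (q : ℝ) : om q 1 = (1 - q) * q := by simp [om]
theorem om_two (q : ℝ) : om q 2 = (1 - q) ^ 2 := by simp [om]

theorem omn_wts {q : ℝ} (h0 : 0 < q) (h1 : q < 1) : Wts (omn q) := by
  have hs : 0 < 1 - q ^ 2 := by nlinarith
  constructor
  · intro a
    apply div_pos _ hs
    unfold om
    split_ifs
    · have : 0 < 1 - q := by linarith
      positivity
    · exact mul_pos (by linarith) h0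
  · rw [Fin.sum_univ_three]
    unfold omn
    rw [om_zero, om_one, om_two, ← add_div, ← add_div, div_eq_one_iff_eq hs.ne']
    ring

theorem zcf_sum {q : ℝ} (h0 : 0 < q) (h1 : q < 1) : ∑ a, zcf q a = 0 := by
  have h := (omn_wts h0 h1).sum_eq
  unfold zcf
  rw [← Finset.mul_sum, Finset.sum_sub_distrib, h, Fin.sum_univ_three]
  simp

theorem lt_omn (q : ℝ) : lt (omn q) = (1 / (1 - q ^ 2)) • bet q := by
  unfold lt bet
  rw [Finset.smul_sum]
  apply Finset.sum_congr rfl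
  intro a _
  unfold sg omn
  rw [smul_smul, MonoidAlgebra.smul_single, smul_eq_mul, mul_one]
  congr 1
  ring

theorem bb_eq_bern {q : ℝ} (h0 : 0 < q) (h1 : q < 1) : bb q = bern (omn q) (1 - q ^ 2) := by
  have hs : (1 - q ^ 2) ≠ 0 := by nlinarith
  unfold bb bern
  rw [lt_omn, smul_smul, mul_one_div_cancel hs, one_smul]
  congr 2
  ring

theorem lt_zcf (q : ℝ) : lt (zcf q) = (1 - q) • (sg 1 - lt (omn q)) := by
  unfold lt zcf sg
  simp only [Fin.sum_univ_three]
  simp only [smul_sub, smul_add, MonoidAlgebra.smul_single, smul_eq_mul, mul_sub,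
    MonoidAlgebra.single_sub]
  simp only [Fin.isValue, zero_ne_one, ↓reduceIte, show ((2 : Fin 3) = 1) = False by decide,
    mul_zero, mul_one, MonoidAlgebra.single_zero]
  abel

theorem dd_eq_bern (q : ℝ) : dd q = nl q + lt (zcf q) := by
  rw [lt_zcf]
  unfold dd nl bern
  module

/-- (M3) for the concrete letters -/
theorem crystal_neutral' {q : ℝ} (h0 : 0 < q) (h1 : q < 1) (δ : ℝ) (hδ : 0 < δ) :
    ∃ c0 : ℝ, 0 < c0 ∧ ∃ n0 : ℕ, ∀ n1 n2 l : ℕ, n0 ≤ n1 + n2 → n1 + n2 ≤ 3 * n1 →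
      n1 + n2 ≤ 3 * n2 → (l : ℝ) ≤ c0 * ((n1 + n2 : ℕ) : ℝ) →
      N1 δ ((bb q ^ n1 * dd q * bb q ^ n2) ^ l - bb q ^ ((n1 + n2) * l) * nl q ^ l) := by
  have hP : Prob (bern (omn q) (1 - q) + lt (zcf q)) := by
    have := dd_prob h0.le h1.le
    rwa [dd_eq_bern] at this
  obtain ⟨c0, hc0, n0, h⟩ := M3 (omn_wts h0 h1) (zcf_sum h0 h1) (s := 1 - q ^ 2) (p := 1 - q)
    (by nlinarith) (by nlinarith) (by linarith) (by linarith) hP hδ
  refine ⟨c0, hc0, n0, fun n1 n2 l hn hn1 hn2 hl => ?_⟩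
  have h2 := h n1 n2 l hn hn1 hn2 hl
  have hc : Commute (bern (omn q) (1 - q ^ 2)) (bern (omn q) (1 - q)) :=
    (Neu.bern _ _).commute (Neu.bern _ _)
  have e : (bern (omn q) (1 - q ^ 2) ^ n1 * bern (omn q) (1 - q) *
      bern (omn q) (1 - q ^ 2) ^ n2) ^ l =
      bern (omn q) (1 - q ^ 2) ^ ((n1 + n2) * l) * bern (omn q) (1 - q) ^ l := by
    rw [mul_assoc, (hc.symm.pow_right n2).eq, ← mul_assoc, ← pow_add,
      (hc.pow_left (n1 + n2)).mul_pow, ← pow_mul]
  rw [e] at h2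
  rw [dd_eq_bern, bb_eq_bern h0 h1]
  exact h2

end Vale.Agent.P321S
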