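import Vale.Agent.Lib.P321S.Smear

/-! Module DOM (section 8 of docs P321). -/

namespace Vale.Agent.P321S

open Finset

theorem pow_taylor_le {r ρ : ℝ} (hr : 0 ≤ r) (hrρ : r ≤ ρ) (hρ : 1 ≤ ρ) (k : ℕ) :
    r ^ k ≤ 1 + k * (r - 1) + (k : ℝ) ^ 2 * ρ ^ k * (r - 1) ^ 2 := by
  induction k with
  | zero => simp
  | succ k ih =>
    have hρk : 1 ≤ ρ ^ k := one_le_pow₀ hρ
    have hρk1 : 1 ≤ ρ ^ (k + 1) := one_le_pow₀ hρ
    have h1 : r ^ (k + 1) ≤ r * (1 + k * (r - 1) + (k : ℝ) ^ 2 * ρ ^ k * (r - 1) ^ 2) := by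
      rw [pow_succ, mul_comm]
      exact mul_le_mul_of_nonneg_left ih hr
    have h2 : r * ((k : ℝ) ^ 2 * ρ ^ k * (r - 1) ^ 2) ≤
        ρ * ((k : ℝ) ^ 2 * ρ ^ k * (r - 1) ^ 2) :=
      mul_le_mul_of_nonneg_right hrρ (by positivity)
    have h3 : (k : ℝ) * (r - 1) ^ 2 ≤ (2 * k + 1) * ρ ^ (k + 1) * (r - 1) ^ 2 := by
      apply mul_le_mul_of_nonneg_right _ (sq_nonneg _)
      have hk : (0 : ℝ) ≤ k := Nat.cast_nonneg k
      nlinarith
    push_cast
    calc r ^ (k + 1) ≤ _ := h1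
      _ = r + k * r * (r - 1) + r * ((k : ℝ) ^ 2 * ρ ^ k * (r - 1) ^ 2) := by ring
      _ ≤ r + k * r * (r - 1) + ρ * ((k : ℝ) ^ 2 * ρ ^ k * (r - 1) ^ 2) := by linarith
      _ = 1 + (k + 1) * (r - 1) + (k : ℝ) * (r - 1) ^ 2
          + (k : ℝ) ^ 2 * ρ ^ (k + 1) * (r - 1) ^ 2 := by ring
      _ ≤ 1 + (k + 1) * (r - 1) + (2 * k + 1) * ρ ^ (k + 1) * (r - 1) ^ 2
          + (k : ℝ) ^ 2 * ρ ^ (k + 1) * (r - 1) ^ 2 := by linarith
      _ = _ := by ring

/-- the tilted measure `ν (ν/t)^q` -/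
noncomputable def tilt {M : Type*} (q : ℕ) (ν t : Ms M) : Ms M :=
  MonoidAlgebra.ofCoeff (Finsupp.zipWith (fun a b => a * (a / b) ^ q) (by simp) ν.coeff t.coeff)

theorem tilt_coeff {M : Type*} (q : ℕ) (ν t : Ms M) (w : M) :
    (tilt q ν t).coeff w = ν.coeff w * (ν.coeff w / t.coeff w) ^ q := rfl

theorem tilt_pos {M : Type*} (q : ℕ) {ν t : Ms M} (hν : Pos ν) (ht : Pos t) :
    Pos (tilt q ν t) := fun w => by
  rw [tilt_coeff]
  exact mul_nonneg (hν w) (pow_nonneg (div_nonneg (hν w) (ht w)) _)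

/-- the energy as a sum -/
theorem Q.energy {M : Type*} {U : ℝ} {z ν : Ms M} (h : Q U z ν) (hU : 0 ≤ U)
    {s : Finset M} (hs : z.coeff.support ⊆ s) (hs' : ν.coeff.support ⊆ s) :
    (∑ w ∈ s, z.coeff w ^ 2 / ν.coeff w ≤ U) ∧ (∀ w, ν.coeff w = 0 → z.coeff w = 0) := by
  classical
  constructor
  · have h1 := h (fun w => z.coeff w / ν.coeff w)
    rw [pr_eq_sum hs, pr_eq_sum hs'] at h1
    have e1 : ∑ w ∈ s, z.coeff w * (z.coeff w / ν.coeff w) =
        ∑ w ∈ s, z.coeff w ^ 2 / ν.coeff w :=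
      Finset.sum_congr rfl (fun w _ => by ring)
    have e2 : ∑ w ∈ s, ν.coeff w * (z.coeff w / ν.coeff w) ^ 2 =
        ∑ w ∈ s, z.coeff w ^ 2 / ν.coeff w := by
      refine Finset.sum_congr rfl (fun w _ => ?_)
      by_cases hw : ν.coeff w = 0
      · simp [hw]
      · field_simp
    rw [e1, e2] at h1
    set E := ∑ w ∈ s, z.coeff w ^ 2 / ν.coeff w with hE
    by_contra hcon
    push Not at hcon
    have hE0 : 0 < E := lt_of_le_of_lt hU hcon
    nlinarith
  · intro w hw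
    have h1 := h (fun v => if v = w then 1 else 0)
    rw [← coeff_eq_pr] at h1
    have e : (fun v => (if v = w then (1:ℝ) else 0) ^ 2) = fun v => if v = w then (1:ℝ) else 0 := by
      funext v
      split_ifs <;> simp
    rw [e, ← coeff_eq_pr, hw, mul_zero] at h1
    exact pow_eq_zero_iff (two_ne_zero) |>.1 (le_antisymm h1 (sq_nonneg _))

theorem tilt_mass_le {M : Type*} (q : ℕ) {ρ : ℝ} (hρ : 1 ≤ ρ) {t ν : Ms M} {U : ℝ}
    (ht : Pos t) (hν : Pos ν) (hmt : mass t = 1) (hmν : mass ν = 1)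
    (hd : Dom ν (ρ • t)) (hU : 0 ≤ U) (hQ : Q U (t - ν) ν) :
    mass (tilt q ν t) ≤ 1 + ((q + 1 : ℕ) : ℝ) ^ 2 * ρ ^ (q + 2) * U := by
  classical
  set s : Finset M := ν.coeff.support ∪ t.coeff.support with hs
  have hs1 : ν.coeff.support ⊆ s := Finset.subset_union_left
  have hs2 : t.coeff.support ⊆ s := Finset.subset_union_right
  have hs3 : (t - ν).coeff.support ⊆ s := by
    intro w hw
    rw [Finsupp.mem_support_iff] at hw
    rw [hs, Finset.mem_union, Finsupp.mem_support_iff, Finsupp.mem_support_iff]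
    by_contra hcon
    push Not at hcon
    apply hw
    have : (t - ν).coeff w = t.coeff w - ν.coeff w := rfl
    rw [this, hcon.1, hcon.2, sub_zero]
  have hs4 : (tilt q ν t).coeff.support ⊆ s := by
    intro w hw
    rw [Finsupp.mem_support_iff, tilt_coeff] at hw
    apply hs1
    rw [Finsupp.mem_support_iff]
    intro h0
    apply hw
    rw [h0, zero_mul]
  obtain ⟨hE, hz⟩ := hQ.energy hU hs3 hs1
  have hsub : ∀ w, (t - ν).coeff w = t.coeff w - ν.coeff w := fun w => rfl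
  have hdom : ∀ w, ν.coeff w ≤ ρ * t.coeff w := fun w => by simpa using hd w
  have hterm : ∀ w ∈ s, (tilt q ν t).coeff w * 1 ≤
      t.coeff w * 1 + (((q + 1 : ℕ) : ℝ) * (ν.coeff w * 1) - ((q + 1 : ℕ) : ℝ) * (t.coeff w * 1)) +
        ((q + 1 : ℕ) : ℝ) ^ 2 * ρ ^ (q + 2) * ((t - ν).coeff w ^ 2 / ν.coeff w) := by
    intro w _
    rw [tilt_coeff, hsub]
    by_cases hw : ν.coeff w = 0
    · have h1 : t.coeff w = 0 := by
        have := hz w hw
        rw [hsub, hw, sub_zero] at this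
        exact this
      simp [hw, h1]
    · have hνp : 0 < ν.coeff w := lt_of_le_of_ne (hν w) (Ne.symm hw)
      have htp : 0 < t.coeff w := by
        have h1 := hdom w
        have hρ0 : 0 < ρ := by linarith
        by_contra hcon
        push Not at hcon
        nlinarith
      set r := ν.coeff w / t.coeff w with hr
      have hr0 : 0 ≤ r := by positivity
      have hrρ : r ≤ ρ := by
        rw [hr, div_le_iff₀ htp]
        exact hdom w
      have hνr : ν.coeff w = t.coeff w * r := by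
        rw [hr]; field_simp
      have h1 := pow_taylor_le hr0 hrρ hρ (q + 1)
      have h2 : t.coeff w * (r - 1) ^ 2 ≤ ρ * ((t.coeff w - ν.coeff w) ^ 2 / ν.coeff w) := by
        rw [hνr]
        have hr0' : 0 < r := by positivity
        have e : (t.coeff w - t.coeff w * r) ^ 2 / (t.coeff w * r) =
            t.coeff w * (r - 1) ^ 2 / r := by
          field_simp
          ring
        rw [e]
        rw [← mul_div_assoc, le_div_iff₀ hr0']
        calc t.coeff w * (r - 1) ^ 2 * r ≤ t.coeff w * (r - 1) ^ 2 * ρ :=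
              mul_le_mul_of_nonneg_left hrρ (by positivity)
          _ = ρ * (t.coeff w * (r - 1) ^ 2) := by ring
      have h3 : t.coeff w * r ^ (q + 1) ≤ t.coeff w * (1 + ((q + 1 : ℕ) : ℝ) * (r - 1) +
          ((q + 1 : ℕ) : ℝ) ^ 2 * ρ ^ (q + 1) * (r - 1) ^ 2) :=
        mul_le_mul_of_nonneg_left h1 htp.le
      have h4 : ((q + 1 : ℕ) : ℝ) ^ 2 * ρ ^ (q + 1) * (t.coeff w * (r - 1) ^ 2) ≤
          ((q + 1 : ℕ) : ℝ) ^ 2 * ρ ^ (q + 1) *
            (ρ * ((t.coeff w - ν.coeff w) ^ 2 / ν.coeff w)) :=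
        mul_le_mul_of_nonneg_left h2 (by positivity)
      calc ν.coeff w * r ^ q * 1 = t.coeff w * r ^ (q + 1) := by
            rw [hνr]; ring
        _ ≤ _ := h3
        _ = t.coeff w + (((q + 1 : ℕ) : ℝ) * (t.coeff w * r) - ((q + 1 : ℕ) : ℝ) * (t.coeff w)) +
            ((q + 1 : ℕ) : ℝ) ^ 2 * ρ ^ (q + 1) * (t.coeff w * (r - 1) ^ 2) := by ring
        _ ≤ t.coeff w + (((q + 1 : ℕ) : ℝ) * (t.coeff w * r) - ((q + 1 : ℕ) : ℝ) * (t.coeff w)) +
            ((q + 1 : ℕ) : ℝ) ^ 2 * ρ ^ (q + 1) *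
            (ρ * ((t.coeff w - ν.coeff w) ^ 2 / ν.coeff w)) := by linarith
        _ = _ := by rw [← hνr]; ring
  have hm1 : mass (tilt q ν t) = ∑ w ∈ s, (tilt q ν t).coeff w * 1 := pr_eq_sum hs4 _
  have hm2 : ∑ w ∈ s, ν.coeff w * 1 = 1 := (pr_eq_sum hs1 (fun _ => 1)).symm.trans hmν
  have hm3 : ∑ w ∈ s, t.coeff w * 1 = 1 := (pr_eq_sum hs2 (fun _ => 1)).symm.trans hmt
  rw [hm1]
  refine (Finset.sum_le_sum hterm).trans ?_
  rw [Finset.sum_add_distrib, Finset.sum_add_distrib, Finset.sum_sub_distrib, ← Finset.mul_sum,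
    ← Finset.mul_sum, ← Finset.mul_sum, hm2, hm3]
  have h5 : ((q + 1 : ℕ) : ℝ) ^ 2 * ρ ^ (q + 2) *
      ∑ w ∈ s, (t - ν).coeff w ^ 2 / ν.coeff w ≤ ((q + 1 : ℕ) : ℝ) ^ 2 * ρ ^ (q + 2) * U :=
    mul_le_mul_of_nonneg_left hE (by positivity)
  linarith

/-- coefficientwise domination of powers by the powers of the tilted measure -/
theorem tilt_pow {M : Type*} [Monoid M] (q : ℕ) {ρ : ℝ} {t ν : Ms M}
    (ht : Pos t) (hν : Pos ν) (hd : Dom ν (ρ • t)) (n : ℕ) :
    ∀ (c X : ℝ), 0 < c → 0 < X → ∀ f : M → ℝ, (∀ w, 0 ≤ f w) →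
      c * pr (ν ^ n) f - X * pr (t ^ n) f ≤ c * (c / X) ^ q * pr (tilt q ν t ^ n) f := by
  classical
  have hy : Pos (tilt q ν t) := tilt_pos q hν ht
  have hdom : ∀ w, ν.coeff w ≤ ρ * t.coeff w := fun w => by simpa using hd w
  induction n with
  | zero =>
    intro c X hc hX f hf
    simp only [pow_zero, pr_one]
    have h0 := hf 1
    rcases le_or_gt c X with h | h
    · have h1 : 0 ≤ c * (c / X) ^ q * f 1 := by positivity
      nlinarith
    · have h1 : 1 ≤ (c / X) ^ q := one_le_pow₀ (by rw [le_div_iff₀ hX]; linarith)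
      have h2 : c * 1 * f 1 ≤ c * (c / X) ^ q * f 1 :=
        mul_le_mul_of_nonneg_right (mul_le_mul_of_nonneg_left h1 hc.le) h0
      nlinarith
  | succ n ih =>
    intro c X hc hX f hf
    rw [pow_succ', pow_succ', pow_succ', pr_mul, pr_mul, pr_mul]
    set s : Finset M := ν.coeff.support ∪ t.coeff.support with hs
    have hs1 : ν.coeff.support ⊆ s := Finset.subset_union_left
    have hs2 : t.coeff.support ⊆ s := Finset.subset_union_right
    have hs4 : (tilt q ν t).coeff.support ⊆ s := by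
      intro w hw
      rw [Finsupp.mem_support_iff, tilt_coeff] at hw
      apply hs1
      rw [Finsupp.mem_support_iff]
      intro h0
      apply hw
      rw [h0, zero_mul]
    rw [pr_eq_sum hs1, pr_eq_sum hs2, pr_eq_sum hs4, Finset.mul_sum, Finset.mul_sum,
      Finset.mul_sum, ← Finset.sum_sub_distrib]
    refine Finset.sum_le_sum (fun u _ => ?_)
    rw [tilt_coeff]
    have hf' : ∀ v, 0 ≤ f (u * v) := fun v => hf _
    by_cases hu : ν.coeff u = 0
    · rw [hu]
      have h1 : 0 ≤ X * (t.coeff u * pr (t ^ n) fun v => f (u * v)) :=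
        mul_nonneg hX.le (mul_nonneg (ht u) ((ht.pow n).pr_nonneg hf'))
      simp only [zero_mul, mul_zero]
      linarith
    · have hνp : 0 < ν.coeff u := lt_of_le_of_ne (hν u) (Ne.symm hu)
      have htp : 0 < t.coeff u := by
        have h1 := hdom u
        rcases (ht u).eq_or_lt with h2 | h2
        · rw [← h2, mul_zero] at h1
          linarith
        · exact h2
      have h1 := ih (c * ν.coeff u) (X * t.coeff u) (by positivity) (by positivity)
        (fun v => f (u * v)) hf'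
      calc c * (ν.coeff u * pr (ν ^ n) fun v => f (u * v)) -
            X * (t.coeff u * pr (t ^ n) fun v => f (u * v)) =
            c * ν.coeff u * (pr (ν ^ n) fun v => f (u * v)) -
            X * t.coeff u * (pr (t ^ n) fun v => f (u * v)) := by ring
        _ ≤ _ := h1
        _ = _ := by
          have e : c * ν.coeff u / (X * t.coeff u) = (c / X) * (ν.coeff u / t.coeff u) := by
            rw [mul_div_mul_comm]
          rw [e, mul_pow]
          ring

/-- LEMMA 8: domination -/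
theorem domination (M : Type*) [Monoid M] (q0 : ℕ) (ρ : ℝ) (hρ : 1 ≤ ρ) :
    ∃ C : ℝ, 1 ≤ C ∧ ∀ (t' ν' : Ms M) (U cs : ℝ) (n : ℕ), Prob t' → Prob ν' →
      Dom ν' (ρ • t') → 0 ≤ U → Q U (t' - ν') ν' → C * U * n ≤ 1 / 2 → 0 < cs → cs ≤ 1 / 2 →
      ∃ e : Ms M, Pos e ∧ mass e ≤ 2 * (2 * cs) ^ (q0 + 1) ∧
        Dom (cs • ν' ^ n) ((1 / 2 : ℝ) • t' ^ n + e) := by
  refine ⟨((q0 + 1 : ℕ) : ℝ) ^ 2 * ρ ^ (q0 + 2), ?_, ?_⟩
  · have h1 : (1 : ℝ) ≤ ((q0 + 1 : ℕ) : ℝ) ^ 2 := by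
      apply one_le_pow₀
      push_cast
      have : (0 : ℝ) ≤ q0 := Nat.cast_nonneg _
      linarith
    have h2 : (1 : ℝ) ≤ ρ ^ (q0 + 2) := one_le_pow₀ hρ
    nlinarith
  · intro t ν U cs n ht hν hd hU hQ hC hcs _
    set C : ℝ := ((q0 + 1 : ℕ) : ℝ) ^ 2 * ρ ^ (q0 + 2) with hCdef
    have hy : Pos (tilt q0 ν t) := tilt_pos q0 hν.pos ht.pos
    have hmy := tilt_mass_le q0 hρ ht.pos hν.pos ht.mass_eq hν.mass_eq hd hU hQ
    rw [← hCdef] at hmy
    have hC0 : 0 ≤ C := by positivity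
    have hmyn : mass (tilt q0 ν t ^ n) ≤ 2 := by
      rw [mass_pow]
      calc mass (tilt q0 ν t) ^ n ≤ (Real.exp (C * U)) ^ n := by
            apply pow_le_pow_left₀ hy.mass_nonneg
            refine hmy.trans ?_
            have := Real.add_one_le_exp (C * U)
            linarith
        _ = Real.exp (C * U * n) := by
            rw [← Real.exp_nat_mul]; ring_nf
        _ ≤ Real.exp (1 / 2) := Real.exp_le_exp.2 hC
        _ ≤ 2 := by
            have h1 : Real.exp (1 / 2) ^ 2 = Real.exp 1 := by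
              rw [← Real.exp_nat_mul]; norm_num
            have h2 := Real.exp_one_lt_d9
            have h3 := Real.exp_pos (1 / 2)
            nlinarith
    refine ⟨(cs * (2 * cs) ^ q0) • tilt q0 ν t ^ n, (hy.pow n).smul (by positivity), ?_, ?_⟩
    · rw [mass_smul]
      calc cs * (2 * cs) ^ q0 * mass (tilt q0 ν t ^ n) ≤ cs * (2 * cs) ^ q0 * 2 :=
            mul_le_mul_of_nonneg_left hmyn (by positivity)
        _ = (2 * cs) ^ (q0 + 1) := by ring
        _ ≤ 2 * (2 * cs) ^ (q0 + 1) := by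
            have : 0 ≤ (2 * cs) ^ (q0 + 1) := by positivity
            linarith
    · rw [dom_iff_pos]
      apply pos_of_pr
      intro f hf
      rw [pr_sub, pr_add, pr_smul, pr_smul, pr_smul]
      have h1 := tilt_pow q0 ht.pos hν.pos hd n cs (1 / 2) hcs (by norm_num) f hf
      have e : cs / (1 / 2) = 2 * cs := by ring
      rw [e] at h1
      linarith

end Vale.Agent.P321S
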