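import Vale.Agent.Lib.P321S.ExpoA

/-! Module EXPO (section 10 of docs P321). -/

namespace Vale.Agent.P321S

open Finset Filter

/-- the inductive statement with exponents -/
def PS (q x y v : ℝ) : Prop :=
  ∃ j : ℝ, 0 < j ∧ ∀ B : ℝ, 0 < B → ∃ ρ : ℝ, 1 ≤ ρ ∧ ∃ L₀ : ℕ, ∀ L : ℕ, L₀ ≤ L →
    ∃ (t t' ν' zl zh : Ms Wd) (J Λ : ℕ) (c : ℝ) (s P : List Bool), 1 / ρ ≤ c ∧
      Stage t t' ν' zl zh J ⌊(L : ℝ) ^ j⌋₊ Λ ρ c ((L : ℝ) ^ (-(y * j))) ((L : ℝ) ^ (-(x * j)))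
        ((L : ℝ) ^ (-(v * j))) ((L : ℝ) ^ (-B)) ((L : ℝ) ^ (-B)) ∧
      Code (lw q) t' (t' + (zl + zh)) ⌊(L : ℝ) ^ j⌋₊ ((L : ℝ) ^ (-B)) s P

/-- the gain factor -/
theorem gain_le {L Jc : ℕ} (hL : 1 ≤ L) {j v ρ c R : ℝ} (hj : 0 < j) (hv : 1 < v) (hρ : 1 ≤ ρ)
    (hc : 1 / ρ ≤ c) (hR : 0 ≤ R) (c1 : (Jc : ℝ) ≤ 2 * (L : ℝ) ^ (j / 3))
    (c2 : (L : ℝ) ^ (j / 3) ≤ Jc) :
    1 / √(Jc * (c ^ 2 / 2)) + ((Jc : ℝ) + R) * (L : ℝ) ^ (-(v * j)) ≤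
      (2 * ρ + 2 + R) * (L : ℝ) ^ (-(j / 6)) := by
  have hL6 := lp_pos hL (j / 6)
  have hone_j3 := one_le_lp hL (show 0 ≤ j / 3 by positivity)
  have h1 : 1 / √(Jc * (c ^ 2 / 2)) ≤ 2 * ρ * (L : ℝ) ^ (-(j / 6)) := by
    have h2 : (L : ℝ) ^ (j / 6) / (2 * ρ) ≤ √(Jc * (c ^ 2 / 2)) := by
      apply Real.le_sqrt_of_sq_le
      have h3 : ((L : ℝ) ^ (j / 6)) ^ 2 = (L : ℝ) ^ (j / 3) := by
        rw [← Real.rpow_natCast, ← Real.rpow_mul (by positivity)]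
        congr 1
        push_cast
        ring
      rw [div_pow, h3]
      have h4 : (1 / ρ) ^ 2 ≤ c ^ 2 := pow_le_pow_left₀ (by positivity) hc 2
      have h5 : (L : ℝ) ^ (j / 3) * ((1 / ρ) ^ 2) ≤ Jc * c ^ 2 :=
        mul_le_mul c2 h4 (by positivity) (by positivity)
      have h6 : (L : ℝ) ^ (j / 3) / (2 * ρ) ^ 2 = (L : ℝ) ^ (j / 3) * ((1 / ρ) ^ 2) / 4 := by
        field_simp
        norm_num
      rw [h6]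
      have h7 : 0 ≤ (L : ℝ) ^ (j / 3) * ((1 / ρ) ^ 2) := by positivity
      linarith
    calc 1 / √(Jc * (c ^ 2 / 2)) ≤ 1 / ((L : ℝ) ^ (j / 6) / (2 * ρ)) :=
          one_div_le_one_div_of_le (by positivity) h2
      _ = 2 * ρ * (L : ℝ) ^ (-(j / 6)) := by
          rw [Real.rpow_neg (by positivity)]
          field_simp
  have h7 : ((Jc : ℝ) + R) * (L : ℝ) ^ (-(v * j)) ≤ (2 + R) * (L : ℝ) ^ (-(j / 6)) := by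
    have h8 : ((Jc : ℝ) + R) ≤ (2 + R) * (L : ℝ) ^ (j / 3) := by nlinarith
    calc ((Jc : ℝ) + R) * (L : ℝ) ^ (-(v * j)) ≤
          (2 + R) * (L : ℝ) ^ (j / 3) * (L : ℝ) ^ (-(v * j)) :=
            mul_le_mul_of_nonneg_right h8 (lp_pos hL _).le
      _ = (2 + R) * (L : ℝ) ^ (j / 3 + -(v * j)) := by rw [lp_add hL]; ring
      _ ≤ (2 + R) * (L : ℝ) ^ (-(j / 6)) :=
            mul_le_mul_of_nonneg_left (lp_mono hL (by nlinarith)) (by linarith)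
  linarith

/-- numerical facts at one scale -/
structure SF (L N Jc J' J₂ : ℕ) (j s R : ℝ) (K : ℕ) : Prop where
  n3 : 1 ≤ N
  c3 : 1 ≤ Jc
  hJcm : Jc ≤ (J' + 1) * N
  n2 : (L : ℝ) ^ s ≤ N
  c1 : (Jc : ℝ) ≤ 2 * (L : ℝ) ^ (j / 3)
  c2 : (L : ℝ) ^ (j / 3) ≤ Jc
  hΛ : ((2 * ((J' + 1) * N) + 2 ^ K : ℕ) : ℝ) ≤ (8 + R) * (L : ℝ) ^ (j + s)
  hn : ((2 * Jc + 2 ^ K : ℕ) : ℝ) ≤ (4 + R) * (L : ℝ) ^ (j / 3)
  hJ₂ : 64 * (((2 * ((J' + 1) * N) + 2 ^ K : ℕ) : ℝ)) * ((J' : ℝ) + 1) ≤ (J₂ : ℝ)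
  hJ₂' : (J₂ : ℝ) + 1 ≤ 2 * (L : ℝ) ^ (2 * j + 2 * s)

theorem scale_facts {L : ℕ} (hL : 1 ≤ L) {j s : ℝ} (hj : 0 < j) (hs : 0 < s) (K : ℕ)
    (E5 : (64 * (8 + (2:ℝ) ^ K) * 2 + 1) * (L : ℝ) ^ (2 * j + s) ≤ (L : ℝ) ^ (2 * j + 2 * s)) :
    SF L ⌈(L : ℝ) ^ s⌉₊ ⌈(L : ℝ) ^ (j / 3)⌉₊ ⌊(L : ℝ) ^ j⌋₊ ⌊(L : ℝ) ^ (2 * j + 2 * s)⌋₊
      j s (2 ^ K) K := by
  have hjs : 0 < 2 * j + 2 * s := by positivity
  obtain ⟨a1, a2, a3⟩ := floor_lp hL hj.le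
  obtain ⟨b1, b2, b3⟩ := floor_lp hL hjs.le
  obtain ⟨n1, n2, n3⟩ := ceil_lp hL hs.le
  obtain ⟨c1, c2, c3⟩ := ceil_lp hL (show 0 ≤ j / 3 by positivity)
  have hone_j3 := one_le_lp hL (show 0 ≤ j / 3 by positivity)
  have hone_js := one_le_lp hL (show 0 ≤ j + s by positivity)
  have hLj := lp_pos hL j
  have hJcm : ⌈(L : ℝ) ^ (j / 3)⌉₊ ≤ (⌊(L : ℝ) ^ j⌋₊ + 1) * ⌈(L : ℝ) ^ s⌉₊ := by
    have h1 : ⌈(L : ℝ) ^ (j / 3)⌉₊ ≤ ⌊(L : ℝ) ^ j⌋₊ + 1 := by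
      rw [Nat.ceil_le]
      push_cast
      exact (lp_mono hL (by linarith)).trans a3
    calc ⌈(L : ℝ) ^ (j / 3)⌉₊ ≤ (⌊(L : ℝ) ^ j⌋₊ + 1) * 1 := by simpa using h1
      _ ≤ (⌊(L : ℝ) ^ j⌋₊ + 1) * ⌈(L : ℝ) ^ s⌉₊ := Nat.mul_le_mul_left _ n3
  generalize ⌊(L : ℝ) ^ j⌋₊ = J' at *
  generalize ⌊(L : ℝ) ^ (2 * j + 2 * s)⌋₊ = J₂ at *
  generalize ⌈(L : ℝ) ^ s⌉₊ = N at *
  generalize ⌈(L : ℝ) ^ (j / 3)⌉₊ = Jc at *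
  have hR1 : (1 : ℝ) ≤ 2 ^ K := one_le_pow₀ (by norm_num)
  have hm : ((J' : ℝ) + 1) * N ≤ 4 * (L : ℝ) ^ (j + s) := by
    rw [lp_add hL]
    have := mul_le_mul a2 n1 (by positivity) (by positivity)
    linarith
  have hΛ : ((2 * ((J' + 1) * N) + 2 ^ K : ℕ) : ℝ) ≤ (8 + 2 ^ K) * (L : ℝ) ^ (j + s) := by
    push_cast
    nlinarith
  refine ⟨n3, c3, hJcm, n2, c1, c2, hΛ, ?_, ?_, b2⟩
  · push_cast
    nlinarith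
  · have h1 : 64 * (((2 * ((J' + 1) * N) + 2 ^ K : ℕ) : ℝ)) * ((J' : ℝ) + 1) ≤
        64 * ((8 + 2 ^ K) * (L : ℝ) ^ (j + s)) * (2 * (L : ℝ) ^ j) :=
      mul_le_mul (mul_le_mul_of_nonneg_left hΛ (by norm_num)) a2 (by positivity) (by positivity)
    have h2 : 64 * ((8 + 2 ^ K) * (L : ℝ) ^ (j + s)) * (2 * (L : ℝ) ^ j) =
        64 * (8 + 2 ^ K) * 2 * (L : ℝ) ^ (2 * j + s) := by
      have : (L : ℝ) ^ (2 * j + s) = (L : ℝ) ^ (j + s) * (L : ℝ) ^ j := by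
        rw [← lp_add hL]; ring_nf
      rw [this]; ring
    have h3 := one_le_lp hL (show 0 ≤ 2 * j + s by positivity)
    rw [h2] at h1
    linarith

theorem combine_two {L : ℕ} {C G p₁ p₂ P X : ℝ} (hC : 0 ≤ C)
    (hX : X ≤ G * (L : ℝ) ^ p₁)
    (h1 : 2 * C * G * (L : ℝ) ^ p₁ ≤ (L : ℝ) ^ P) (h2 : 2 * C * (L : ℝ) ^ p₂ ≤ (L : ℝ) ^ P) :
    C * (X + (L : ℝ) ^ p₂) ≤ (L : ℝ) ^ P := by
  nlinarith [mul_le_mul_of_nonneg_left hX hC]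

theorem combine_three {L : ℕ} (hL : 1 ≤ L) {C G p₁ p₂ P X Y : ℝ} (hC : 0 ≤ C) (hX0 : 0 ≤ X)
    (hX : X ≤ G * (L : ℝ) ^ p₁) (hY : Y ≤ 2 * (L : ℝ) ^ P)
    (h1 : 256 * C * G * (L : ℝ) ^ (P + p₁) ≤ 1) (h2 : 256 * C * (L : ℝ) ^ (P + p₂) ≤ 1) :
    64 * Y * (C * (X + (L : ℝ) ^ p₂)) ≤ 1 := by
  have hP := lp_pos hL P
  have h3 := lp_pos hL p₂
  have h4 : C * (X + (L : ℝ) ^ p₂) ≤ C * (G * (L : ℝ) ^ p₁ + (L : ℝ) ^ p₂) := by gcongr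
  have h0 : 0 ≤ C * (X + (L : ℝ) ^ p₂) := by positivity
  calc 64 * Y * (C * (X + (L : ℝ) ^ p₂)) ≤
      64 * (2 * (L : ℝ) ^ P) * (C * (G * (L : ℝ) ^ p₁ + (L : ℝ) ^ p₂)) := by
        gcongr
    _ = (256 * C * G * ((L : ℝ) ^ P * (L : ℝ) ^ p₁)) / 2 +
        (256 * C * ((L : ℝ) ^ P * (L : ℝ) ^ p₂)) / 2 := by ring
    _ = (256 * C * G * (L : ℝ) ^ (P + p₁)) / 2 + (256 * C * (L : ℝ) ^ (P + p₂)) / 2 := by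
        rw [lp_add hL, lp_add hL]
    _ ≤ 1 := by linarith

/-- all the inequalities between powers of `L` that the step needs -/
structure EF (L : ℕ) (x y v j s x₂ y₂ v₂ B₂ B B₃ : ℝ) (K q0 : ℕ) (C R G₀ : ℝ) : Prop where
  E1 : C * (4 + R) * (L : ℝ) ^ (j / 3 - v * j) ≤ 1
  E2 : (4 + R) ^ 2 * (L : ℝ) ^ (2 * j / 3 + (-B)) ≤ (L : ℝ) ^ (-(v * j))
  E3 : C * (L : ℝ) ^ (-(y * j)) ≤ 1
  E4 : C * (L : ℝ) ^ (-(x * j)) ≤ 1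
  E5 : (64 * (8 + R) * 2 + 1) * (L : ℝ) ^ (2 * j + s) ≤ (L : ℝ) ^ (2 * j + 2 * s)
  E6 : 256 * C * G₀ * (L : ℝ) ^ (2 * j + 2 * s + -(y * j + j / 6 - s)) ≤ 1
  E7 : 256 * C * (L : ℝ) ^ (2 * j + 2 * s + -B₂) ≤ 1
  E8 : 256 * 2 ^ (q0 + 1) * (L : ℝ) ^ (2 * j + 2 * s + -(s * (q0 + 1))) ≤ 1
  E9 : 2 * (L : ℝ) ^ (-s) ≤ 1
  E10 : C * (L : ℝ) ^ (-(2 * x * j)) ≤ (L : ℝ) ^ (-(y₂ * (2 * j + 2 * s)))
  E11 : 2 * C * G₀ * (L : ℝ) ^ (-(2 * y * j + j / 6 - s)) ≤ (L : ℝ) ^ (-(x₂ * (2 * j + 2 * s)))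
  E12 : 2 * C * (L : ℝ) ^ (-B₂) ≤ (L : ℝ) ^ (-(x₂ * (2 * j + 2 * s)))
  E13 : 2 * C * G₀ * (L : ℝ) ^ (-(y * j + j / 6 - s)) ≤ (L : ℝ) ^ (-(v₂ * (2 * j + 2 * s)))
  E14 : 2 * C * (L : ℝ) ^ (-B₂) ≤ (L : ℝ) ^ (-(v₂ * (2 * j + 2 * s)))
  E15 : 8 * 2 ^ (q0 + 1) * (L : ℝ) ^ (-(s * (q0 + 1))) ≤ (L : ℝ) ^ (-B₃)
  E16 : 2 * (8 + R) * (L : ℝ) ^ (j + s + (-B)) ≤ (L : ℝ) ^ (-B₃)
  E17 : 2 * (L : ℝ) ^ (-B₃) ≤ 1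

theorem ev_EF {x y v j s x₂ y₂ v₂ B₂ B B₃ : ℝ} {K q0 : ℕ} (C R G₀ : ℝ)
    (hj : 0 < j) (hs : 0 < s) (hx : 0 < x) (hy : 0 < y) (hv : 1 < v)
    (e1 : v₂ * (2 * j + 2 * s) < y * j + j / 6 - s)
    (e2 : x₂ * (2 * j + 2 * s) < 2 * y * j + j / 6 - s)
    (e3 : y₂ * (2 * j + 2 * s) < 2 * x * j)
    (e4 : 2 * j + 2 * s < y * j + j / 6 - s)
    (f1 : v₂ * (2 * j + 2 * s) < B₂) (f2 : x₂ * (2 * j + 2 * s) < B₂)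
    (f3 : 2 * j + 2 * s < B₂) (hq0 : B₂ < s * (q0 + 1))
    (hB1 : 2 * j / 3 + v * j < B) (hB3 : j + s + B₂ < B) (hB₃ : B₃ < B₂) (hB₃' : 0 < B₃) :
    ∀ᶠ L : ℕ in atTop, EF L x y v j s x₂ y₂ v₂ B₂ B B₃ K q0 C R G₀ := by
  have hxj : 0 < x * j := mul_pos hx hj
  have hyj : 0 < y * j := mul_pos hy hj
  have hvj : v * j > j := by nlinarith
  filter_upwards [ev_le_one (show j / 3 - v * j < 0 by linarith) (C * (4 + R)),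
    ev_le (show 2 * j / 3 + (-B) < -(v * j) by linarith) ((4 + R) ^ 2),
    ev_le_one (show -(y * j) < 0 by linarith) C,
    ev_le_one (show -(x * j) < 0 by linarith) C,
    ev_le (show 2 * j + s < 2 * j + 2 * s by linarith) (64 * (8 + R) * 2 + 1),
    ev_le_one (show 2 * j + 2 * s + -(y * j + j / 6 - s) < 0 by linarith) (256 * C * G₀),
    ev_le_one (show 2 * j + 2 * s + -B₂ < 0 by linarith) (256 * C),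
    ev_le_one (show 2 * j + 2 * s + -(s * (q0 + 1)) < 0 by linarith) (256 * 2 ^ (q0 + 1)),
    ev_le_one (show -s < 0 by linarith) 2,
    ev_le (show -(2 * x * j) < -(y₂ * (2 * j + 2 * s)) by linarith) C,
    ev_le (show -(2 * y * j + j / 6 - s) < -(x₂ * (2 * j + 2 * s)) by linarith) (2 * C * G₀),
    ev_le (show -B₂ < -(x₂ * (2 * j + 2 * s)) by linarith) (2 * C),
    ev_le (show -(y * j + j / 6 - s) < -(v₂ * (2 * j + 2 * s)) by linarith) (2 * C * G₀),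
    ev_le (show -B₂ < -(v₂ * (2 * j + 2 * s)) by linarith) (2 * C),
    ev_le (show -(s * (q0 + 1)) < -B₃ by linarith) (8 * 2 ^ (q0 + 1)),
    ev_le (show j + s + (-B) < -B₃ by linarith) (2 * (8 + R)),
    ev_le_one (show -B₃ < 0 by linarith) 2]
    with L E1 E2 E3 E4 E5 E6 E7 E8 E9 E10 E11 E12 E13 E14 E15 E16 E17
  exact ⟨E1, E2, E3, E4, E5, E6, E7, E8, E9, E10, E11, E12, E13, E14, E15, E16, E17⟩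

theorem cs_pow {L : ℕ} (s : ℝ) (q0 : ℕ) (hL : 1 ≤ L) :
    2 * (2 * (L : ℝ) ^ (-s)) ^ (q0 + 1) = 2 * 2 ^ (q0 + 1) * (L : ℝ) ^ (-(s * (q0 + 1))) := by
  rw [mul_pow, ← Real.rpow_natCast ((L : ℝ) ^ (-s)), ← Real.rpow_mul (by positivity)]
  push_cast
  ring_nf

theorem gainU {L : ℕ} (hL : 1 ≤ L) {y j s g G₀ : ℝ} (hg : g ≤ G₀ * (L : ℝ) ^ (-(j / 6))) :
    (L : ℝ) ^ (-(y * j)) * g / (L : ℝ) ^ (-s) ≤ G₀ * (L : ℝ) ^ (-(y * j + j / 6 - s)) := by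
  rw [Real.rpow_neg (by positivity) s, div_inv_eq_mul]
  have h1 := lp_pos hL (-(y * j))
  have h2 := lp_pos hL s
  calc (L : ℝ) ^ (-(y * j)) * g * (L : ℝ) ^ s ≤
        (L : ℝ) ^ (-(y * j)) * (G₀ * (L : ℝ) ^ (-(j / 6))) * (L : ℝ) ^ s := by gcongr
    _ = G₀ * ((L : ℝ) ^ (-(y * j)) * (L : ℝ) ^ (-(j / 6)) * (L : ℝ) ^ s) := by ring
    _ = G₀ * (L : ℝ) ^ (-(y * j + j / 6 - s)) := by
        rw [← lp_add hL, ← lp_add hL]; ring_nf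

theorem gainA {L : ℕ} (hL : 1 ≤ L) {y j s g G₀ : ℝ} (hg : g ≤ G₀ * (L : ℝ) ^ (-(j / 6))) :
    ((L : ℝ) ^ (-(y * j))) ^ 2 * g / (L : ℝ) ^ (-s) ≤
      G₀ * (L : ℝ) ^ (-(2 * y * j + j / 6 - s)) := by
  have h0 : ((L : ℝ) ^ (-(y * j))) ^ 2 = (L : ℝ) ^ (-((2 * y) * j)) := by
    rw [sq, ← lp_add hL]; ring_nf
  rw [h0]
  exact gainU hL hg

/-- the numerical part of the step at one scale -/
theorem step_scale {q : ℝ} (h0 : 0 < q) (h1 : q < 1) {x y v j s : ℝ} (hj : 0 < j) (hs : 0 < s)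
    {x₂ y₂ v₂ B₂ B : ℝ} {K q0 : ℕ} {ρ : ℝ} (hρ : 1 ≤ ρ)
    (hx : 0 < x) (hy : 0 < y) (hv : 1 < v)
    (e1 : v₂ * (2 * j + 2 * s) < y * j + j / 6 - s)
    (e2 : x₂ * (2 * j + 2 * s) < 2 * y * j + j / 6 - s)
    (e3 : y₂ * (2 * j + 2 * s) < 2 * x * j)
    (e4 : 2 * j + 2 * s < y * j + j / 6 - s)
    (f1 : v₂ * (2 * j + 2 * s) < B₂) (f2 : x₂ * (2 * j + 2 * s) < B₂)
    (f3 : 2 * j + 2 * s < B₂) (hK : B₂ ≤ s * K) (hq0 : B₂ < s * (q0 + 1))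
    (hB1 : 2 * j / 3 + v * j < B) (hB2 : (y + v) * j ≤ B)
    (hB3 : j + s + B₂ < B) {B₃ : ℝ} (hB₃ : B₃ < B₂) (hB₃' : 0 < B₃) :
    ∀ᶠ L : ℕ in atTop, ∀ (t t' ν' zl zh : Ms Wd) (J Λ : ℕ) (c : ℝ) (w P : List Bool),
      1 / ρ ≤ c →
      Stage t t' ν' zl zh J ⌊(L : ℝ) ^ j⌋₊ Λ ρ c ((L : ℝ) ^ (-(y * j))) ((L : ℝ) ^ (-(x * j)))
        ((L : ℝ) ^ (-(v * j))) ((L : ℝ) ^ (-B)) ((L : ℝ) ^ (-B)) →
      Code (lw q) t' (t' + (zl + zh)) ⌊(L : ℝ) ^ j⌋₊ ((L : ℝ) ^ (-B)) w P →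
      ∃ (t₂ ν₂ zl₂ zh₂ : Ms Wd) (Λ₂ : ℕ) (w₂ P₂ : List Bool),
        Stage t' t₂ ν₂ zl₂ zh₂ ⌊(L : ℝ) ^ j⌋₊ ⌊(L : ℝ) ^ (2 * j + 2 * s)⌋₊ Λ₂
          (ρ ^ (2 * 2 ^ K)) (1 / 4)
          ((L : ℝ) ^ (-(y₂ * (2 * j + 2 * s)))) ((L : ℝ) ^ (-(x₂ * (2 * j + 2 * s))))
          ((L : ℝ) ^ (-(v₂ * (2 * j + 2 * s)))) ((L : ℝ) ^ (-B₃)) ((L : ℝ) ^ (-B₃)) ∧
        Code (lw q) t₂ (t₂ + (zl₂ + zh₂)) ⌊(L : ℝ) ^ (2 * j + 2 * s)⌋₊ ((L : ℝ) ^ (-B₃))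
          w₂ P₂ := by
  obtain ⟨C, hC, hstep⟩ := step Wd K q0 ρ hρ
  have hC0 : 0 ≤ C := by linarith
  filter_upwards [eventually_ge_atTop 1,
    ev_EF (K := K) (q0 := q0) C (2 ^ K) (2 * ρ + 2 + 2 ^ K) hj hs hx hy hv e1 e2 e3 e4 f1 f2 f3
      hq0 hB1 hB3 hB₃ hB₃'] with L hL hE
  intro t t' ν' zl zh J Λ c w P hc hS hCo
  have hSF := scale_facts hL hj hs K hE.E5
  generalize ⌊(L : ℝ) ^ j⌋₊ = J' at *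
  generalize ⌊(L : ℝ) ^ (2 * j + 2 * s)⌋₊ = J₂ at *
  generalize ⌈(L : ℝ) ^ s⌉₊ = N at *
  generalize ⌈(L : ℝ) ^ (j / 3)⌉₊ = Jc at *
  have hgle := gain_le hL hj hv hρ hc (R := 2 ^ K) (by positivity) hSF.c1 hSF.c2
  have hgnn : 0 ≤ 1 / √(Jc * (c ^ 2 / 2)) + ((Jc : ℝ) + 2 ^ K) * (L : ℝ) ^ (-(v * j)) := by
    positivity
  generalize hg : 1 / √(Jc * (c ^ 2 / 2)) + ((Jc : ℝ) + 2 ^ K) * (L : ℝ) ^ (-(v * j)) = g at *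
  have hU₂ := gainU (y := y) (s := s) hL hgle
  have hA₂ := gainA (y := y) (s := s) hL hgle
  have hR0 : (0 : ℝ) ≤ 2 ^ K := by positivity
  have hmain := hstep t t' ν' zl zh J J' Λ c
    ((L : ℝ) ^ (-(y * j))) ((L : ℝ) ^ (-(x * j))) ((L : ℝ) ^ (-(v * j))) ((L : ℝ) ^ (-B))
    ((L : ℝ) ^ (-B)) N Jc J₂ ((L : ℝ) ^ (-s)) ((L : ℝ) ^ (-B₂)) hS hSF.n3 hSF.c3 hSF.hJcm
    (lp_pos hL _) (by linarith [hE.E9])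
    (by
      calc C * ((2 * Jc + 2 ^ K : ℕ) : ℝ) * (L : ℝ) ^ (-(v * j)) ≤
            C * ((4 + 2 ^ K) * (L : ℝ) ^ (j / 3)) * (L : ℝ) ^ (-(v * j)) :=
              mul_le_mul_of_nonneg_right (mul_le_mul_of_nonneg_left hSF.hn hC0) (lp_pos hL _).le
        _ = C * (4 + 2 ^ K) * (L : ℝ) ^ (j / 3 - v * j) := by
            rw [sub_eq_add_neg, lp_add hL]; ring
        _ ≤ 1 := hE.E1)
    (by
      calc (((2 * Jc + 2 ^ K : ℕ) : ℝ)) ^ 2 * (L : ℝ) ^ (-B) ≤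
            ((4 + 2 ^ K) * (L : ℝ) ^ (j / 3)) ^ 2 * (L : ℝ) ^ (-B) :=
              mul_le_mul_of_nonneg_right (pow_le_pow_left₀ (by positivity) hSF.hn 2)
                (lp_pos hL _).le
        _ = (4 + 2 ^ K) ^ 2 * ((L : ℝ) ^ (j / 3) * (L : ℝ) ^ (j / 3) * (L : ℝ) ^ (-B)) := by ring
        _ = (4 + 2 ^ K) ^ 2 * (L : ℝ) ^ (2 * j / 3 + (-B)) := by
            rw [← lp_add hL, ← lp_add hL]; ring_nf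
        _ ≤ _ := hE.E2)
    (by
      rw [← lp_add hL]
      exact lp_mono hL (by linarith))
    hE.E3 hE.E4
    (by
      have h1 : (L : ℝ) ^ B₂ ≤ (N : ℝ) ^ K := by
        calc (L : ℝ) ^ B₂ ≤ (L : ℝ) ^ (s * K) := lp_mono hL hK
          _ = ((L : ℝ) ^ s) ^ K := by
              rw [Real.rpow_mul (by positivity), Real.rpow_natCast]
          _ ≤ (N : ℝ) ^ K := pow_le_pow_left₀ (lp_pos hL _).le hSF.n2 K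
      have h2 : (L : ℝ) ^ (-B₂) = 1 / (L : ℝ) ^ B₂ := by
        rw [Real.rpow_neg (by positivity), one_div]
      rw [h2]
      exact div_le_div₀ zero_le_one hE.E4 (lp_pos hL B₂) h1)
    hSF.hJ₂
    (by
      rw [hg]
      exact combine_three hL hC0 (by positivity) hU₂ hSF.hJ₂' hE.E6 hE.E7)
    (by
      rw [cs_pow s q0 hL]
      have hp := lp_pos hL (-(s * (q0 + 1)))
      calc 64 * ((J₂ : ℝ) + 1) * (2 * 2 ^ (q0 + 1) * (L : ℝ) ^ (-(s * (q0 + 1)))) ≤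
            64 * (2 * (L : ℝ) ^ (2 * j + 2 * s)) *
              (2 * 2 ^ (q0 + 1) * (L : ℝ) ^ (-(s * (q0 + 1)))) :=
              mul_le_mul_of_nonneg_right (mul_le_mul_of_nonneg_left hSF.hJ₂' (by norm_num))
                (by positivity)
        _ = 256 * 2 ^ (q0 + 1) * ((L : ℝ) ^ (2 * j + 2 * s) * (L : ℝ) ^ (-(s * (q0 + 1)))) := by
            ring
        _ ≤ 1 := by rw [← lp_add hL]; exact hE.E8)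
  rw [hg] at hmain
  obtain ⟨t₂, ν₂, zl₂, zh₂, hn1, hn2, hS2⟩ := hmain
  have hE15 := hE.E15
  have hE16 := hE.E16
  have hE17 := hE.E17
  have hcsp := cs_pow s q0 hL
  have hB32 : (L : ℝ) ^ (-B₂) ≤ (L : ℝ) ^ (-B₃) := lp_mono hL (by linarith)
  have hεnn : 0 ≤ (2 * (L : ℝ) ^ (-s)) ^ (q0 + 1) := by positivity
  have hB3pos := lp_pos hL (-B₃)
  have hS3 := hS2.mono (J₂ := J₂) (ρ₂ := ρ ^ (2 * 2 ^ K))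
    (a₂ := (L : ℝ) ^ (-(y₂ * (2 * j + 2 * s)))) (A₂ := (L : ℝ) ^ (-(x₂ * (2 * j + 2 * s))))
    (U₂ := (L : ℝ) ^ (-(v₂ * (2 * j + 2 * s)))) (ε₂ := (L : ℝ) ^ (-B₃))
    (τ₂ := (L : ℝ) ^ (-B₃)) le_rfl le_rfl
    (by
      have : ((L : ℝ) ^ (-(x * j))) ^ 2 = (L : ℝ) ^ (-(2 * x * j)) := by
        rw [sq, ← lp_add hL]; ring_nf
      rw [this]
      exact hE.E10)
    (combine_two hC0 hA₂ hE.E11 hE.E12)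
    (combine_two hC0 hU₂ hE.E13 hE.E14)
    (by linarith) (by linarith) hB32
  obtain ⟨w₂, P₂, hCo2⟩ := code_TM (isLaw_lw h0.le h1.le) hS.t'_prob hS.t'_prob hS.p'_prob
    (h₀ := hCo.le) (h₀' := hCo.hs) hCo K ((J' + 1) * N)
  refine ⟨t₂, ν₂, zl₂, zh₂, _, w₂, P₂, hS3, hCo2.mono ?_ hn1 hn2 ?_⟩
  · -- lengths
    have h1 : (((2 * ((J' + 1) * N) + 2 ^ K) * J' : ℕ) : ℝ) ≤ (J₂ : ℝ) := by
      refine le_trans ?_ hSF.hJ₂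
      have h2 : (0:ℝ) ≤ ((2 * ((J' + 1) * N) + 2 ^ K : ℕ) : ℝ) := by positivity
      have h3 : (0:ℝ) ≤ J' := by positivity
      rw [Nat.cast_mul]
      nlinarith [mul_nonneg h2 h3]
    exact_mod_cast h1
  · have h1 : (((2 * ((J' + 1) * N) + 2 ^ K : ℕ) : ℝ)) * (L : ℝ) ^ (-B) ≤
        (L : ℝ) ^ (-B₃) / 2 := by
      calc (((2 * ((J' + 1) * N) + 2 ^ K : ℕ) : ℝ)) * (L : ℝ) ^ (-B) ≤
            (8 + 2 ^ K) * (L : ℝ) ^ (j + s) * (L : ℝ) ^ (-B) :=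
              mul_le_mul_of_nonneg_right hSF.hΛ (lp_pos hL _).le
        _ = (2 * (8 + 2 ^ K) * (L : ℝ) ^ (j + s + (-B))) / 2 := by
            rw [lp_add hL (j + s) (-B)]; ring
        _ ≤ _ := by linarith
    have h2 : 4 * (2 * (L : ℝ) ^ (-s)) ^ (q0 + 1) ≤ (L : ℝ) ^ (-B₃) / 2 := by
      linarith
    push_cast at h1 ⊢
    linarith

theorem PS_step {q : ℝ} (h0 : 0 < q) (h1 : q < 1) {x y v : ℝ} (h : PS q x y v) (hv : 1 < v)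
    (hy : 11 / 6 < y) (hx : 0 < x) (θ : ℝ) (hθ : 0 < θ) :
    PS q (y + 1 / 12 - θ) (x - θ) (y / 2 + 1 / 12 - θ) := by
  obtain ⟨j, hj, hPS⟩ := h
  have hy0 : 0 < y := by linarith
  obtain ⟨s, hs, hs1, hs2⟩ : ∃ s : ℝ, 0 < s ∧ s * (2 * y + x + 3) ≤ θ * j ∧
      4 * s ≤ (y - 11 / 6) * j := by
    have hD : 0 < 2 * y + x + 3 := by positivity
    have hyy : 0 < y - 11 / 6 := by linarith
    refine ⟨min (θ * j / (2 * y + x + 3)) ((y - 11 / 6) * j / 4), ?_, ?_, ?_⟩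
    · apply lt_min <;> positivity
    · calc _ ≤ θ * j / (2 * y + x + 3) * (2 * y + x + 3) :=
            mul_le_mul_of_nonneg_right (min_le_left _ _) hD.le
        _ = θ * j := by field_simp
    · have := min_le_right (θ * j / (2 * y + x + 3)) ((y - 11 / 6) * j / 4)
      linarith
  have hθj : 0 < θ * j := mul_pos hθ hj
  have hsθ : 0 < s * θ := mul_pos hs hθ
  have hsy : 0 < s * y := mul_pos hs hy0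
  have hsx : 0 < s * x := mul_pos hs hx
  set v₂ := y / 2 + 1 / 12 - θ with hv₂
  set x₂ := y + 1 / 12 - θ with hx₂
  set y₂ := x - θ with hy₂
  have hj₂ : 0 < 2 * j + 2 * s := by positivity
  refine ⟨2 * j + 2 * s, hj₂, ?_⟩
  intro B' hB'
  set B₂ : ℝ := B' + |v₂ * (2 * j + 2 * s)| + |x₂ * (2 * j + 2 * s)| + (2 * j + 2 * s) + 1
    with hB₂
  have g1 := le_abs_self (v₂ * (2 * j + 2 * s))
  have g2 := le_abs_self (x₂ * (2 * j + 2 * s))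
  have g3 := abs_nonneg (v₂ * (2 * j + 2 * s))
  have g4 := abs_nonneg (x₂ * (2 * j + 2 * s))
  have hB₂0 : 0 < B₂ := by linarith
  set K : ℕ := ⌈B₂ / s⌉₊ with hKdef
  have hK : B₂ ≤ s * K := by
    have := Nat.le_ceil (B₂ / s)
    rw [div_le_iff₀ hs] at this
    rw [mul_comm]; exact this
  set B : ℝ := (2 * j / 3 + v * j) + (y + v) * j + (j + s + B₂) + 1 with hB
  have hyv : 0 < (y + v) * j := by positivity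
  have hvj : 0 < v * j := by positivity
  obtain ⟨ρ, hρ, L₀, hL₀⟩ := hPS B (by positivity)
  have hev := step_scale (K := K) (q0 := K) (x₂ := x₂) (y₂ := y₂) (v₂ := v₂) (B₂ := B₂)
    (B := B) (B₃ := B') h0 h1 hj hs hρ hx hy0 hv
    (by rw [hv₂]; nlinarith) (by rw [hx₂]; nlinarith) (by rw [hy₂]; nlinarith) (by nlinarith)
    (by linarith) (by linarith) (by linarith) hK (by nlinarith) (by linarith) (by linarith)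
    (by linarith) (by linarith) hB'
  obtain ⟨L₁, hL₁⟩ := Filter.eventually_atTop.1 (hev.and (ev_le_one (show -B' < 0 by linarith) 2))
  have hρ4 : (4:ℝ) ≤ max (ρ ^ (2 * 2 ^ K)) 4 := le_max_right _ _
  refine ⟨max (ρ ^ (2 * 2 ^ K)) 4, by linarith, max L₀ L₁, ?_⟩
  intro L hL
  obtain ⟨t, t', ν', zl, zh, J, Λ, c, w, P, hc, hS, hCo⟩ := hL₀ L ((le_max_left _ _).trans hL)
  obtain ⟨hLs, hLB⟩ := hL₁ L ((le_max_right _ _).trans hL)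
  obtain ⟨t₂, ν₂, zl₂, zh₂, Λ₂, w₂, P₂, hS₂, hCo₂⟩ := hLs t t' ν' zl zh J Λ c w P hc hS hCo
  refine ⟨t', t₂, ν₂, zl₂, zh₂, ⌊(L : ℝ) ^ j⌋₊, Λ₂, 1 / 4, w₂, P₂, ?_, ?_, hCo₂⟩
  · exact one_div_le_one_div_of_le (by norm_num) hρ4
  · exact hS₂.mono (ρ₂ := max (ρ ^ (2 * 2 ^ K)) 4) le_rfl (le_max_left _ _) le_rfl le_rfl le_rfl
      le_rfl (by linarith) le_rfl

theorem PS_mono {q x y v x' y' v' : ℝ} (h : PS q x y v) (hx : x' ≤ x) (hy : y' ≤ y)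
    (hv : v' ≤ v) : PS q x' y' v' := by
  obtain ⟨j, hj, hPS⟩ := h
  refine ⟨j, hj, ?_⟩
  intro B hB
  obtain ⟨ρ, hρ, L₀, hL₀⟩ := hPS B hB
  refine ⟨ρ, hρ, max L₀ 1, ?_⟩
  intro L hL
  have hL1 : 1 ≤ L := (le_max_right _ _).trans hL
  obtain ⟨t, t', ν', zl, zh, J, Λ, c, w, P, hc, hS, hCo⟩ := hL₀ L ((le_max_left _ _).trans hL)
  refine ⟨t, t', ν', zl, zh, J, Λ, c, w, P, hc, hS.mono le_rfl le_rfl ?_ ?_ ?_ le_rfl hS.ε_le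
    le_rfl, hCo⟩ <;> exact lp_mono hL1 (by nlinarith)

theorem mul_sqrt_rpow {L : ℕ} (hL : 1 ≤ L) : (L : ℝ) * √(L : ℝ) = (L : ℝ) ^ (3 / 2 : ℝ) := by
  rw [Real.sqrt_eq_rpow]
  nth_rewrite 1 [← Real.rpow_one (L : ℝ)]
  rw [← lp_add hL]
  norm_num

theorem sq_mul_sqrt_rpow {L : ℕ} (hL : 1 ≤ L) :
    (L : ℝ) ^ 2 * √(L : ℝ) = (L : ℝ) ^ (5 / 2 : ℝ) := by
  rw [Real.sqrt_eq_rpow, ← Real.rpow_natCast, ← lp_add hL]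
  norm_num

theorem inv_pow_rpow {L : ℕ} (hL : 1 ≤ L) (B : ℕ) : 1 / (L : ℝ) ^ B = (L : ℝ) ^ (-(B : ℝ)) := by
  rw [Real.rpow_neg (by positivity), Real.rpow_natCast, one_div]

/-- numerical facts at one scale for the initial level -/
structure SI (L N J J' : ℕ) (C s R : ℝ) (K : ℕ) : Prop where
  n3 : 1 ≤ N
  n2 : (L : ℝ) ^ s ≤ N
  hJ : J + 1 = 2 * L
  hΛ : ((2 * ((J + 1) * N) + 2 ^ K : ℕ) : ℝ) ≤ (8 + R) * (L : ℝ) ^ (1 + s)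
  hJ' : C * (((2 * ((J + 1) * N) + 2 ^ K : ℕ) : ℝ)) * ((J : ℝ) + 1) ≤ (J' : ℝ)
  hJ₂' : (J' : ℝ) + 1 ≤ 2 * (L : ℝ) ^ (2 + 2 * s)

theorem init_facts {L : ℕ} (hL : 1 ≤ L) {s C : ℝ} (hs : 0 < s) (hC : 1 ≤ C) (K : ℕ)
    (E : (2 * C * (8 + (2:ℝ) ^ K) + 1) * (L : ℝ) ^ (2 + s) ≤ (L : ℝ) ^ (2 + 2 * s)) :
    SI L ⌈(L : ℝ) ^ s⌉₊ (2 * L - 1) ⌊(L : ℝ) ^ (2 + 2 * s)⌋₊ C s (2 ^ K) K := by
  have hjs : 0 < 2 + 2 * s := by positivity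
  obtain ⟨b1, b2, b3⟩ := floor_lp hL hjs.le
  obtain ⟨n1, n2, n3⟩ := ceil_lp hL hs.le
  generalize ⌊(L : ℝ) ^ (2 + 2 * s)⌋₊ = J' at *
  generalize ⌈(L : ℝ) ^ s⌉₊ = N at *
  have hJ : 2 * L - 1 + 1 = 2 * L := by omega
  generalize 2 * L - 1 = J at *
  have hJR : (J : ℝ) + 1 = 2 * L := by exact_mod_cast hJ
  have hR1 : (1 : ℝ) ≤ 2 ^ K := one_le_pow₀ (by norm_num)
  have hone := one_le_lp hL (show 0 ≤ 1 + s by positivity)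
  have hL1 : (L : ℝ) = (L : ℝ) ^ (1 : ℝ) := (Real.rpow_one _).symm
  have hm : ((J : ℝ) + 1) * N ≤ 4 * (L : ℝ) ^ (1 + s) := by
    rw [lp_add hL, Real.rpow_one, hJR]
    have := mul_le_mul_of_nonneg_left n1 (show (0:ℝ) ≤ L by positivity)
    linarith
  have hΛ : ((2 * ((J + 1) * N) + 2 ^ K : ℕ) : ℝ) ≤ (8 + 2 ^ K) * (L : ℝ) ^ (1 + s) := by
    push_cast
    nlinarith
  refine ⟨n3, n2, hJ, hΛ, ?_, b2⟩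
  have h1 : C * (((2 * ((J + 1) * N) + 2 ^ K : ℕ) : ℝ)) * ((J : ℝ) + 1) ≤
      C * ((8 + 2 ^ K) * (L : ℝ) ^ (1 + s)) * (2 * L) := by
    rw [hJR]
    exact mul_le_mul_of_nonneg_right (mul_le_mul_of_nonneg_left hΛ (by linarith)) (by positivity)
  have h2 : C * ((8 + 2 ^ K) * (L : ℝ) ^ (1 + s)) * (2 * L) =
      2 * C * (8 + 2 ^ K) * (L : ℝ) ^ (2 + s) := by
    have : (L : ℝ) ^ (2 + s) = (L : ℝ) ^ (1 + s) * L := by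
      nth_rewrite 3 [hL1]
      rw [← lp_add hL]; ring_nf
    rw [this]; ring
  have h3 := one_le_lp hL (show 0 ≤ 2 + s by positivity)
  rw [h2] at h1
  linarith

theorem init_len {L N J J' K : ℕ} {C C₁ : ℝ} {s : ℝ} (hC : 1 ≤ C) (hC₁ : 1 ≤ C₁)
    (hSI : SI L N J J' (C * C₁) s (2 ^ K) K) :
    (2 * ((J + 1) * N) + 2 ^ K) * ⌊C₁ * (L : ℝ)⌋₊ ≤ J' := by
  have h1 : (((2 * ((J + 1) * N) + 2 ^ K) * ⌊C₁ * (L : ℝ)⌋₊ : ℕ) : ℝ) ≤ (J' : ℝ) := by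
    refine le_trans ?_ hSI.hJ'
    have h2 : (0:ℝ) ≤ ((2 * ((J + 1) * N) + 2 ^ K : ℕ) : ℝ) := by positivity
    have h3 : ((⌊C₁ * (L : ℝ)⌋₊ : ℕ) : ℝ) ≤ C₁ * L := Nat.floor_le (by positivity)
    have h5 : (J : ℝ) + 1 = 2 * L := by exact_mod_cast hSI.hJ
    have h4 : C₁ * (L : ℝ) ≤ C * C₁ * ((J : ℝ) + 1) := by
      rw [h5]
      have h6 : 0 ≤ C₁ * (L : ℝ) := by positivity
      nlinarith
    rw [Nat.cast_mul]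
    calc ((2 * ((J + 1) * N) + 2 ^ K : ℕ) : ℝ) * ((⌊C₁ * (L : ℝ)⌋₊ : ℕ) : ℝ) ≤
        ((2 * ((J + 1) * N) + 2 ^ K : ℕ) : ℝ) * (C * C₁ * ((J : ℝ) + 1)) :=
          mul_le_mul_of_nonneg_left (h3.trans h4) h2
      _ = C * C₁ * (((2 * ((J + 1) * N) + 2 ^ K : ℕ) : ℝ)) * ((J : ℝ) + 1) := by ring
  exact_mod_cast h1

theorem init_err {L m K : ℕ} (hL : 1 ≤ L) {s B B' : ℝ}
    (hΛ : ((2 * m + 2 ^ K : ℕ) : ℝ) ≤ (8 + 2 ^ K) * (L : ℝ) ^ (1 + s))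
    (E10 : (8 + (2:ℝ) ^ K) * (L : ℝ) ^ (1 + s + -B) ≤ (L : ℝ) ^ (-B')) :
    0 + (2 * (m : ℝ) + 2 ^ K) * (L : ℝ) ^ (-B) ≤ (L : ℝ) ^ (-B') := by
  rw [lp_add hL (1 + s) (-B)] at E10
  have h1 := mul_le_mul_of_nonneg_right hΛ (lp_pos hL (-B)).le
  push_cast at h1
  linarith

theorem init_prod {L : ℕ} (hL : 1 ≤ L) {C₁ mx : ℝ} (hC₁ : 0 ≤ C₁)
    (hmax : mx ≤ C₁ ^ 2 * (L : ℝ) ^ (-(5 / 2 : ℝ))) :
    C₁ * (L : ℝ) ^ (-(3 / 2 : ℝ)) * mx ≤ C₁ ^ 3 * (L : ℝ) ^ (-(4:ℝ)) := by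
  have h1 : (L : ℝ) ^ (-(4:ℝ)) = (L : ℝ) ^ (-(3 / 2 : ℝ)) * (L : ℝ) ^ (-(5 / 2 : ℝ)) := by
    rw [← lp_add hL]; norm_num
  rw [h1]
  have h2 := lp_pos hL (-(3 / 2 : ℝ))
  calc C₁ * (L : ℝ) ^ (-(3 / 2 : ℝ)) * mx ≤
      C₁ * (L : ℝ) ^ (-(3 / 2 : ℝ)) * (C₁ ^ 2 * (L : ℝ) ^ (-(5 / 2 : ℝ))) :=
        mul_le_mul_of_nonneg_left hmax (by positivity)
    _ = _ := by ring

theorem init_max {L : ℕ} (hL : 1 ≤ L) {C₁ : ℝ} (hC₁ : 1 ≤ C₁) :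
    max (C₁ * (L : ℝ) ^ (-(5 / 2 : ℝ))) ((C₁ * (L : ℝ) ^ (-(3 / 2 : ℝ))) ^ 2) ≤
      C₁ ^ 2 * (L : ℝ) ^ (-(5 / 2 : ℝ)) := by
  have hp52 := lp_pos hL (-(5/2))
  apply max_le
  · apply mul_le_mul_of_nonneg_right _ hp52.le
    nlinarith
  · rw [mul_pow, sq ((L : ℝ) ^ (-(3 / 2 : ℝ))), ← lp_add hL]
    exact mul_le_mul_of_nonneg_left (lp_mono hL (by norm_num)) (by positivity)

/-- powers of `L` for the initial level -/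
structure EI (L : ℕ) (C C₁ s θ B' B₂ : ℝ) (K B₁ : ℕ) : Prop where
  E0 : (2 * (C * C₁) * (8 + (2:ℝ) ^ K) + 1) * (L : ℝ) ^ (2 + s) ≤ (L : ℝ) ^ (2 + 2 * s)
  E1 : C * C₁ * (L : ℝ) ^ (-(3 / 2 : ℝ)) ≤ 1
  E2 : C₁ * (L : ℝ) ^ (-(3 / 2 : ℝ)) ≤ 1
  E3 : C₁ * (L : ℝ) ^ (-(5 / 2 : ℝ)) ≤ 1
  E4 : 256 * C * C₁ ^ 2 * (L : ℝ) ^ (2 + 2 * s + -(5 / 2)) ≤ 1
  E5 : 256 * C * (L : ℝ) ^ (2 + 2 * s + -B₂) ≤ 1
  E6 : 2 * C * C₁ ^ 3 * (L : ℝ) ^ (-(4:ℝ)) ≤ (L : ℝ) ^ (-((2 - θ) * (2 + 2 * s)))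
  E7 : 2 * C * (L : ℝ) ^ (-B₂) ≤ (L : ℝ) ^ (-((2 - θ) * (2 + 2 * s)))
  E8 : 2 * C * C₁ ^ 2 * (L : ℝ) ^ (-(5 / 2 : ℝ)) ≤ (L : ℝ) ^ (-((5 / 4 - θ) * (2 + 2 * s)))
  E9 : 2 * C * (L : ℝ) ^ (-B₂) ≤ (L : ℝ) ^ (-((5 / 4 - θ) * (2 + 2 * s)))
  E10 : (8 + (2:ℝ) ^ K) * (L : ℝ) ^ (1 + s + -(B₁ : ℝ)) ≤ (L : ℝ) ^ (-B')
  E11 : 2 * (L : ℝ) ^ (-B') ≤ 1

theorem ev_EI (C C₁ : ℝ) {s θ B' B₂ : ℝ} (K : ℕ) {B₁ : ℕ} (hs : 0 < s) (hs1 : s ≤ 1 / 8)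
    (hs2 : 4 * s ≤ θ) (hB' : 0 < B') (hB₂ : B₂ = B' + 5) (hB₁ : B' + 4 ≤ B₁) :
    ∀ᶠ L : ℕ in atTop, EI L C C₁ s θ B' B₂ K B₁ := by
  have hθ : 0 < θ := by linarith
  have hsθ : 0 < s * θ := mul_pos hs hθ
  have k1 : (2 - θ) * (2 + 2 * s) < 4 := by nlinarith
  have k2 : (5 / 4 - θ) * (2 + 2 * s) < 5 / 2 := by nlinarith
  filter_upwards [
    ev_le (show 2 + s < 2 + 2 * s by linarith) (2 * (C * C₁) * (8 + (2:ℝ) ^ K) + 1),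
    ev_le_one (show -(3 / 2 : ℝ) < 0 by norm_num) (C * C₁),
    ev_le_one (show -(3 / 2 : ℝ) < 0 by norm_num) C₁,
    ev_le_one (show -(5 / 2 : ℝ) < 0 by norm_num) C₁,
    ev_le_one (show 2 + 2 * s + -(5 / 2) < 0 by linarith) (256 * C * C₁ ^ 2),
    ev_le_one (show 2 + 2 * s + -B₂ < 0 by linarith) (256 * C),
    ev_le (show -(4:ℝ) < -((2 - θ) * (2 + 2 * s)) by linarith) (2 * C * C₁ ^ 3),
    ev_le (show -B₂ < -((2 - θ) * (2 + 2 * s)) by linarith) (2 * C),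
    ev_le (show -(5 / 2 : ℝ) < -((5 / 4 - θ) * (2 + 2 * s)) by linarith) (2 * C * C₁ ^ 2),
    ev_le (show -B₂ < -((5 / 4 - θ) * (2 + 2 * s)) by linarith) (2 * C),
    ev_le (show 1 + s + -(B₁ : ℝ) < -B' by linarith) (8 + (2:ℝ) ^ K),
    ev_le_one (show -B' < 0 by linarith) 2]
    with L E0 E1 E2 E3 E4 E5 E6 E7 E8 E9 E10 E11
  exact ⟨E0, E1, E2, E3, E4, E5, E6, E7, E8, E9, E10, E11⟩

/-- the numerical part of the initial level at one scale -/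
theorem init_scale {q : ℝ} (h0 : 0 < q) (h1 : q < 1) {C₁ c₁ : ℝ} (hC₁ : 1 ≤ C₁) (hc₁ : 0 < c₁)
    {s θ B' B₂ : ℝ} {K B₁ : ℕ} (hs : 0 < s) (hs1 : s ≤ 1 / 8) (hs2 : 4 * s ≤ θ)
    (hB' : 0 < B') (hB₂ : B₂ = B' + 5) (hK : B₂ ≤ s * K) (hB₁ : B' + 4 ≤ B₁) :
    ∀ᶠ L : ℕ in atTop, ∀ (t κ η : Ms Wd) (s₀ w P : List Bool),
      Lazy t (2 * L - 1) c₁ → Prob (t + η + κ) → Prob (t + η - κ) → mass κ = 0 → mass η = 0 →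
      Dom t (C₁ • (t + η + κ)) → Dom (t + η + κ) (C₁ • t) →
      Dom t (C₁ • (t + η - κ)) → Dom (t + η - κ) (C₁ • t) →
      Q (C₁ / (L * √L)) κ t → Q (C₁ / (L ^ 2 * √L)) η t →
      (s₀.length : ℝ) ≤ C₁ * L → N1 (1 / (L : ℝ) ^ B₁) (t - lw q s₀) →
      Code (lw q) (t + η + κ) (t + η - κ) ⌊C₁ * L⌋₊ (1 / (L : ℝ) ^ B₁) w P →
      ∃ (t₂ ν₂ zl₂ zh₂ : Ms Wd) (Λ₂ : ℕ) (w₂ P₂ : List Bool),
        Stage t t₂ ν₂ zl₂ zh₂ (2 * L - 1) ⌊(L : ℝ) ^ (2 + 2 * s)⌋₊ Λ₂ (C₁ ^ (2 ^ K)) c₁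
          ((L : ℝ) ^ (-((2 - θ) * (2 + 2 * s)))) ((L : ℝ) ^ (-((2 - θ) * (2 + 2 * s))))
          ((L : ℝ) ^ (-((5 / 4 - θ) * (2 + 2 * s)))) ((L : ℝ) ^ (-B')) ((L : ℝ) ^ (-B')) ∧
        Code (lw q) t₂ (t₂ + (zl₂ + zh₂)) ⌊(L : ℝ) ^ (2 + 2 * s)⌋₊ ((L : ℝ) ^ (-B'))
          w₂ P₂ := by
  obtain ⟨C, hC, hstep⟩ := first_step Wd K c₁ C₁ hc₁ hC₁
  have hC0 : 0 ≤ C := by linarith
  have hCC1 : 1 ≤ C * C₁ := by nlinarith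
  filter_upwards [eventually_ge_atTop 1, ev_EI C C₁ K hs hs1 hs2 hB' hB₂ hB₁] with L hL hE
  intro t κ η s₀ w P hLz hX hY mκ mη d1 d2 d3 d4 hκ hη hl₀ hn₀ hCo
  have hSI := init_facts (s := s) (C := C * C₁) hL hs hCC1 K hE.E0
  generalize ⌊(L : ℝ) ^ (2 + 2 * s)⌋₊ = J' at *
  generalize ⌈(L : ℝ) ^ s⌉₊ = N at *
  generalize 2 * L - 1 = J at *
  rw [mul_sqrt_rpow hL, div_eq_mul_inv, ← Real.rpow_neg (by positivity)] at hκ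
  rw [sq_mul_sqrt_rpow hL, div_eq_mul_inv, ← Real.rpow_neg (by positivity)] at hη
  rw [inv_pow_rpow hL] at hn₀ hCo
  have hC₁0 : 0 ≤ C₁ := by linarith
  have hp32 := lp_pos hL (-(3/2))
  have hp52 := lp_pos hL (-(5/2))
  have hmax := init_max hL hC₁
  have hmax0 : 0 ≤ max (C₁ * (L : ℝ) ^ (-(5 / 2 : ℝ))) ((C₁ * (L : ℝ) ^ (-(3 / 2 : ℝ))) ^ 2) :=
    le_max_of_le_left (by positivity)
  have hmain := hstep t κ η (C₁ * (L : ℝ) ^ (-(3 / 2 : ℝ))) (C₁ * (L : ℝ) ^ (-(5 / 2 : ℝ)))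
    ((L : ℝ) ^ (-B₂)) J J' N hLz hX hY mκ mη d1 d2 d3 d4 (by positivity) hE.E2 (by positivity)
    hE.E3 hκ hη hSI.n3
    (by
      have h1 : (L : ℝ) ^ B₂ ≤ (N : ℝ) ^ K := by
        calc (L : ℝ) ^ B₂ ≤ (L : ℝ) ^ (s * K) := lp_mono hL hK
          _ = ((L : ℝ) ^ s) ^ K := by
              rw [Real.rpow_mul (by positivity), Real.rpow_natCast]
          _ ≤ (N : ℝ) ^ K := pow_le_pow_left₀ (lp_pos hL _).le hSI.n2 K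
      have h2 : (L : ℝ) ^ (-B₂) = 1 / (L : ℝ) ^ B₂ := by
        rw [Real.rpow_neg (by positivity), one_div]
      rw [h2, ← mul_assoc]
      exact div_le_div₀ zero_le_one hE.E1 (lp_pos hL B₂) h1)
    (by
      refine le_trans ?_ hSI.hJ'
      have h3 : C ≤ C * C₁ := by nlinarith
      have h4 : (0:ℝ) ≤ ((2 * ((J + 1) * N) + 2 ^ K : ℕ) : ℝ) := by positivity
      exact mul_le_mul_of_nonneg_right (mul_le_mul_of_nonneg_right h3 h4) (by positivity))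
    (combine_three hL hC0 hmax0 hmax hSI.hJ₂' hE.E4 hE.E5)
  generalize max (C₁ * (L : ℝ) ^ (-(5 / 2 : ℝ))) ((C₁ * (L : ℝ) ^ (-(3 / 2 : ℝ))) ^ 2) = mx at *
  obtain ⟨t₂, ν₂, zl₂, zh₂, ht₂, hp₂, hS⟩ := hmain
  have hE11 := hE.E11
  have hprod := init_prod hL hC₁0 hmax
  have hτ := lp_pos hL (-B₂)
  have hAle : C * (C₁ * (L : ℝ) ^ (-(3 / 2 : ℝ)) * mx + (L : ℝ) ^ (-B₂)) ≤
      (L : ℝ) ^ (-((2 - θ) * (2 + 2 * s))) := combine_two hC0 hprod hE.E6 hE.E7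
  have hale : C * (C₁ * (L : ℝ) ^ (-(3 / 2 : ℝ)) * mx) ≤
      (L : ℝ) ^ (-((2 - θ) * (2 + 2 * s))) :=
    le_trans (mul_le_mul_of_nonneg_left (by linarith) hC0) hAle
  have hS2 := hS.mono (J₂ := J') (ρ₂ := C₁ ^ (2 ^ K))
    (a₂ := (L : ℝ) ^ (-((2 - θ) * (2 + 2 * s)))) (A₂ := (L : ℝ) ^ (-((2 - θ) * (2 + 2 * s))))
    (U₂ := (L : ℝ) ^ (-((5 / 4 - θ) * (2 + 2 * s)))) (ε₂ := (L : ℝ) ^ (-B'))
    (τ₂ := (L : ℝ) ^ (-B')) le_rfl le_rfl hale hAle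
    (combine_two hC0 hmax hE.E8 hE.E9)
    (lp_pos hL _).le (by linarith) (lp_mono hL (by linarith))
  obtain ⟨w₂, P₂, hCo2⟩ := code_TM (isLaw_lw h0.le h1.le) hLz.prob hX hY
    (h₀ := Nat.le_floor hl₀) (h₀' := hn₀) hCo K ((J + 1) * N)
  refine ⟨t₂, ν₂, zl₂, zh₂, _, w₂, P₂, hS2, ?_⟩
  rw [hp₂, ht₂]
  exact hCo2.mono (δ := 0) (init_len hC hC₁ hSI) (by rw [sub_self]; exact N1.zero)
    (by rw [sub_self]; exact N1.zero) (init_err hL hSI.hΛ hE.E10)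

theorem PS_init {q : ℝ} (h0 : 0 < q) (h1 : q < 1) (θ : ℝ) (hθ : 0 < θ) :
    PS q (2 - θ) (2 - θ) (5 / 4 - θ) := by
  obtain ⟨C₁, c₁, hC₁, hc₁, hlev⟩ := level1 h0 h1
  set s : ℝ := min (θ / 4) (1 / 8) with hs
  have hs0 : 0 < s := lt_min (by positivity) (by norm_num)
  have hs1 : s ≤ 1 / 8 := min_le_right _ _
  have hs2 : 4 * s ≤ θ := by
    have := min_le_left (θ / 4) (1 / 8)
    linarith
  refine ⟨2 + 2 * s, by positivity, ?_⟩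
  intro B' hB'
  obtain ⟨B₁, hB₁⟩ := exists_nat_ge (B' + 4)
  set B₂ : ℝ := B' + 5 with hB₂
  set K : ℕ := ⌈B₂ / s⌉₊ with hKdef
  have hK : B₂ ≤ s * K := by
    have := Nat.le_ceil (B₂ / s)
    rw [div_le_iff₀ hs0] at this
    rw [mul_comm]; exact this
  obtain ⟨i₀, hi₀⟩ := hlev B₁
  obtain ⟨L₁, hL₁⟩ := Filter.eventually_atTop.1
    (init_scale (K := K) (B₁ := B₁) h0 h1 hC₁ hc₁ hs0 hs1 hs2 hB' hB₂ hK hB₁)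
  refine ⟨max (C₁ ^ (2 ^ K)) (1 / c₁), le_max_of_le_left (one_le_pow₀ hC₁), max (max i₀ L₁) 1, ?_⟩
  intro L hL
  have hLa : i₀ ≤ L := (le_max_left _ _).trans ((le_max_left _ _).trans hL)
  have hLb : L₁ ≤ L := (le_max_right _ _).trans ((le_max_left _ _).trans hL)
  obtain ⟨t, κ, η, s₀, w, P, g1, g2, g3, g4, g5, g6, g7, g8, g9, g10, g11, g12, g13, g14⟩ :=
    hi₀ L hLa
  obtain ⟨t₂, ν₂, zl₂, zh₂, Λ₂, w₂, P₂, hS₂, hCo₂⟩ :=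
    hL₁ L hLb t κ η s₀ w P g1 g2 g3 g4 g5 g6 g7 g8 g9 g10 g11 g12 g13 g14
  refine ⟨t, t₂, ν₂, zl₂, zh₂, 2 * L - 1, Λ₂, c₁, w₂, P₂, ?_, ?_, hCo₂⟩
  · rw [one_div_le (lt_max_of_lt_right (by positivity)) hc₁]
    exact le_max_right _ _
  · exact hS₂.mono (ρ₂ := max (C₁ ^ (2 ^ K)) (1 / c₁)) le_rfl (le_max_left _ _) le_rfl le_rfl
      le_rfl le_rfl hS₂.ε_le le_rfl

theorem PS_iter {q : ℝ} (h0 : 0 < q) (h1 : q < 1) (k : ℕ) : ∀ θ : ℝ, 0 < θ →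
    PS q (2 + k / 12 - θ) (2 + k / 12 - θ) (13 / 12 - θ) := by
  induction k with
  | zero =>
    intro θ hθ
    exact PS_mono (PS_init h0 h1 θ hθ) (by norm_num) (by norm_num) (by norm_num)
  | succ k ih =>
    intro θ hθ
    set θ' : ℝ := min (θ / 4) (1 / 100) with hθ'
    have hθ0 : 0 < θ' := lt_min (by positivity) (by norm_num)
    have ha : θ' ≤ θ / 4 := min_le_left _ _
    have hb : θ' ≤ 1 / 100 := min_le_right _ _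
    have hk : (0:ℝ) ≤ k / 12 := by positivity
    have s1 := PS_step h0 h1 (ih θ' hθ0) (by linarith) (by linarith) (by linarith) θ' hθ0
    have s2 := PS_step h0 h1 s1 (by linarith) (by linarith) (by linarith) θ' hθ0
    refine PS_mono s2 ?_ ?_ ?_
    · push_cast; linarith
    · push_cast; linarith
    · linarith

theorem PS_large {q : ℝ} (h0 : 0 < q) (h1 : q < 1) (x : ℝ) : ∃ x' y v, x ≤ x' ∧ PS q x' y v := by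
  obtain ⟨k, hk⟩ := exists_nat_ge (12 * x)
  refine ⟨2 + k / 12 - 1, 2 + k / 12 - 1, 13 / 12 - 1, by linarith, PS_iter h0 h1 k 1 one_pos⟩

end Vale.Agent.P321S
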