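import Vale.Agent.Lib.P321S.Level1

namespace Vale.Agent.P321S

open Finset Filter

theorem ev_le {p₁ p₂ : ℝ} (h : p₁ < p₂) (c₀ : ℝ) :
    ∀ᶠ L : ℕ in atTop, c₀ * (L : ℝ) ^ p₁ ≤ (L : ℝ) ^ p₂ := by
  have h1 : Tendsto (fun L : ℕ => (L : ℝ) ^ (p₂ - p₁)) atTop atTop :=
    (tendsto_rpow_atTop (by linarith : 0 < p₂ - p₁)).comp tendsto_natCast_atTop_atTop
  filter_upwards [h1.eventually_ge_atTop c₀, eventually_ge_atTop 1] with L hL hL1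
  have hpos : (0 : ℝ) < L := by exact_mod_cast hL1
  calc c₀ * (L : ℝ) ^ p₁ ≤ (L : ℝ) ^ (p₂ - p₁) * (L : ℝ) ^ p₁ :=
        mul_le_mul_of_nonneg_right hL (Real.rpow_nonneg hpos.le _)
    _ = (L : ℝ) ^ p₂ := by rw [← Real.rpow_add hpos]; ring_nf

theorem ev_le_one {p : ℝ} (h : p < 0) (c₀ : ℝ) :
    ∀ᶠ L : ℕ in atTop, c₀ * (L : ℝ) ^ p ≤ 1 := by
  filter_upwards [ev_le h c₀] with L hL
  simpa using hL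

theorem lp_mono {L : ℕ} (hL : 1 ≤ L) {a b : ℝ} (h : a ≤ b) : (L : ℝ) ^ a ≤ (L : ℝ) ^ b :=
  Real.rpow_le_rpow_of_exponent_le (by exact_mod_cast hL) h

theorem lp_pos {L : ℕ} (hL : 1 ≤ L) (a : ℝ) : 0 < (L : ℝ) ^ a :=
  Real.rpow_pos_of_pos (by exact_mod_cast hL) a

theorem one_le_lp {L : ℕ} (hL : 1 ≤ L) {a : ℝ} (h : 0 ≤ a) : 1 ≤ (L : ℝ) ^ a :=
  Real.one_le_rpow (by exact_mod_cast hL) h

theorem lp_add {L : ℕ} (hL : 1 ≤ L) (a b : ℝ) : (L : ℝ) ^ (a + b) = (L : ℝ) ^ a * (L : ℝ) ^ b :=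
  Real.rpow_add (by exact_mod_cast hL) a b

/-- bounds for the floor -/
theorem floor_lp {L : ℕ} (hL : 1 ≤ L) {a : ℝ} (h : 0 ≤ a) :
    ((⌊(L : ℝ) ^ a⌋₊ : ℝ)) ≤ (L : ℝ) ^ a ∧ ((⌊(L : ℝ) ^ a⌋₊ : ℝ)) + 1 ≤ 2 * (L : ℝ) ^ a ∧
      (L : ℝ) ^ a ≤ (⌊(L : ℝ) ^ a⌋₊ : ℝ) + 1 := by
  have h1 := one_le_lp hL h
  have h2 := Nat.floor_le (lp_pos hL a).le
  have h3 := (Nat.lt_floor_add_one ((L : ℝ) ^ a)).le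
  exact ⟨h2, by linarith, h3⟩

theorem ceil_lp {L : ℕ} (hL : 1 ≤ L) {a : ℝ} (h : 0 ≤ a) :
    ((⌈(L : ℝ) ^ a⌉₊ : ℝ)) ≤ 2 * (L : ℝ) ^ a ∧ (L : ℝ) ^ a ≤ (⌈(L : ℝ) ^ a⌉₊ : ℝ) ∧
      1 ≤ ⌈(L : ℝ) ^ a⌉₊ := by
  have h1 := one_le_lp hL h
  have h2 := Nat.le_ceil ((L : ℝ) ^ a)
  have h3 := (Nat.ceil_lt_add_one (lp_pos hL a).le).le
  exact ⟨by linarith, h2, Nat.one_le_ceil_iff.2 (lp_pos hL a)⟩

theorem Lazy.mono {M : Type*} [Monoid M] {t : Ms M} {J J' : ℕ} {c : ℝ} (h : Lazy t J c)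
    (hJ : J ≤ J') : Lazy t J' c := by
  refine ⟨h.prob, h.c_pos, h.c_le, ?_⟩
  obtain ⟨d, rfl⟩ := Nat.exists_eq_add_of_le hJ
  have h1 : t ^ (J + d + 1) - t ^ (J + d) = t ^ d * (t ^ (J + 1) - t ^ J) := by
    rw [mul_sub, ← pow_add, ← pow_add]
    congr 2 <;> ring
  rw [h1]
  have := (h.prob.pow d).n1.mul h.n1
  rwa [one_mul] at this

theorem Stage.mono {M : Type*} [Monoid M] {t t' ν' zl zh : Ms M} {J J' J₂ Λ : ℕ}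
    {ρ c a A U ε τ ρ₂ a₂ A₂ U₂ ε₂ τ₂ : ℝ} (h : Stage t t' ν' zl zh J J' Λ ρ c a A U ε τ)
    (hJ : J' ≤ J₂) (hρ : ρ ≤ ρ₂) (ha : a ≤ a₂) (hA : A ≤ A₂) (hU : U ≤ U₂) (hε : ε ≤ ε₂)
    (hε2 : ε₂ ≤ 1 / 2) (hτ : τ ≤ τ₂) : Stage t t' ν' zl zh J J₂ Λ ρ₂ c a₂ A₂ U₂ ε₂ τ₂ where
  lazy := h.lazy
  hΛ := h.hΛ
  t'_prob := h.t'_prob
  ν'_prob := h.ν'_prob
  p'_prob := h.p'_prob
  one_le_ρ := h.one_le_ρ.trans hρ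
  r1 := h.r1.trans (Dom.smul_right h.t'_prob.pos hρ)
  r2 := h.r2.trans (Dom.smul_right h.ν'_prob.pos hρ)
  r3 := h.r3.trans (Dom.smul_right h.p'_prob.pos hρ)
  r4 := h.r4.trans (Dom.smul_right h.ν'_prob.pos hρ)
  a_nonneg := h.a_nonneg.trans ha
  A_nonneg := h.A_nonneg.trans hA
  U_nonneg := h.U_nonneg.trans hU
  ε_nonneg := h.ε_nonneg.trans hε
  τ_nonneg := h.τ_nonneg.trans hτ
  ε_le := hε2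
  base := (Dom.smul_right (h.lazy.prob.pow Λ).pos (by linarith)).trans h.base
  hU := h.hU.mono h.ν'_prob.pos hU
  hl := h.hl.mono h.ν'_prob.pos hτ
  hh := h.hh.mono h.lazy.prob ha
  hA := h.hA.mono h.t'_prob.pos hA
  lazy' := h.lazy'.mono hJ

theorem Code.mono {M : Type*} [Monoid M] {lw : List Bool → Ms M} {t' p' t₂ p₂ : Ms M} {ℓ ℓ₂ : ℕ}
    {ε δ ε₂ : ℝ} {s P : List Bool} (h : Code lw t' p' ℓ ε s P) (hℓ : ℓ ≤ ℓ₂)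
    (ht : N1 δ (t₂ - t')) (hp : N1 δ (p₂ - p')) (hε : δ + ε ≤ ε₂) :
    Code lw t₂ p₂ ℓ₂ ε₂ s P where
  ne := h.ne
  len := h.len
  count := h.count
  le := h.le.trans hℓ
  hs := (ht.trans h.hs).mono hε
  hP := (hp.trans h.hP).mono hε

end Vale.Agent.P321S
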