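import Vale.Agent.Lib.P321S.Expo
import Vale.Agent.Lib.H26P321.Defs
import Vale.Agent.Lib.H26P321.Alg
import Vale.Agent.Lib.H26P321.Exists

/-! Module FINAL (section 13 of docs P321). -/

namespace Vale.Agent.P321S

open Finset Vale.Agent.H26P321

theorem law_apply_nil (q : ℝ) {n : ℕ} (x : Fin n → Bool) (f : List Bool → ℝ) :
    (law q (List.ofFn x) f) [] = ∑ K : Fin n → Bool, maskWeight q K * f (trace x K) := by
  rw [← trace_repr]
  simp only [LinearMap.sum_apply, LinearMap.smul_apply, Finset.sum_apply, Pi.smul_apply,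
    smul_eq_mul, io_apply, List.nil_append]

theorem step_bound {q : ℝ} (h0 : 0 ≤ q) (h1 : q ≤ 1) (b : Bool) {f : List Bool → ℝ} {c : ℝ}
    (hf : ∀ w, |f w| ≤ c) (w : List Bool) : |(H26P321.step q b f) w| ≤ c := by
  unfold H26P321.step
  simp only [LinearMap.add_apply, LinearMap.smul_apply, Pi.add_apply, Pi.smul_apply, smul_eq_mul,
    io_apply, Module.End.one_apply]
  have e1 := abs_le.1 (hf w)
  have e2 := abs_le.1 (hf (w ++ [b]))
  rw [abs_le]
  constructor <;> nlinarith

theorem law_bound {q : ℝ} (h0 : 0 ≤ q) (h1 : q ≤ 1) (l : List Bool) {f : List Bool → ℝ} {c : ℝ}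
    (hf : ∀ w, |f w| ≤ c) (w : List Bool) : |(law q l f) w| ≤ c := by
  induction l generalizing w with
  | nil => simpa [law_nil] using hf w
  | cons b l ih =>
    rw [law_cons, Module.End.mul_apply]
    exact step_bound h0 h1 b ih w

/-- hybrid argument -/
theorem hybrid {q : ℝ} (h0 : 0 ≤ q) (h1 : q ≤ 1) {n : ℕ} {x y : Fin n → Bool} {ε : ℝ}
    (hε : 0 ≤ ε)
    (h : ∀ f : List Bool → ℝ, (∀ w, |f w| ≤ 1) →
      |(law q (List.ofFn x) f) [] - (law q (List.ofFn y) f) []| ≤ ε) (m : ℕ)
    (a : (Fin m → List Bool) → ℝ) (ha : ∀ s, |a s| ≤ 1) :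
    |∑ K : Fin m → Fin n → Bool, (∏ j, maskWeight q (K j)) * a (fun j => trace x (K j)) -
      ∑ K : Fin m → Fin n → Bool, (∏ j, maskWeight q (K j)) * a (fun j => trace y (K j))| ≤
      m * ε := by
  induction m with
  | zero =>
    simp only [Fintype.sum_unique, Finset.univ_eq_empty, Finset.prod_empty, one_mul,
      Nat.cast_zero, zero_mul]
    have e : ∀ s s' : Fin 0 → List Bool, |a s - a s'| ≤ 0 := fun s s' => by
      rw [Subsingleton.elim s s', sub_self, abs_zero]
    exact e _ _
  | succ m ih =>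
    have hexp : ∀ z : Fin n → Bool,
        ∑ K : Fin (m + 1) → Fin n → Bool, (∏ j, maskWeight q (K j)) * a (fun j => trace z (K j)) =
          (law q (List.ofFn z) (fun u => ∑ K : Fin m → Fin n → Bool,
            (∏ j, maskWeight q (K j)) * a (Fin.cons u (fun j => trace z (K j))))) [] := by
      intro z
      rw [law_apply_nil, H26P321.sum_cons]
      refine Finset.sum_congr rfl fun K0 _ => ?_
      rw [Finset.mul_sum]
      refine Finset.sum_congr rfl fun K _ => ?_
      rw [Fin.prod_univ_succ, mul_assoc]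
      simp only [Fin.cons_zero, Fin.cons_succ]
      congr 2
      congr 1
      funext j
      refine Fin.cases ?_ (fun i => ?_) j
      · simp
      · simp
    rw [hexp x, hexp y]
    set Fx : List Bool → ℝ := fun u => ∑ K : Fin m → Fin n → Bool,
      (∏ j, maskWeight q (K j)) * a (Fin.cons u (fun j => trace x (K j))) with hFx
    set Fy : List Bool → ℝ := fun u => ∑ K : Fin m → Fin n → Bool,
      (∏ j, maskWeight q (K j)) * a (Fin.cons u (fun j => trace y (K j))) with hFy
    have hw : ∑ K : Fin m → Fin n → Bool, ∏ j, maskWeight q (K j) = 1 := by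
      have := Fintype.sum_pow (fun K : Fin n → Bool => maskWeight q K) m
      rw [maskWeight_sum, one_pow] at this
      exact this.symm
    have hw0 : ∀ K : Fin m → Fin n → Bool, 0 ≤ ∏ j, maskWeight q (K j) := fun K =>
      Finset.prod_nonneg (fun j _ => maskWeight_nonneg h0 h1 _)
    have hFx1 : ∀ u, |Fx u| ≤ 1 := by
      intro u
      rw [← hw]
      refine (Finset.abs_sum_le_sum_abs _ _).trans (Finset.sum_le_sum fun K _ => ?_)
      rw [abs_mul, abs_of_nonneg (hw0 K)]
      exact mul_le_of_le_one_right (hw0 K) (ha _)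
    have hd : ∀ u, |(Fx - Fy) u| ≤ m * ε := by
      intro u
      exact ih (fun s => a (Fin.cons u s)) (fun s => ha _)
    have e1 := h Fx hFx1
    have e2 := law_bound h0 h1 (List.ofFn y) hd []
    rw [map_sub, Pi.sub_apply] at e2
    push_cast
    have e1' := abs_le.1 e1
    have e2' := abs_le.1 e2
    rw [abs_le]
    constructor <;> nlinarith

/-- total variation version of the two point method -/
theorem two_point_tv {q : ℝ} (h0 : 0 < q) (h1 : q < 1) {n m : ℕ} {x y : Fin n → Bool}
    (hxy : x ≠ y) {ε : ℝ} (hε : 0 ≤ ε)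
    (h : ∀ f : List Bool → ℝ, (∀ w, |f w| ≤ 1) →
      |(law q (List.ofFn x) f) [] - (law q (List.ofFn y) f) []| ≤ ε)
    (hm : CanReconstruct q n m) : 1 ≤ 3 * (m * ε) := by
  obtain ⟨est, hest, hsucc⟩ := hm
  have hx := hsucc x
  have hy := hsucc y
  unfold successProb at hx hy
  have hle1 : ∀ s z, est s z ≤ 1 := by
    intro s z
    rw [← hest.2 s]
    exact Finset.single_le_sum (f := est s) (fun i _ => hest.1 s i) (Finset.mem_univ z)
  have key := hybrid h0.le h1.le hε h m (fun s => est s x) (fun s => by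
    rw [abs_of_nonneg (hest.1 s x)]
    exact hle1 s x)
  have hw : ∑ K : Fin m → Fin n → Bool, ∏ j, maskWeight q (K j) = 1 := by
    have := Fintype.sum_pow (fun K : Fin n → Bool => maskWeight q K) m
    rw [maskWeight_sum, one_pow] at this
    exact this.symm
  have hw0 : ∀ K : Fin m → Fin n → Bool, 0 ≤ ∏ j, maskWeight q (K j) := fun K =>
    Finset.prod_nonneg (fun j _ => maskWeight_nonneg h0.le h1.le _)
  have hab : ∀ s, est s x + est s y ≤ 1 := by
    intro s
    rw [← hest.2 s]
    have : est s x + est s y = ∑ z ∈ ({x, y} : Finset (Fin n → Bool)), est s z := by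
      rw [Finset.sum_pair hxy]
    rw [this]
    exact Finset.sum_le_sum_of_subset_of_nonneg (Finset.subset_univ _) (fun i _ _ => hest.1 _ _)
  have hsum : ∑ K : Fin m → Fin n → Bool, (∏ j, maskWeight q (K j)) *
        est (fun j => trace y (K j)) x +
      ∑ K : Fin m → Fin n → Bool, (∏ j, maskWeight q (K j)) *
        est (fun j => trace y (K j)) y ≤ 1 := by
    rw [← Finset.sum_add_distrib, ← hw]
    refine Finset.sum_le_sum fun K _ => ?_
    have := hab (fun j => trace y (K j))
    have := hw0 K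
    nlinarith
  have := (abs_le.1 key).2
  linarith

/-- binary string of a block word -/
def bin (s : List Bool) : List Bool := s.flatMap (fun x => if x then [true] else [false, true])

theorem bin_length (s : List Bool) : (bin s).length + s.count true = 2 * s.length := by
  induction s with
  | nil => simp [bin]
  | cons a s ih =>
    have h : bin (a :: s) = (if a then [true] else [false, true]) ++ bin s := by simp [bin]
    rw [h, List.length_append]
    cases a
    · simp only [Bool.false_eq_true, ↓reduceIte, List.length_cons, List.length_nil,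
        List.count_cons_of_ne (show false ≠ true by decide)]
      omega
    · simp only [↓reduceIte, List.length_cons, List.length_nil, List.count_cons_self]
      omega

theorem bin_injective : Function.Injective bin := by
  intro s
  induction s with
  | nil =>
    intro t h
    cases t with
    | nil => rfl
    | cons b t =>
      cases b <;> simp [bin] at h
  | cons a s ih =>
    intro t h
    cases t with
    | nil => cases a <;> simp [bin] at h
    | cons b t =>
      have e1 : bin (a :: s) = (if a then [true] else [false, true]) ++ bin s := by simp [bin]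
      have e2 : bin (b :: t) = (if b then [true] else [false, true]) ++ bin t := by simp [bin]
      rw [e1, e2] at h
      cases a <;> cases b <;> simp at h
      · rw [ih h]
      · rw [ih h]

/-- the binary word of a word over three symbols -/
noncomputable def bw : Wd →* Alg := FreeMonoid.lift fun a : Fin 3 =>
  io (if a = 0 then [false] else if a = 1 then [true] else [false, true])

/-- the binary string of a word over three symbols -/
def bs (w : Wd) : List Bool := (FreeMonoid.toList w).flatMap fun a : Fin 3 =>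
  if a = 0 then [false] else if a = 1 then [true] else [false, true]

theorem bw_eq (w : Wd) : bw w = io (bs w) := by
  induction w using FreeMonoid.inductionOn' with
  | one => simp [bs, io_nil]
  | of_mul a w ih =>
    rw [map_mul, ih]
    have : bs (FreeMonoid.of a * w) =
        (if a = 0 then [false] else if a = 1 then [true] else [false, true]) ++ bs w := by
      simp [bs]
    rw [this, io_append]
    congr 1

/-- the algebra homomorphism -/
noncomputable def Ph : Ms Wd →ₐ[ℝ] Alg := MonoidAlgebra.lift ℝ Alg Wd bw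

theorem Ph_apply (z : Ms Wd) (f : List Bool → ℝ) : (Ph z f) [] = pr z (fun w => f (bs w)) := by
  unfold Ph
  rw [MonoidAlgebra.lift_apply]
  unfold pr Finsupp.sum
  simp only [LinearMap.sum_apply, LinearMap.smul_apply, Finset.sum_apply, Pi.smul_apply,
    smul_eq_mul, bw_eq, io_apply, List.nil_append]

theorem Ph_sg (a : Fin 3) :
    Ph (sg a) = io (if a = 0 then [false] else if a = 1 then [true] else [false, true]) := by
  unfold Ph sg
  rw [MonoidAlgebra.lift_single, one_smul]
  simp [bw]

theorem Ph_dd (q : ℝ) : Ph (dd q) = law q [true] := by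
  unfold dd
  rw [map_add, map_smul, map_smul, map_one, Ph_sg]
  simp [law, H26P321.step]

theorem Ph_bb (q : ℝ) : Ph (bb q) = law q [false, true] := by
  unfold bb bet
  rw [Fin.sum_univ_three, map_add, map_add, map_add, map_smul, map_smul, map_smul, map_smul,
    map_one, Ph_sg, Ph_sg, Ph_sg]
  have h2 : (om q 0) = (1 - q) * q := by simp [om]
  have h3 : (om q 1) = (1 - q) * q := by simp [om]
  have h4 : (om q 2) = (1 - q) ^ 2 := by simp [om]
  rw [h2, h3, h4]
  have h5 : io [false, true] = io [false] * io [true] := by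
    rw [← io_append]; rfl
  simp only [law, H26P321.step, List.map_cons, List.map_nil, List.prod_cons, List.prod_nil, mul_one,
    show (1 : Fin 3) ≠ 0 by decide, show (2 : Fin 3) ≠ 0 by decide, show (2 : Fin 3) ≠ 1 by decide,
    ↓reduceIte, h5]
  rw [add_mul, mul_add, mul_add]
  simp only [smul_mul_assoc, mul_smul_comm, one_mul, mul_one, smul_smul]
  module

theorem Ph_lw (q : ℝ) (s : List Bool) : Ph (lw q s) = law q (bin s) := by
  induction s with
  | nil => simp [lw, bin, law_nil]
  | cons a s ih =>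
    have e1 : bin (a :: s) = (if a then [true] else [false, true]) ++ bin s := by simp [bin]
    have e2 : lw q (a :: s) = (if a then dd q else bb q) * lw q s := by simp [lw]
    rw [e1, e2, map_mul, ih, law_append]
    cases a
    · simp [Ph_bb]
    · simp [Ph_dd]

/-- `L¹`-distance of block laws controls the distance of the laws of the binary traces -/
theorem law_bin_close {q : ℝ} {s P : List Bool} {ε : ℝ} (h : N1 ε (lw q s - lw q P))
    (f : List Bool → ℝ) (hf : ∀ w, |f w| ≤ 1) (v : List Bool) (hq : 0 ≤ q) (hq1 : q ≤ 1) :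
    |(law q (bin s ++ v) f) [] - (law q (bin P ++ v) f) []| ≤ ε := by
  have e : ∀ u : List Bool, (law q (bin u ++ v) f) [] =
      pr (lw q u) (fun w => (law q v f) (bs w)) := by
    intro u
    rw [law_append, Module.End.mul_apply, ← Ph_lw, Ph_apply]
  rw [e, e, ← pr_sub]
  exact h _ fun w => law_bound hq hq1 v hf (bs w)

theorem n1_of_Q {M : Type*} [Monoid M] {A : ℝ} {z t : Ms M} (h : Q A z t) (hA : 0 ≤ A)
    (ht : Prob t) : N1 (√A) z := by
  intro f hf
  have h1 := h f
  have h2 : pr t (fun w => f w ^ 2) ≤ 1 := by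
    have h3 := ht.pos.pr_mono (f := fun w => f w ^ 2) (g := fun _ => 1) (fun w => by
      have := hf w
      rw [← sq_abs]
      exact pow_le_one₀ (abs_nonneg _) this)
    have h4 : pr t (fun _ => (1 : ℝ)) = 1 := ht.mass_eq
    rwa [h4] at h3
  have h5 : pr z f ^ 2 ≤ A := h1.trans (mul_le_of_le_one_right hA h2)
  exact Real.abs_le_sqrt h5

theorem superpolynomial {q : ℝ} (h0 : 0 < q) (h1 : q < 1) (E : ℕ) :
    ∃ n₀ : ℕ, ∀ n : ℕ, n₀ ≤ n → ((n : ℝ)) ^ E ≤ (sampleComplexity q n : ℝ) := by
  obtain ⟨x', y, v, hx', j, hj, hB⟩ := PS_large h0 h1 (2 * (E + 1 : ℕ))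
  have hE : (0 : ℝ) < (E + 1 : ℕ) := by positivity
  have hx0 : 0 < x' := by linarith
  have hxj : 0 < x' * j / 2 := by positivity
  obtain ⟨ρ, _, L₀, hL⟩ := hB (x' * j / 2) hxj
  have hlim : Filter.Tendsto (fun n : ℕ => ((n : ℝ) / 2) ^ (1 / j)) Filter.atTop Filter.atTop := by
    apply (tendsto_rpow_atTop (by positivity : 0 < 1 / j)).comp
    exact (tendsto_natCast_atTop_atTop).atTop_div_const (by norm_num)
  have ev1 := hlim.eventually_ge_atTop (max (2 : ℝ) (L₀ + 1))
  have ev2 := (tendsto_natCast_atTop_atTop (R := ℝ)).eventually_ge_atTop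
    (max 2 (9 * 2 ^ (E + 1) * 2 ^ (x' * j / 2)))
  obtain ⟨n₀, hn₀⟩ := Filter.eventually_atTop.1 (ev1.and ev2)
  refine ⟨n₀, fun n hn => ?_⟩
  obtain ⟨hn1, hn2⟩ := hn₀ n hn
  have hu2 : 2 ≤ ((n : ℝ) / 2) ^ (1 / j) := (le_max_left _ _).trans hn1
  have huL : (L₀ : ℝ) + 1 ≤ ((n : ℝ) / 2) ^ (1 / j) := (le_max_right _ _).trans hn1
  have hn3 : (2 : ℝ) ≤ n := (le_max_left _ _).trans hn2
  have hn4 : 9 * 2 ^ (E + 1) * 2 ^ (x' * j / 2) ≤ (n : ℝ) := (le_max_right _ _).trans hn2
  set u : ℝ := ((n : ℝ) / 2) ^ (1 / j) with hu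
  set L : ℕ := ⌊u⌋₊ with hLdef
  have hLu : (L : ℝ) ≤ u := Nat.floor_le (by linarith)
  have hLu' : u - 1 < L := Nat.sub_one_lt_floor u
  have hLL : L₀ ≤ L := by
    have : (L₀ : ℝ) < L := by linarith
    exact_mod_cast this.le
  have hL1 : (1 : ℝ) ≤ L := by linarith
  have hL0 : (0 : ℝ) < L := by linarith
  have huj : u ^ j = (n : ℝ) / 2 := by
    rw [hu, ← Real.rpow_mul (by positivity), one_div, inv_mul_cancel₀ hj.ne', Real.rpow_one]
  obtain ⟨t, t', ν', zl, zh, J, Λ, c, s, P, -, hst, hco⟩ := hL L hLL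
  -- the strings
  have hlen : (bin s).length = (bin P).length := by
    have e1 := bin_length s
    have e2 := bin_length P
    rw [hco.len, hco.count] at e1
    omega
  have hlen2 : (bin s).length ≤ n := by
    have e1 := bin_length s
    have e2 : (s.length : ℝ) ≤ (n : ℝ) / 2 := by
      calc (s.length : ℝ) ≤ (⌊(L : ℝ) ^ j⌋₊ : ℝ) := by exact_mod_cast hco.le
        _ ≤ (L : ℝ) ^ j := Nat.floor_le (by positivity)
        _ ≤ u ^ j := Real.rpow_le_rpow hL0.le hLu hj.le
        _ = _ := huj
    have e3 : 2 * s.length ≤ n := by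
      have : (2 * s.length : ℝ) ≤ n := by linarith
      exact_mod_cast this
    omega
  set w : List Bool := List.replicate (n - (bin s).length) false with hw
  have hl1 : (bin s ++ w).length = n := by
    rw [List.length_append, hw, List.length_replicate]
    omega
  have hl2 : (bin P ++ w).length = n := by
    rw [List.length_append, hw, List.length_replicate, ← hlen]
    omega
  obtain ⟨x, hx⟩ : ∃ x : Fin n → Bool, List.ofFn x = bin s ++ w := by
    refine ⟨fun i => (bin s ++ w).get (i.cast hl1.symm), ?_⟩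
    apply List.ext_get
    · rw [List.length_ofFn, hl1]
    · intro k hk1 hk2
      simp
  obtain ⟨z, hz⟩ : ∃ z : Fin n → Bool, List.ofFn z = bin P ++ w := by
    refine ⟨fun i => (bin P ++ w).get (i.cast hl2.symm), ?_⟩
    apply List.ext_get
    · rw [List.length_ofFn, hl2]
    · intro k hk1 hk2
      simp
  have hxz : x ≠ z := by
    intro h
    have h2 : bin s ++ w = bin P ++ w := by rw [← hx, ← hz, h]
    exact hco.ne (bin_injective (List.append_cancel_right h2))
  -- closeness
  set δ : ℝ := (L : ℝ) ^ (-(x' * j / 2)) with hδ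
  have hδ0 : 0 ≤ δ := Real.rpow_nonneg hL0.le _
  have hsqrt : √((L : ℝ) ^ (-(x' * j))) = δ := by
    rw [hδ, Real.sqrt_eq_rpow, ← Real.rpow_mul hL0.le]
    congr 1
    ring
  have hN : N1 (3 * δ) (lw q s - lw q P) := by
    have h2 := n1_of_Q hst.hA hst.A_nonneg hst.t'_prob
    rw [hsqrt] at h2
    have h3 := (hco.hP.sub hco.hs).sub h2
    have e : t' + (zl + zh) - lw q P - (t' - lw q s) - (zl + zh) = lw q s - lw q P := by abel
    rw [e] at h3
    exact h3.mono (by linarith)
  have hclose : ∀ f : List Bool → ℝ, (∀ w, |f w| ≤ 1) →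
      |(law q (List.ofFn x) f) [] - (law q (List.ofFn z) f) []| ≤ 3 * δ := by
    intro f hf
    rw [hx, hz]
    exact law_bin_close hN f hf w h0.le h1.le
  have hcan : CanReconstruct q n (sampleComplexity q n) :=
    Nat.sInf_mem (exists_canReconstruct h0 h1 n)
  have key := two_point_tv h0 h1 hxz (by positivity) hclose hcan
  set T : ℝ := (sampleComplexity q n : ℝ) with hT
  have hδL : δ * (L : ℝ) ^ (x' * j / 2) = 1 := by
    rw [hδ, ← Real.rpow_add hL0]
    simp
  have hLpos : 0 < (L : ℝ) ^ (x' * j / 2) := Real.rpow_pos_of_pos hL0 _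
  have h9 : (L : ℝ) ^ (x' * j / 2) ≤ 9 * T := by
    have h2 := mul_le_mul_of_nonneg_right key hLpos.le
    calc (L : ℝ) ^ (x' * j / 2) = 1 * (L : ℝ) ^ (x' * j / 2) := (one_mul _).symm
      _ ≤ 3 * (T * (3 * δ)) * (L : ℝ) ^ (x' * j / 2) := h2
      _ = 9 * T * (δ * (L : ℝ) ^ (x' * j / 2)) := by ring
      _ = 9 * T := by rw [hδL, mul_one]
  have hLhalf : u / 2 ≤ L := by linarith
  have h10 : (u / 2) ^ (x' * j / 2) ≤ (L : ℝ) ^ (x' * j / 2) :=
    Real.rpow_le_rpow (by linarith) hLhalf hxj.le
  have h11 : (u / 2) ^ (x' * j / 2) = ((n : ℝ) / 2) ^ (x' / 2) / 2 ^ (x' * j / 2) := by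
    rw [Real.div_rpow (by linarith) (by norm_num), hu, ← Real.rpow_mul (by positivity)]
    congr 2
    field_simp
  have h12 : ((n : ℝ) / 2) ^ (E + 1) ≤ ((n : ℝ) / 2) ^ (x' / 2) := by
    rw [← Real.rpow_natCast]
    apply Real.rpow_le_rpow_of_exponent_le
    · linarith
    · linarith
  have h13 : 9 * (n : ℝ) ^ E ≤ ((n : ℝ) / 2) ^ (E + 1) / 2 ^ (x' * j / 2) := by
    have hp : (0 : ℝ) < 2 ^ (x' * j / 2) := Real.rpow_pos_of_pos (by norm_num) _
    rw [le_div_iff₀ hp, div_pow, le_div_iff₀ (by positivity), pow_succ (n : ℝ) E]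
    have hnE : (0 : ℝ) ≤ (n : ℝ) ^ E := by positivity
    have := mul_le_mul_of_nonneg_left hn4 hnE
    calc 9 * (n : ℝ) ^ E * 2 ^ (x' * j / 2) * 2 ^ (E + 1)
        = (n : ℝ) ^ E * (9 * 2 ^ (E + 1) * 2 ^ (x' * j / 2)) := by ring
      _ ≤ _ := this
  have h14 : ((n : ℝ) / 2) ^ (E + 1) / 2 ^ (x' * j / 2) ≤
      ((n : ℝ) / 2) ^ (x' / 2) / 2 ^ (x' * j / 2) :=
    div_le_div_of_nonneg_right h12 (Real.rpow_nonneg (by norm_num) _)
  linarith

end Vale.Agent.P321S
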