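import Vale.Agent.Lib.P321S.Step

/-! The concrete letters: the monoid of words over `Fin 3` (`0` = bit 0, `1` = bit 1,
`2` = block 01), `bb` = law of the trace of the block 01, `dd` = law of the trace of an extra
bit 1. -/

namespace Vale.Agent.P321S

open Finset

/-- words over three symbols -/
abbrev Wd := FreeMonoid (Fin 3)

/-- a single symbol -/
noncomputable def sg (a : Fin 3) : Ms Wd := MonoidAlgebra.single (FreeMonoid.of a) 1

/-- weights of the symbols in `bb` -/
noncomputable def om (q : ℝ) (a : Fin 3) : ℝ := if a = 2 then (1 - q) ^ 2 else (1 - q) * q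

/-- nonempty part of the law of the block 01 -/
noncomputable def bet (q : ℝ) : Ms Wd := ∑ a, om q a • sg a

/-- law of the trace of the block 01 -/
noncomputable def bb (q : ℝ) : Ms Wd := (q ^ 2) • 1 + bet q

/-- law of the trace of an extra bit 1 -/
noncomputable def dd (q : ℝ) : Ms Wd := q • 1 + (1 - q) • sg 1

/-- law of the trace of a block word: `false` = block 01, `true` = an extra bit 1 -/
noncomputable def lw (q : ℝ) (s : List Bool) : Ms Wd :=
  (s.map (fun x => if x then dd q else bb q)).prod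

section

variable {q : ℝ}

theorem sg_prob (a : Fin 3) : Prob (sg a) := by
  constructor
  · apply pos_of_pr
    intro f hf
    unfold sg
    rw [pr_single, one_mul]
    exact hf _
  · exact mass_single _ _

theorem om_nonneg (h0 : 0 ≤ q) (h1 : q ≤ 1) (a : Fin 3) : 0 ≤ om q a := by
  unfold om
  split_ifs
  · positivity
  · exact mul_nonneg (by linarith) h0

theorem bet_pos (h0 : 0 ≤ q) (h1 : q ≤ 1) : Pos (bet q) :=
  Pos.sum (fun a _ => (sg_prob a).pos.smul (om_nonneg h0 h1 a))

theorem bet_mass : mass (bet q) = 1 - q ^ 2 := by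
  unfold bet
  rw [mass_sum]
  simp only [mass_smul, (sg_prob _).mass_eq, mul_one, Fin.sum_univ_three]
  have h2 : (om q 0) = (1 - q) * q := by simp [om]
  have h3 : (om q 1) = (1 - q) * q := by simp [om]
  have h4 : (om q 2) = (1 - q) ^ 2 := by simp [om]
  rw [h2, h3, h4]
  ring

theorem bb_prob (h0 : 0 ≤ q) (h1 : q ≤ 1) : Prob (bb q) := by
  constructor
  · exact (pos_one.smul (by positivity)).add (bet_pos h0 h1)
  · unfold bb
    rw [mass_add, mass_smul, mass_one, bet_mass]; ring

theorem dd_prob (h0 : 0 ≤ q) (h1 : q ≤ 1) : Prob (dd q) := by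
  constructor
  · exact (pos_one.smul h0).add ((sg_prob 1).pos.smul (by linarith))
  · unfold dd
    rw [mass_add, mass_smul, mass_smul, mass_one, (sg_prob 1).mass_eq]; ring

theorem isLaw_lw (h0 : 0 ≤ q) (h1 : q ≤ 1) : IsLaw (lw q) := by
  refine ⟨fun s s' => by simp [lw], by simp [lw], ?_⟩
  intro s
  induction s with
  | nil => simpa [lw] using Prob.one
  | cons x s ih =>
    have : lw q (x :: s) = (if x then dd q else bb q) * lw q s := by simp [lw]
    rw [this]
    split_ifs
    · exact (dd_prob h0 h1).mul ih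
    · exact (bb_prob h0 h1).mul ih

/-- `q² · 1 ≤ bb` -/
theorem one_dom_bb (h0 : 0 ≤ q) (h1 : q ≤ 1) : Dom ((q ^ 2) • (1 : Ms Wd)) (bb q) :=
  Dom.self_add (bet_pos h0 h1)

/-- `q · 1 ≤ dd` -/
theorem one_dom_dd (h1 : q ≤ 1) : Dom (q • (1 : Ms Wd)) (dd q) :=
  Dom.self_add ((sg_prob 1).pos.smul (by linarith))

/-- `q · dd ≤ bb` -/
theorem dd_dom_bb (h0 : 0 ≤ q) (h1 : q ≤ 1) : Dom (q • dd q) (bb q) := by
  rw [dom_iff_pos]
  have : bb q - q • dd q = (q * (1 - q)) • sg 0 + ((1 - q) ^ 2) • sg 2 := by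
    unfold bb dd bet
    rw [Fin.sum_univ_three]
    have h2 : (om q 0) = (1 - q) * q := by simp [om]
    have h3 : (om q 1) = (1 - q) * q := by simp [om]
    have h4 : (om q 2) = (1 - q) ^ 2 := by simp [om]
    rw [h2, h3, h4]
    module
  rw [this]
  exact ((sg_prob 0).pos.smul (mul_nonneg h0 (by linarith))).add
    ((sg_prob 2).pos.smul (by positivity))

theorem bb_lazy (h0 : 0 < q) (h1 : q < 1) : Lazy (bb q) 0 (q ^ 2) := by
  refine ⟨bb_prob h0.le h1.le, by positivity, by nlinarith, ?_⟩
  have h : bb q ^ (0 + 1) - bb q ^ 0 = bet q - (1 - q ^ 2) • (1 : Ms Wd) := by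
    simp only [zero_add, pow_one, pow_zero]
    unfold bb
    module
  rw [h]
  have h2 := (bet_pos h0.le h1.le).n1.sub
    (((pos_one (M := Wd)).smul (c := 1 - q ^ 2) (by nlinarith)).n1)
  rw [bet_mass, mass_smul, mass_one] at h2
  exact h2.mono (by ring_nf; exact le_rfl)

end

end Vale.Agent.P321S
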