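import Vale.Agent.Lib.P321S.Level1A

/-! Module LEVEL1 (section 11 of docs P321). -/

namespace Vale.Agent.P321S

open Finset

theorem lw_word (q : ℝ) (m n : ℕ) :
    lw q (List.replicate m false ++ true :: List.replicate n false) =
      bb q ^ m * dd q * bb q ^ n := by
  simp [lw, mul_assoc]

/-- comparison of a word with one extra bit to powers of the block -/
theorem letter_dom {q : ℝ} (h0 : 0 < q) (h1 : q < 1) (m n : ℕ) :
    Dom (bb q ^ m * dd q * bb q ^ n) ((1 / q) • bb q ^ (m + n + 1)) ∧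
      Dom (q • bb q ^ (m + n)) (bb q ^ m * dd q * bb q ^ n) := by
  have hb := bb_prob h0.le h1.le
  constructor
  · have h2 := (dd_dom_bb h0.le h1.le).smul (c := 1 / q) (by positivity)
    rw [smul_smul, one_div, inv_mul_cancel₀ h0.ne', one_smul] at h2
    have h3 := (h2.mul_left (hb.pos.pow m)).mul_right (hb.pos.pow n)
    rw [mul_smul_comm, smul_mul_assoc, ← pow_succ, ← pow_add] at h3
    rw [one_div, show m + n + 1 = m + 1 + n by ring]
    exact h3
  · have h3 := ((one_dom_dd (q := q) h1.le).mul_left (hb.pos.pow m)).mul_right (hb.pos.pow n)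
    rw [mul_smul_comm, smul_mul_assoc, mul_one, ← pow_add] at h3
    exact h3

/-- the mixed letter `(1 - e) x + e₁` is comparable with `r` -/
theorem mixed {M : Type*} [Monoid M] {x w r e1 : Ms M} {C q : ℝ} (h0 : 0 < q) (hq : q ≤ 1)
    (hC : 1 ≤ C) (hx : Prob x) (he : Pos e1) (hm : mass e1 ≤ 1 / 2)
    (h1 : Dom x ((1 / q) • r)) (h2 : Dom (q • w) x) (h3 : Dom e1 r)
    (h4 : Dom r (C • w + e1)) :
    Prob ((1 - mass e1) • x + e1) ∧ Dom ((1 - mass e1) • x + e1) ((1 / q + 1) • r) ∧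
      Dom r ((2 * C / q) • ((1 - mass e1) • x + e1)) ∧
      N1 (2 * mass e1) ((1 - mass e1) • x + e1 - x) := by
  have he0 := he.mass_nonneg
  obtain ⟨e, hee⟩ : ∃ e : ℝ, e = mass e1 := ⟨_, rfl⟩
  rw [← hee] at hm he0 ⊢
  have hCq : 1 ≤ 2 * C / q := by
    rw [le_div_iff₀ h0]
    linarith
  refine ⟨⟨(hx.pos.smul (by linarith)).add he, ?_⟩, ?_, ?_, ?_⟩
  · rw [mass_add, mass_smul, hx.mass_eq, ← hee]
    ring
  · have h5 : Dom ((1 - e) • x) ((1 / q) • r) := by
      have h6 := Dom.smul_right hx.pos (show 1 - e ≤ 1 by linarith)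
      rw [one_smul] at h6
      exact h6.trans h1
    have h7 := h5.add h3
    rw [add_smul, one_smul]
    exact h7
  · have h5 : Dom (C • w) ((C / q) • x) := by
      have h6 := h2.smul (c := C / q) (by positivity)
      rw [smul_smul, div_mul_cancel₀ _ h0.ne'] at h6
      exact h6
    have h7 : Dom ((C / q) • x) ((2 * C / q * (1 - e)) • x) := by
      apply Dom.smul_right hx.pos
      rw [div_le_iff₀ h0]
      have : 2 * C / q * (1 - e) * q = 2 * C * (1 - e) := by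
        field_simp
      rw [this]
      nlinarith
    have h8 : Dom e1 ((2 * C / q) • e1) := by
      have := Dom.smul_right he hCq
      rwa [one_smul] at this
    have h9 := (h4.trans (h5.add (Dom.refl e1))).trans (h7.add h8)
    rw [smul_add, smul_smul]
    exact h9
  · have h5 := he.n1.sub (hx.n1.smul e)
    rw [abs_of_nonneg he0, mul_one, ← hee] at h5
    have e2 : (1 - e) • x + e1 - x = e1 - e • x := by
      rw [sub_smul, one_smul]
      abel
    rw [e2]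
    exact h5.mono (by linarith)

/-- level 1 without the laziness -/
theorem level1_core {q : ℝ} (h0 : 0 < q) (h1 : q < 1) : ∃ C a : ℝ, 1 ≤ C ∧ 0 < a ∧ a < 1 ∧
    ∀ m : ℕ, 1 ≤ m → a ^ m ≤ 1 / 2 → ∃ (t κ η : Ms Wd),
      Prob t ∧ Prob (t + η + κ) ∧ Prob (t + η - κ) ∧ mass κ = 0 ∧ mass η = 0 ∧
      Dom t (C • (t + η + κ)) ∧ Dom (t + η + κ) (C • t) ∧
      Dom t (C • (t + η - κ)) ∧ Dom (t + η - κ) (C • t) ∧
      Q (C / (m * √m)) κ t ∧ Q (C / (m ^ 2 * √m)) η t ∧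
      N1 (2 * a ^ m) (t - bb q ^ m * dd q * bb q ^ m) ∧
      N1 (2 * a ^ m) (t + η + κ - bb q ^ (m + 1) * dd q * bb q ^ (m - 1)) ∧
      N1 (2 * a ^ m) (t + η - κ - bb q ^ (m - 1) * dd q * bb q ^ (m + 1)) := by
  obtain ⟨Cb, a, hCb, ha0, ha1, hdom⟩ := bb_dom h0 h1
  obtain ⟨Ck, hCk, hkap⟩ := kap_energy h0 h1
  obtain ⟨Ce, hCe, heta⟩ := eta_energy h0 h1
  have hb := bb_prob h0.le h1.le
  have hd := dd_prob h0.le h1.le
  have hq1 : 1 ≤ 1 / q := by
    rw [le_div_iff₀ h0]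
    linarith
  have hC1 : 1 ≤ 2 * Cb / q := by
    rw [le_div_iff₀ h0]
    linarith
  obtain ⟨K, hK⟩ : ∃ K : ℝ, K = (1 / q + 1) * (2 * Cb / q) := ⟨_, rfl⟩
  have hK1 : 1 ≤ K := by
    rw [hK]
    nlinarith
  have hK2 : 2 * Cb / q ≤ K := by
    rw [hK]
    nlinarith
  refine ⟨K * Ck * Ce, a, ?_, ha0, ha1, ?_⟩
  · have : 1 ≤ K * Ck := by nlinarith
    nlinarith
  intro m hm ham
  obtain ⟨e1, he1, he2, he3, he4⟩ := hdom (2 * m)
  have hme : mass e1 ≤ a ^ m := by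
    refine he3.trans ?_
    apply pow_le_pow_of_le_one ha0.le ha1.le
    omega
  have hme2 : mass e1 ≤ 1 / 2 := hme.trans ham
  have he0 := he1.mass_nonneg
  have key : ∀ i j : ℕ, i + j = 2 * m →
      Prob ((1 - mass e1) • (bb q ^ i * dd q * bb q ^ j) + e1) ∧
      Dom ((1 - mass e1) • (bb q ^ i * dd q * bb q ^ j) + e1)
        ((1 / q + 1) • bb q ^ (2 * m + 1)) ∧
      Dom (bb q ^ (2 * m + 1))
        ((2 * Cb / q) • ((1 - mass e1) • (bb q ^ i * dd q * bb q ^ j) + e1)) ∧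
      N1 (2 * mass e1) ((1 - mass e1) • (bb q ^ i * dd q * bb q ^ j) + e1 -
        (bb q ^ i * dd q * bb q ^ j)) := by
    intro i j hij
    obtain ⟨d1, d2⟩ := letter_dom h0 h1 i j
    rw [hij] at d1 d2
    exact mixed h0 h1.le hCb (((hb.pow i).mul hd).mul (hb.pow j)) he1 hme2 d1 d2 he2 he4
  have kt := key m m (by ring)
  have kp := key (m + 1) (m - 1) (by omega)
  have km := key (m - 1) (m + 1) (by omega)
  have hkap' := hkap m hm
  have heta' := heta m hm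
  obtain ⟨x, hx⟩ : ∃ x, x = bb q ^ m * dd q * bb q ^ m := ⟨_, rfl⟩
  obtain ⟨xp, hxp⟩ : ∃ x, x = bb q ^ (m + 1) * dd q * bb q ^ (m - 1) := ⟨_, rfl⟩
  obtain ⟨xm, hxm⟩ : ∃ x, x = bb q ^ (m - 1) * dd q * bb q ^ (m + 1) := ⟨_, rfl⟩
  obtain ⟨r, hr⟩ : ∃ r, r = bb q ^ (2 * m + 1) := ⟨_, rfl⟩
  rw [← hr, ← hx] at kt
  rw [← hr, ← hxp] at kp
  rw [← hr, ← hxm] at km
  rw [← hr, ← hxp, ← hxm] at hkap'
  rw [← hr, ← hxp, ← hxm, ← hx] at heta'
  rw [← hx, ← hxp, ← hxm]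
  obtain ⟨e, hee⟩ : ∃ e : ℝ, e = mass e1 := ⟨_, rfl⟩
  rw [← hee] at kt kp km hme hme2 he0
  obtain ⟨t, ht⟩ : ∃ t, t = (1 - e) • x + e1 := ⟨_, rfl⟩
  obtain ⟨X, hX⟩ : ∃ t, t = (1 - e) • xp + e1 := ⟨_, rfl⟩
  obtain ⟨Y, hY⟩ : ∃ t, t = (1 - e) • xm + e1 := ⟨_, rfl⟩
  rw [← ht] at kt
  rw [← hX] at kp
  rw [← hY] at km
  obtain ⟨t1, t2, t3, t4⟩ := kt
  obtain ⟨p1, p2, p3, p4⟩ := kp
  obtain ⟨m1, m2, m3, m4⟩ := km
  have hKK : K ≤ K * Ck * Ce := by
    have h5 : K ≤ K * Ck := le_mul_of_one_le_right (by linarith) hCk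
    have h6 : K * Ck ≤ K * Ck * Ce := le_mul_of_one_le_right (by nlinarith) hCe
    linarith
  have hKK1 : 2 * Cb / q * Ck ≤ K * Ck * Ce := by
    have h5 : 2 * Cb / q * Ck ≤ K * Ck := mul_le_mul_of_nonneg_right hK2 (by linarith)
    have h6 : K * Ck ≤ K * Ck * Ce := le_mul_of_one_le_right (by nlinarith) hCe
    linarith
  have hKK2 : 2 * Cb / q * Ce ≤ K * Ck * Ce := by
    have h5 : 2 * Cb / q ≤ K * Ck := by
      have : K ≤ K * Ck := le_mul_of_one_le_right (by linarith) hCk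
      linarith
    exact mul_le_mul_of_nonneg_right h5 (by linarith)
  have hdomg : ∀ u v : Ms Wd, Prob v → Dom u ((1 / q + 1) • r) → Dom r ((2 * Cb / q) • v) →
      Dom u ((K * Ck * Ce) • v) := by
    intro u v hv hu hrv
    have h5 := hrv.smul (c := 1 / q + 1) (by positivity)
    rw [smul_smul, ← hK] at h5
    exact (hu.trans h5).trans (Dom.smul_right hv.pos hKK)
  have hXe : t + ((1 / 2 : ℝ) • (X + Y) - t) + (1 / 2 : ℝ) • (X - Y) = X := by
    module
  have hYe : t + ((1 / 2 : ℝ) • (X + Y) - t) - (1 / 2 : ℝ) • (X - Y) = Y := by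
    module
  have hsq : (1 - e) ^ 2 ≤ 1 := pow_le_one₀ (by linarith) (by linarith)
  have hmpos : (0 : ℝ) < m := by exact_mod_cast hm
  have hme' : 2 * e ≤ 2 * a ^ m := by linarith
  refine ⟨t, (1 / 2 : ℝ) • (X - Y), (1 / 2 : ℝ) • (X + Y) - t, ?_⟩
  rw [hXe, hYe]
  refine ⟨t1, p1, m1, ?_, ?_, hdomg _ _ p1 t2 p3, hdomg _ _ t1 p2 t3, hdomg _ _ m1 t2 m3,
    hdomg _ _ t1 m2 t3, ?_, ?_, t4.mono hme', p4.mono hme', m4.mono hme'⟩
  · rw [mass_smul, mass_sub, p1.mass_eq, m1.mass_eq]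
    ring
  · rw [mass_sub, mass_smul, mass_add, p1.mass_eq, m1.mass_eq, t1.mass_eq]
    ring
  · have h5 := (hkap'.smul_left (1 - e)).dom_smul (by positivity) t3
    have e5 : (1 - e) • (1 / 2 : ℝ) • (xp - xm) = (1 / 2 : ℝ) • (X - Y) := by
      rw [hX, hY]
      module
    rw [e5] at h5
    refine h5.mono t1.pos ?_
    calc 2 * Cb / q * ((1 - e) ^ 2 * (Ck / (m * √m))) ≤
          2 * Cb / q * (1 * (Ck / (m * √m))) := by
          apply mul_le_mul_of_nonneg_left _ (by linarith)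
          exact mul_le_mul_of_nonneg_right hsq (by positivity)
      _ = (2 * Cb / q * Ck) / (m * √m) := by ring
      _ ≤ _ := div_le_div_of_nonneg_right hKK1 (by positivity)
  · have h5 := (heta'.smul_left (1 - e)).dom_smul (by positivity) t3
    have e5 : (1 - e) • ((1 / 2 : ℝ) • (xp + xm) - x) = (1 / 2 : ℝ) • (X + Y) - t := by
      rw [hX, hY, ht]
      module
    rw [e5] at h5
    refine h5.mono t1.pos ?_
    calc 2 * Cb / q * ((1 - e) ^ 2 * (Ce / (m ^ 2 * √m))) ≤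
          2 * Cb / q * (1 * (Ce / (m ^ 2 * √m))) := by
          apply mul_le_mul_of_nonneg_left _ (by linarith)
          exact mul_le_mul_of_nonneg_right hsq (by positivity)
      _ = (2 * Cb / q * Ce) / (m ^ 2 * √m) := by ring
      _ ≤ _ := div_le_div_of_nonneg_right hKK2 (by positivity)

/-- LEVEL 1: everything that is needed to start the Thue–Morse machine over the crystal -/
theorem level1 {q : ℝ} (h0 : 0 < q) (h1 : q < 1) : ∃ C c : ℝ, 1 ≤ C ∧ 0 < c ∧ ∀ B : ℕ,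
    ∃ i₀ : ℕ, ∀ i : ℕ, i₀ ≤ i → ∃ (t κ η : Ms Wd) (s₀ s P : List Bool),
      Lazy t (2 * i - 1) c ∧ Prob (t + η + κ) ∧ Prob (t + η - κ) ∧ mass κ = 0 ∧ mass η = 0 ∧
      Dom t (C • (t + η + κ)) ∧ Dom (t + η + κ) (C • t) ∧
      Dom t (C • (t + η - κ)) ∧ Dom (t + η - κ) (C • t) ∧
      Q (C / (i * √i)) κ t ∧ Q (C / (i ^ 2 * √i)) η t ∧
      (s₀.length : ℝ) ≤ C * i ∧ N1 (1 / (i : ℝ) ^ B) (t - lw q s₀) ∧
      Code (lw q) (t + η + κ) (t + η - κ) ⌊C * i⌋₊ (1 / (i : ℝ) ^ B) s P := by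
  obtain ⟨k, i₁, c, hk, hc, hlazy⟩ := crystal_lazy h0 h1
  obtain ⟨C, a, hC, ha0, ha1, hcore⟩ := level1_core h0 h1
  obtain ⟨C', hC'⟩ : ∃ C', C' = max C (2 * k + 1 : ℝ) := ⟨_, rfl⟩
  have hCC : C ≤ C' := by rw [hC']; exact le_max_left _ _
  have hCk : (2 * k + 1 : ℝ) ≤ C' := by rw [hC']; exact le_max_right _ _
  refine ⟨C', c / 2, hC.trans hCC, by positivity, fun B => ?_⟩
  have habs : |a| < 1 := by rw [abs_of_pos ha0]; exact ha1
  have ev1 : ∀ᶠ i : ℕ in Filter.atTop, (i : ℝ) ^ B * a ^ i < 1 / 2 :=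
    (tendsto_pow_const_mul_const_pow_of_abs_lt_one B habs).eventually
      (gt_mem_nhds (by norm_num))
  have ev2 : ∀ᶠ i : ℕ in Filter.atTop, (i : ℝ) ^ 1 * a ^ i < c / 16 :=
    (tendsto_pow_const_mul_const_pow_of_abs_lt_one 1 habs).eventually
      (gt_mem_nhds (by positivity))
  have ev3 : ∀ᶠ i : ℕ in Filter.atTop, (i : ℝ) ^ 0 * a ^ i < 1 / 2 :=
    (tendsto_pow_const_mul_const_pow_of_abs_lt_one 0 habs).eventually
      (gt_mem_nhds (by norm_num))
  obtain ⟨i₂, hi₂⟩ := Filter.eventually_atTop.1 (ev1.and (ev2.and ev3))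
  refine ⟨max (max i₁ i₂) 1, fun i hi => ?_⟩
  have hi1 : i₁ ≤ i := le_trans (le_trans (le_max_left _ _) (le_max_left _ _)) hi
  have hi2 : i₂ ≤ i := le_trans (le_trans (le_max_right _ _) (le_max_left _ _)) hi
  have hi3 : 1 ≤ i := le_trans (le_max_right _ _) hi
  obtain ⟨f1, f2, f3⟩ := hi₂ i hi2
  rw [pow_one] at f2
  rw [pow_zero, one_mul] at f3
  have hipos : (0 : ℝ) < i := by exact_mod_cast hi3
  obtain ⟨m, hm⟩ : ∃ m, m = k * i := ⟨_, rfl⟩
  have him : i ≤ m := by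
    rw [hm]
    exact Nat.le_mul_of_pos_left i hk
  have hm1 : 1 ≤ m := hi3.trans him
  have ham : a ^ m ≤ a ^ i := pow_le_pow_of_le_one ha0.le ha1.le him
  have hl := hlazy i hi1
  rw [← hm] at hl
  obtain ⟨t, κ, η, g1, g2, g3, g4, g5, g6, g7, g8, g9, g10, g11, g12, g13, g14⟩ :=
    hcore m hm1 (ham.trans f3.le)
  have himr : (i : ℝ) ≤ m := by exact_mod_cast him
  have hB : 2 * a ^ m ≤ 1 / (i : ℝ) ^ B := by
    rw [le_div_iff₀ (by positivity)]
    have : a ^ m * (i : ℝ) ^ B ≤ a ^ i * (i : ℝ) ^ B :=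
      mul_le_mul_of_nonneg_right ham (by positivity)
    linarith
  have hlen : ((2 * m + 1 : ℕ) : ℝ) ≤ C' * i := by
    have h5 : ((2 * m + 1 : ℕ) : ℝ) ≤ (2 * k + 1) * i := by
      rw [hm]
      push_cast
      have : (1 : ℝ) ≤ i := by exact_mod_cast hi3
      nlinarith
    exact h5.trans (mul_le_mul_of_nonneg_right hCk hipos.le)
  refine ⟨t, κ, η, List.replicate m false ++ true :: List.replicate m false,
    List.replicate (m + 1) false ++ true :: List.replicate (m - 1) false,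
    List.replicate (m - 1) false ++ true :: List.replicate (m + 1) false,
    ⟨g1, by positivity, by linarith [hl.c_le], ?_⟩, g2, g3, g4, g5,
    g6.trans (Dom.smul_right g2.pos hCC), g7.trans (Dom.smul_right g1.pos hCC),
    g8.trans (Dom.smul_right g3.pos hCC), g9.trans (Dom.smul_right g1.pos hCC),
    g10.mono g1.pos ?_, g11.mono g1.pos ?_, ?_, ?_, ?_⟩
  · have hx := hl.prob
    have h5 := N1.pow_sub g1.n1 hx.n1 g12 (2 * i - 1 + 1)
    have h6 := (N1.pow_sub g1.n1 hx.n1 g12 (2 * i - 1)).symm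
    have h7 := (h5.trans hl.n1).trans h6
    refine h7.mono ?_
    have h8 : ((2 * i - 1 + 1 : ℕ) : ℝ) = 2 * i := by
      rw [show 2 * i - 1 + 1 = 2 * i by omega]
      push_cast
      ring
    have h9 : ((2 * i - 1 : ℕ) : ℝ) ≤ 2 * i := by
      have : 2 * i - 1 ≤ 2 * i := by omega
      exact_mod_cast this
    have h10 : 0 ≤ a ^ m := by positivity
    have h11 : (i : ℝ) * a ^ m ≤ i * a ^ i := mul_le_mul_of_nonneg_left ham hipos.le
    have h12 : ((2 * i - 1 : ℕ) : ℝ) * (2 * a ^ m) ≤ 2 * i * (2 * a ^ m) :=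
      mul_le_mul_of_nonneg_right h9 (by positivity)
    rw [h8]
    linarith
  · apply div_le_div₀ (by linarith) hCC (by positivity)
    exact mul_le_mul himr (Real.sqrt_le_sqrt himr) (by positivity) (by positivity)
  · apply div_le_div₀ (by linarith) hCC (by positivity)
    exact mul_le_mul (pow_le_pow_left₀ hipos.le himr 2) (Real.sqrt_le_sqrt himr)
      (by positivity) (by positivity)
  · refine le_trans (le_of_eq ?_) hlen
    congr 1
    simp
    ring
  · rw [lw_word]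
    exact g12.mono hB
  · refine ⟨?_, ?_, ?_, ?_, ?_, ?_⟩
    · intro hcon
      have h5 := congrArg (fun l : List Bool => l[m - 1]?) hcon
      simp only [List.getElem?_append, List.length_replicate] at h5
      rw [if_pos (by omega), if_neg (by omega)] at h5
      simp at h5
    · simp
      omega
    · simp [List.count_append, List.count_replicate]
    · apply Nat.le_floor
      refine le_trans (le_of_eq ?_) hlen
      congr 1
      simp
      omega
    · rw [lw_word]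
      exact g13.mono hB
    · rw [lw_word]
      exact g14.mono hB

end Vale.Agent.P321S
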