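import Vale.Agent.Lib.P321S.Crystal

/-! Module LEVEL1 (section 11 of docs P321), part A: energies and domination for the block law. -/

namespace Vale.Agent.P321S

open Finset

theorem Sit_comm (M : Type*) [Monoid M] (t X : Ms M) (D : ℕ) :
    Sit t D (t * X - X * t) = t * Sit t D X - Sit t D X * t := by
  have h1 := Sit_mul_left t D 1 X
  have h2 := Sit_mul_right t D 1 X
  rw [pow_one] at h1 h2
  rw [Sit_map_sub, h1, h2]

/-- the mean-zero letter `dd - bb` -/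
theorem diff_letter {q : ℝ} (h0 : 0 < q) (h1 : q < 1) :
    mass (dd q - bb q) = 0 ∧ Q (2 * (1 / q) + 2 * 1) (dd q - bb q) (bb q) := by
  have hb := bb_prob h0.le h1.le
  have hd := dd_prob h0.le h1.le
  refine ⟨by rw [mass_sub, hd.mass_eq, hb.mass_eq, sub_self], ?_⟩
  have q1 : Q (1 / q) (dd q) (bb q) := by
    have := ((hd.pos.smul h0.le).q_dom (dd_dom_bb h0.le h1.le)).smul_left (1 / q)
    rw [smul_smul, mass_smul, hd.mass_eq, one_div, inv_mul_cancel₀ h0.ne', one_smul] at this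
    have e : q⁻¹ ^ 2 * (q * 1) = 1 / q := by field_simp
    rwa [e] at this
  have q2 : Q 1 (bb q) (bb q) := by
    have := hb.q_pow 1
    rwa [pow_one] at this
  exact q1.sub' q2 hb.pos (by positivity) zero_le_one

/-- energy of the smeared commutator -/
theorem ad_energy {M : Type*} [Monoid M] {t z : Ms M} {g : ℝ} (ht : Prob t) (hz0 : mass z = 0)
    (hz : Q g z t) (hg : 0 ≤ g) (D : ℕ) :
    Q (g * (2 / (((D : ℝ) + 1) * √((D : ℝ) + 1)))) (Sit t D (t * z - z * t)) (t ^ (D + 2)) := by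
  rw [lin_Sit_comm_eq]
  have h := orth_sum ht hz0 hz hg zero_le_one (D + 1) (fun i => -(dch D i / 2 ^ D))
    (fun i => t ^ (D + 1 - i)) (fun i _ => ht.q_pow _)
  have e : g * 1 * ∑ i ∈ range (D + 1 + 1), (-(dch D i / 2 ^ D)) ^ 2 =
      g * ∑ i ∈ range (D + 2), (dch D i / 2 ^ D) ^ 2 := by
    simp only [neg_sq, mul_one]
  rw [e] at h
  exact h.mono (ht.pos.pow _) (mul_le_mul_of_nonneg_left (dch_sq_le D) hg)

theorem kap_energy {q : ℝ} (h0 : 0 < q) (h1 : q < 1) : ∃ C : ℝ, 1 ≤ C ∧ ∀ m : ℕ, 1 ≤ m →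
    Q (C / (m * √m)) ((1 / 2 : ℝ) • (bb q ^ (m + 1) * dd q * bb q ^ (m - 1) -
      bb q ^ (m - 1) * dd q * bb q ^ (m + 1))) (bb q ^ (2 * m + 1)) := by
  obtain ⟨hz0, hz⟩ := diff_letter h0 h1
  have hb := bb_prob h0.le h1.le
  have hl := bb_lazy h0 h1
  obtain ⟨g, hg⟩ : ∃ g : ℝ, g = 2 * (1 / q) + 2 * 1 := ⟨_, rfl⟩
  rw [← hg] at hz
  have hg0 : 0 ≤ g := by rw [hg]; positivity
  obtain ⟨x, hx⟩ : ∃ x : ℝ, x = (q ^ 2) ^ 2 / 2 := ⟨_, rfl⟩
  have hx0 : 0 < x := by rw [hx]; positivity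
  have hx1 : x ≤ 1 := by
    rw [hx]
    have : (q ^ 2) ^ 2 ≤ 1 := pow_le_one₀ (by positivity) (pow_le_one₀ h0.le h1.le)
    linarith
  refine ⟨1 + 4 * g / (x * √x), by
    have : 0 ≤ 4 * g / (x * √x) := by positivity
    linarith, fun m hm => ?_⟩
  obtain ⟨b, hbb⟩ : ∃ b : Ms Wd, b = bb q := ⟨_, rfl⟩
  obtain ⟨z, hzz⟩ : ∃ z : Ms Wd, z = dd q - bb q := ⟨_, rfl⟩
  rw [← hzz] at hz0 hz
  rw [← hbb] at hz hb hl ⊢
  have hdd : dd q = b + z := by rw [hzz, hbb]; abel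
  obtain ⟨k, rfl⟩ : ∃ k, m = k + 1 := ⟨m - 1, by omega⟩
  have e1 : (1 / 2 : ℝ) • (b ^ (k + 1 + 1) * dd q * b ^ (k + 1 - 1) -
      b ^ (k + 1 - 1) * dd q * b ^ (k + 1 + 1)) =
      b ^ ((0 + 1) * k) * S b (b * z - z * b) * b ^ ((0 + 1) * k) := by
    rw [hdd, Nat.add_sub_cancel, zero_add, one_mul, S, mul_smul_comm, smul_mul_assoc]
    congr 1
    have c1 : b ^ (k + 1 + 1) = b ^ k * (b * b) := by rw [pow_succ, pow_succ, mul_assoc]
    have c2 : b ^ (k + 1 + 1) = b * b * b ^ k := by rw [pow_succ', pow_succ', mul_assoc]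
    have c4 : b ^ (k + 1 + 1) * b * b ^ k = b ^ k * b * b ^ (k + 1 + 1) := by
      rw [← pow_succ, ← pow_succ, ← pow_add, ← pow_add]
      congr 1
      ring
    calc b ^ (k + 1 + 1) * (b + z) * b ^ k - b ^ k * (b + z) * b ^ (k + 1 + 1) =
          (b ^ (k + 1 + 1) * b * b ^ k - b ^ k * b * b ^ (k + 1 + 1)) +
            (b ^ (k + 1 + 1) * z * b ^ k - b ^ k * z * b ^ (k + 1 + 1)) := by noncomm_ring
      _ = (b ^ (k + 1 + 1)) * z * b ^ k - b ^ k * z * (b ^ (k + 1 + 1)) := by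
          rw [c4, sub_self, zero_add]
      _ = (b ^ k * (b * b)) * z * b ^ k - b ^ k * z * (b * b * b ^ k) := by
          rw [← c1, ← c2]
      _ = b ^ k * (b * (b * z - z * b) + (b * z - z * b) * b) * b ^ k := by noncomm_ring
  have hX : ∀ D : ℕ, Q (g * (2 / (((D : ℝ) + 1) * √((D : ℝ) + 1)))) (Sit b D (S b (b * z - z * b)))
      (b ^ D * b ^ 3) := by
    intro D
    have h := ad_energy hb hz0 hz hg0 (D + 1)
    rw [Sit_succ, show D + 1 + 2 = D + 3 by ring, pow_add] at h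
    refine h.mono ((hb.pos.pow _).mul (hb.pos.pow _)) ?_
    apply mul_le_mul_of_nonneg_left _ hg0
    apply div_le_div_of_nonneg_left (by norm_num) (by positivity)
    push_cast
    apply mul_le_mul (by linarith) (Real.sqrt_le_sqrt (by linarith)) (by positivity) (by positivity)
  have h2 := smear hl (hb.pos.pow 3) ((Commute.refl b).pow_right 3)
    (e := fun D => g * (2 / (((D : ℝ) + 1) * √((D : ℝ) + 1)))) (fun D => by positivity) hX k
  rw [e1]
  have e2 : b ^ (2 * ((0 + 1) * k)) * b ^ 3 = b ^ (2 * (k + 1) + 1) := by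
    rw [← pow_add]
    congr 1
    ring
  rw [e2] at h2
  refine h2.mono (hb.pos.pow _) ?_
  rw [← hx]
  have e3 : (fun D : ℕ => g * (2 / (((D : ℝ) + 1) * √((D : ℝ) + 1)))) =
      fun D : ℕ => (2 * g) * (1 / (((D : ℝ) + 1) * √((D : ℝ) + 1))) := by
    funext D
    ring
  rw [e3, Bsum_mul]
  have h3 := Bsum_inv_three_half (N := k) hx0 hx1
  have hk : (0 : ℝ) < (k : ℝ) + 1 := by positivity
  calc 2 * g * Bsum k x (fun D => 1 / (((D : ℝ) + 1) * √((D : ℝ) + 1))) ≤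
        2 * g * (2 / ((((k : ℝ) + 1) * x) * √(((k : ℝ) + 1) * x))) :=
        mul_le_mul_of_nonneg_left h3 (by positivity)
    _ = (4 * g / (x * √x)) / (((k : ℝ) + 1) * √((k : ℝ) + 1)) := by
        rw [Real.sqrt_mul hk.le]
        field_simp
        ring
    _ ≤ (1 + 4 * g / (x * √x)) / (((k : ℝ) + 1) * √((k : ℝ) + 1)) := by
        apply div_le_div_of_nonneg_right _ (by positivity)
        linarith
    _ = _ := by push_cast; rfl

/-- energy of the smeared double commutator -/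
theorem ad_ad_energy {M : Type*} [Monoid M] {t z : Ms M} {g : ℝ} (ht : Prob t)
    (hz0 : mass z = 0) (hz : Q g z t) (hg : 0 ≤ g) (D : ℕ) :
    Q (64 * g * (1 / (((D : ℝ) + 1) ^ 2 * √((D : ℝ) + 1))))
      (Sit t D (t * (t * z - z * t) - (t * z - z * t) * t)) (t ^ (D + 3)) := by
  obtain ⟨D1, D2, rfl, hD1, hD2⟩ : ∃ D1 D2 : ℕ, D = D2 + D1 ∧ D ≤ 2 * D1 + 1 ∧ D ≤ 2 * D2 :=
    ⟨D / 2, D - D / 2, by omega, by omega, by omega⟩
  have h1 := ad_energy ht hz0 hz hg D1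
  have h2 := h1.comm_smear ht (by positivity) D2
  rw [← Sit_comm, ← Sit_add, show D2 + 1 + (D1 + 2) = D2 + D1 + 3 by ring] at h2
  refine h2.mono (ht.pos.pow _) ?_
  have b1 : (0 : ℝ) < (D1 : ℝ) + 1 := by positivity
  have b2 : (0 : ℝ) < (D2 : ℝ) + 1 := by positivity
  have b0 : (0 : ℝ) < ((D2 + D1 : ℕ) : ℝ) + 1 := by positivity
  have c1 : (((D2 + D1 : ℕ) : ℝ) + 1) ≤ 2 * ((D1 : ℝ) + 1) := by
    have : ((D2 + D1 : ℕ) : ℝ) ≤ ((2 * D1 + 1 : ℕ) : ℝ) := by exact_mod_cast hD1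
    push_cast at this ⊢
    linarith
  have c2 : (((D2 + D1 : ℕ) : ℝ) + 1) ≤ 2 * ((D2 : ℝ) + 1) := by
    have : ((D2 + D1 : ℕ) : ℝ) ≤ ((2 * D2 : ℕ) : ℝ) := by exact_mod_cast hD2
    push_cast at this ⊢
    linarith
  have c3 : √(((D2 + D1 : ℕ) : ℝ) + 1) ≤ 2 * √((D1 : ℝ) + 1) := by
    rw [Real.sqrt_le_left (by positivity), mul_pow, Real.sq_sqrt b1.le]
    linarith
  have c4 : (((D2 + D1 : ℕ) : ℝ) + 1) ^ 2 * √(((D2 + D1 : ℕ) : ℝ) + 1) ≤
      8 * (((D1 : ℝ) + 1) * √((D1 : ℝ) + 1) * ((D2 : ℝ) + 1)) := by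
    calc (((D2 + D1 : ℕ) : ℝ) + 1) ^ 2 * √(((D2 + D1 : ℕ) : ℝ) + 1) =
          ((((D2 + D1 : ℕ) : ℝ) + 1) * (((D2 + D1 : ℕ) : ℝ) + 1)) *
            √(((D2 + D1 : ℕ) : ℝ) + 1) := by ring
      _ ≤ ((2 * ((D1 : ℝ) + 1)) * (2 * ((D2 : ℝ) + 1))) * (2 * √((D1 : ℝ) + 1)) :=
          mul_le_mul (mul_le_mul c1 c2 b0.le (by positivity)) c3 (by positivity) (by positivity)
      _ = _ := by ring
  calc 4 * (g * (2 / (((D1 : ℝ) + 1) * √((D1 : ℝ) + 1)))) / ((D2 : ℝ) + 1) =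
        8 * g * (1 / (((D1 : ℝ) + 1) * √((D1 : ℝ) + 1) * ((D2 : ℝ) + 1))) := by
        field_simp
        ring
    _ ≤ 8 * g * (8 / ((((D2 + D1 : ℕ) : ℝ) + 1) ^ 2 * √(((D2 + D1 : ℕ) : ℝ) + 1))) := by
        apply mul_le_mul_of_nonneg_left _ (by positivity)
        rw [div_le_div_iff₀ (by positivity) (by positivity)]
        linarith
    _ = _ := by ring

theorem eta_energy {q : ℝ} (h0 : 0 < q) (h1 : q < 1) : ∃ C : ℝ, 1 ≤ C ∧ ∀ m : ℕ, 1 ≤ m →
    Q (C / (m ^ 2 * √m)) ((1 / 2 : ℝ) • (bb q ^ (m + 1) * dd q * bb q ^ (m - 1) +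
      bb q ^ (m - 1) * dd q * bb q ^ (m + 1)) - bb q ^ m * dd q * bb q ^ m)
      (bb q ^ (2 * m + 1)) := by
  obtain ⟨hz0, hz⟩ := diff_letter h0 h1
  have hb := bb_prob h0.le h1.le
  have hl := bb_lazy h0 h1
  obtain ⟨g, hg⟩ : ∃ g : ℝ, g = 2 * (1 / q) + 2 * 1 := ⟨_, rfl⟩
  rw [← hg] at hz
  have hg0 : 0 ≤ g := by rw [hg]; positivity
  obtain ⟨x, hx⟩ : ∃ x : ℝ, x = (q ^ 2) ^ 2 / 2 := ⟨_, rfl⟩
  have hx0 : 0 < x := by rw [hx]; positivity
  have hx1 : x ≤ 1 := by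
    rw [hx]
    have : (q ^ 2) ^ 2 ≤ 1 := pow_le_one₀ (by positivity) (pow_le_one₀ h0.le h1.le)
    linarith
  refine ⟨1 + 64 * g / (x ^ 2 * √x), by
    have : 0 ≤ 64 * g / (x ^ 2 * √x) := by positivity
    linarith, fun m hm => ?_⟩
  obtain ⟨b, hbb⟩ : ∃ b : Ms Wd, b = bb q := ⟨_, rfl⟩
  obtain ⟨z, hzz⟩ : ∃ z : Ms Wd, z = dd q - bb q := ⟨_, rfl⟩
  rw [← hzz] at hz0 hz
  rw [← hbb] at hz hb hl ⊢
  have hdd : dd q = b + z := by rw [hzz, hbb]; abel
  obtain ⟨k, rfl⟩ : ∃ k, m = k + 1 := ⟨m - 1, by omega⟩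
  have e1 : (1 / 2 : ℝ) • (b ^ (k + 1 + 1) * dd q * b ^ (k + 1 - 1) +
      b ^ (k + 1 - 1) * dd q * b ^ (k + 1 + 1)) - b ^ (k + 1) * dd q * b ^ (k + 1) =
      b ^ ((0 + 1) * k) * ((1 / 2 : ℝ) • (b * (b * z - z * b) - (b * z - z * b) * b)) *
        b ^ ((0 + 1) * k) := by
    rw [hdd, Nat.add_sub_cancel, zero_add, one_mul, mul_smul_comm, smul_mul_assoc]
    have c1 : b ^ (k + 1 + 1) = b ^ k * (b * b) := by rw [pow_succ, pow_succ, mul_assoc]
    have c2 : b ^ (k + 1 + 1) = b * b * b ^ k := by rw [pow_succ', pow_succ', mul_assoc]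
    have c4 : b ^ (k + 1 + 1) * b * b ^ k = b ^ (k + 1) * b * b ^ (k + 1) := by
      rw [← pow_succ, ← pow_succ, ← pow_add, ← pow_add]
      congr 1
      ring
    have c5 : b ^ k * b * b ^ (k + 1 + 1) = b ^ (k + 1) * b * b ^ (k + 1) := by
      rw [← pow_succ, ← pow_succ, ← pow_add, ← pow_add]
      congr 1
      ring
    have c6 : b ^ (k + 1) * (b + z) * b ^ (k + 1) = (1 / 2 : ℝ) • ((2 : ℝ) •
        (b ^ (k + 1) * (b + z) * b ^ (k + 1))) := by
      rw [smul_smul]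
      norm_num
    rw [c6, ← smul_sub]
    congr 1
    rw [two_smul]
    calc b ^ (k + 1 + 1) * (b + z) * b ^ k + b ^ k * (b + z) * b ^ (k + 1 + 1) -
          (b ^ (k + 1) * (b + z) * b ^ (k + 1) + b ^ (k + 1) * (b + z) * b ^ (k + 1)) =
          (b ^ (k + 1 + 1) * b * b ^ k + b ^ k * b * b ^ (k + 1 + 1)) -
            (b ^ (k + 1) * b * b ^ (k + 1) + b ^ (k + 1) * b * b ^ (k + 1)) +
            (b ^ (k + 1 + 1) * z * b ^ k + b ^ k * z * b ^ (k + 1 + 1)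
              - (b ^ (k + 1) * z * b ^ (k + 1) + b ^ (k + 1) * z * b ^ (k + 1))) := by
          noncomm_ring
      _ = (b ^ (k + 1 + 1)) * z * b ^ k + b ^ k * z * (b ^ (k + 1 + 1))
              - ((b ^ (k + 1)) * z * (b ^ (k + 1)) + (b ^ (k + 1)) * z * (b ^ (k + 1))) := by
          rw [c4, c5, sub_self, zero_add]
      _ = (b ^ k * (b * b)) * z * b ^ k + b ^ k * z * (b * b * b ^ k)
              - ((b ^ k * b) * z * (b * b ^ k) + (b ^ k * b) * z * (b * b ^ k)) := by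
          rw [← c1, ← c2, ← pow_succ, ← pow_succ']
      _ = b ^ k * (b * (b * z - z * b) - (b * z - z * b) * b) * b ^ k := by noncomm_ring
  have hX : ∀ D : ℕ, Q (16 * g * (1 / (((D : ℝ) + 1) ^ 2 * √((D : ℝ) + 1))))
      (Sit b D ((1 / 2 : ℝ) • (b * (b * z - z * b) - (b * z - z * b) * b))) (b ^ D * b ^ 3) := by
    intro D
    have h := (ad_ad_energy hb hz0 hz hg0 D).smul_left (1 / 2)
    rw [← Sit_map_smul, pow_add] at h
    refine h.mono ((hb.pos.pow _).mul (hb.pos.pow _)) (le_of_eq ?_)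
    ring
  have h2 := smear hl (hb.pos.pow 3) ((Commute.refl b).pow_right 3)
    (e := fun D => 16 * g * (1 / (((D : ℝ) + 1) ^ 2 * √((D : ℝ) + 1)))) (fun D => by positivity)
    hX k
  rw [e1]
  have e2 : b ^ (2 * ((0 + 1) * k)) * b ^ 3 = b ^ (2 * (k + 1) + 1) := by
    rw [← pow_add]
    congr 1
    ring
  rw [e2] at h2
  refine h2.mono (hb.pos.pow _) ?_
  rw [← hx, Bsum_mul]
  have h3 := Bsum_inv_five_half (N := k) hx0 hx1
  have hk : (0 : ℝ) < (k : ℝ) + 1 := by positivity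
  calc 16 * g * Bsum k x (fun D => 1 / (((D : ℝ) + 1) ^ 2 * √((D : ℝ) + 1))) ≤
        16 * g * (4 / ((((k : ℝ) + 1) * x) ^ 2 * √(((k : ℝ) + 1) * x))) :=
        mul_le_mul_of_nonneg_left h3 (by positivity)
    _ = (64 * g / (x ^ 2 * √x)) / (((k : ℝ) + 1) ^ 2 * √((k : ℝ) + 1)) := by
        rw [Real.sqrt_mul hk.le]
        field_simp
        ring
    _ ≤ (1 + 64 * g / (x ^ 2 * √x)) / (((k : ℝ) + 1) ^ 2 * √((k : ℝ) + 1)) := by
        apply div_le_div_of_nonneg_right _ (by positivity)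
        linarith
    _ = _ := by push_cast; rfl

/-- the binomial expansion of the powers of `bb` -/
theorem bb_pow_eq (q : ℝ) (N : ℕ) : bb q ^ N =
    ∑ l ∈ range (N + 1), ((N.choose l : ℝ) * (q ^ 2) ^ (N - l)) • bet q ^ l := by
  have h : bb q = bet q + (q ^ 2) • (1 : Ms Wd) := by unfold bb; abel
  have hc : Commute (bet q) ((q ^ 2) • (1 : Ms Wd)) := (Commute.one_right _).smul_right _
  rw [h, hc.add_pow]
  apply Finset.sum_congr rfl
  intro l _
  rw [smul_pow, one_pow, mul_smul_comm, mul_one, smul_mul_assoc, ← nsmul_eq_mul',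
    ← Nat.cast_smul_eq_nsmul ℝ, smul_smul, mul_comm]

/-- `b^(N+1) ≤ C b^N + e` with `e` exponentially small -/
theorem bb_dom {q : ℝ} (h0 : 0 < q) (h1 : q < 1) : ∃ C a : ℝ, 1 ≤ C ∧ 0 < a ∧ a < 1 ∧
    ∀ N : ℕ, ∃ e : Ms Wd, Pos e ∧ Dom e (bb q ^ (N + 1)) ∧ mass e ≤ a ^ N ∧
      Dom (bb q ^ (N + 1)) (C • bb q ^ N + e) := by
  obtain ⟨y, hy⟩ : ∃ y : ℝ, y = q ^ 2 := ⟨_, rfl⟩
  have hy0 : 0 < y := by rw [hy]; positivity
  have hy1 : y < 1 := by rw [hy]; exact pow_lt_one₀ h0.le h1 two_ne_zero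
  have he : Real.exp (-1) < 1 / 2 := by
    have := Real.exp_one_gt_d9
    rw [Real.exp_neg, inv_lt_comm₀ (Real.exp_pos 1) (by norm_num)]
    linarith
  refine ⟨2, Real.exp (-(y * (1 / 2 - Real.exp (-1)))), by norm_num, Real.exp_pos _, ?_, ?_⟩
  · rw [Real.exp_lt_one_iff]
    have := mul_pos hy0 (sub_pos.2 he)
    linarith
  intro N
  have hbp : Pos (bet q) := bet_pos h0.le h1.le
  obtain ⟨A, hA⟩ : ∃ A : Finset ℕ, A = (range (N + 2)).filter
    (fun l => ((N + 1 - l : ℕ) : ℝ) < y / 2 * (N + 1)) := ⟨_, rfl⟩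
  obtain ⟨cf, hcf⟩ : ∃ cf : ℕ → ℝ, cf = fun l => ((N + 1).choose l : ℝ) * y ^ (N + 1 - l) :=
    ⟨_, rfl⟩
  have hcf0 : ∀ l, 0 ≤ cf l := fun l => by rw [hcf]; positivity
  have hsum : bb q ^ (N + 1) = ∑ l ∈ (range (N + 2)) \ A, cf l • bet q ^ l +
      ∑ l ∈ A, cf l • bet q ^ l := by
    rw [bb_pow_eq, ← hy, Finset.sum_sdiff (by rw [hA]; exact Finset.filter_subset _ _)]
    apply Finset.sum_congr rfl
    intro l _
    rw [hcf]
  have hp1 : Pos (∑ l ∈ A, cf l • bet q ^ l) := Pos.sum fun l _ => (hbp.pow l).smul (hcf0 l)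
  have hp2 : Pos (∑ l ∈ (range (N + 2)) \ A, cf l • bet q ^ l) :=
    Pos.sum fun l _ => (hbp.pow l).smul (hcf0 l)
  refine ⟨∑ l ∈ A, cf l • bet q ^ l, hp1, ?_, ?_, ?_⟩
  · rw [hsum, add_comm]
    exact Dom.self_add hp2
  · -- the mass
    have hexp : ∀ l ∈ A, (1 : ℝ) ≤ Real.exp (y / 2 * (N + 1)) *
        Real.exp (-1) ^ (N + 1 - l) := by
      intro l hl
      rw [hA, Finset.mem_filter] at hl
      rw [← Real.exp_nat_mul, ← Real.exp_add, Real.one_le_exp_iff]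
      linarith [hl.2]
    have h1 : mass (∑ l ∈ A, cf l • bet q ^ l) = ∑ l ∈ A, cf l * (1 - y) ^ l := by
      rw [mass_sum]
      apply Finset.sum_congr rfl
      intro l _
      rw [mass_smul, mass_pow, bet_mass, ← hy]
    have hy2 : 0 ≤ 1 - y := by linarith
    have h2 : ∑ l ∈ A, cf l * (1 - y) ^ l ≤ ∑ l ∈ A, Real.exp (y / 2 * (N + 1)) *
        ((1 - y) ^ l * (y * Real.exp (-1)) ^ (N + 1 - l) * ((N + 1).choose l : ℝ)) := by
      apply Finset.sum_le_sum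
      intro l hl
      have h3 := mul_le_mul_of_nonneg_left (hexp l hl)
        (mul_nonneg (hcf0 l) (pow_nonneg hy2 l))
      rw [mul_one] at h3
      refine h3.trans (le_of_eq ?_)
      rw [hcf, mul_pow]
      ring
    have h4 : ∑ l ∈ A, Real.exp (y / 2 * (N + 1)) *
        ((1 - y) ^ l * (y * Real.exp (-1)) ^ (N + 1 - l) * ((N + 1).choose l : ℝ)) ≤
        ∑ l ∈ range (N + 1 + 1), Real.exp (y / 2 * (N + 1)) *
        ((1 - y) ^ l * (y * Real.exp (-1)) ^ (N + 1 - l) * ((N + 1).choose l : ℝ)) := by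
      apply Finset.sum_le_sum_of_subset_of_nonneg
      · rw [hA]
        exact Finset.filter_subset _ _
      · intro l _ _
        have := Real.exp_pos (-1)
        positivity
    rw [h1]
    refine (h2.trans h4).trans ?_
    rw [← Finset.mul_sum, ← add_pow]
    have h5 : 1 - y + y * Real.exp (-1) ≤ Real.exp (-(y * (1 - Real.exp (-1)))) := by
      have := Real.add_one_le_exp (-(y * (1 - Real.exp (-1))))
      linarith
    have h6 : (1 - y + y * Real.exp (-1)) ^ (N + 1) ≤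
        Real.exp (-(y * (1 - Real.exp (-1)))) ^ (N + 1) :=
      pow_le_pow_left₀ (by have := Real.exp_pos (-1); positivity) h5 _
    have h7 : Real.exp (y / 2 * (N + 1)) = Real.exp (y / 2) ^ (N + 1) := by
      rw [← Real.exp_nat_mul]
      push_cast
      ring_nf
    have h8 : Real.exp (y / 2 * (N + 1)) * Real.exp (-(y * (1 - Real.exp (-1)))) ^ (N + 1) =
        Real.exp (-(y * (1 / 2 - Real.exp (-1)))) ^ (N + 1) := by
      rw [h7, ← mul_pow, ← Real.exp_add]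
      congr 2
      ring
    refine (mul_le_mul_of_nonneg_left h6 (Real.exp_pos _).le).trans ?_
    rw [h8, pow_succ]
    apply mul_le_of_le_one_right (by positivity)
    rw [Real.exp_le_one_iff]
    have := mul_pos hy0 (sub_pos.2 he)
    linarith
  · rw [hsum]
    refine Dom.add ?_ (Dom.refl _)
    rw [bb_pow_eq, ← hy, Finset.smul_sum]
    have hS : ∀ l ∈ range (N + 2) \ A, l ∈ range (N + 1) ∧
        cf l ≤ 2 * ((N.choose l : ℝ) * y ^ (N - l)) := by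
      intro l hl
      rw [Finset.mem_sdiff, hA, Finset.mem_filter, Finset.mem_range] at hl
      obtain ⟨hl1, hl2⟩ := hl
      have hl3 : y / 2 * (N + 1) ≤ ((N + 1 - l : ℕ) : ℝ) := by
        by_contra hc
        exact hl2 ⟨hl1, not_le.1 hc⟩
      have hl4 : 0 < N + 1 - l := by
        have : (0 : ℝ) < ((N + 1 - l : ℕ) : ℝ) := lt_of_lt_of_le (by positivity) hl3
        exact_mod_cast this
      have hl5 : l ≤ N := by omega
      refine ⟨Finset.mem_range.2 (by omega), ?_⟩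
      have e1 : (((N + 1 - l : ℕ) : ℝ)) * ((N + 1).choose l : ℝ) =
          ((N : ℝ) + 1) * (N.choose l : ℝ) := by
        have := Nat.choose_mul_succ_eq N l
        have h' : (((N.choose l) * (N + 1) : ℕ) : ℝ) =
            (((N + 1).choose l * (N + 1 - l) : ℕ) : ℝ) := by rw [this]
        push_cast [show N + 1 - l = (N + 1 - l : ℕ) from rfl] at h'
        rw [mul_comm, ← h']
        ring
      have e2 : ((N + 1).choose l : ℝ) * y ≤ 2 * (N.choose l : ℝ) := by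
        have hN : (0 : ℝ) < (N : ℝ) + 1 := by positivity
        have h9 : y / 2 * (N + 1) * ((N + 1).choose l : ℝ) ≤ ((N : ℝ) + 1) * (N.choose l : ℝ) := by
          rw [← e1]
          exact mul_le_mul_of_nonneg_right hl3 (by positivity)
        have h10 : ((N : ℝ) + 1) * (y / 2 * ((N + 1).choose l : ℝ)) ≤
            ((N : ℝ) + 1) * (N.choose l : ℝ) := by linarith
        have h11 := le_of_mul_le_mul_left h10 hN
        linarith
      rw [hcf]
      calc ((N + 1).choose l : ℝ) * y ^ (N + 1 - l) =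
            (((N + 1).choose l : ℝ) * y) * y ^ (N - l) := by
            rw [show N + 1 - l = N - l + 1 by omega, pow_succ]
            ring
        _ ≤ (2 * (N.choose l : ℝ)) * y ^ (N - l) :=
            mul_le_mul_of_nonneg_right e2 (by positivity)
        _ = _ := by ring
    have hd1 : Dom (∑ l ∈ range (N + 2) \ A, cf l • bet q ^ l)
        (∑ l ∈ range (N + 2) \ A, (2 : ℝ) • (((N.choose l : ℝ) * y ^ (N - l)) • bet q ^ l)) := by
      rw [dom_iff_pos, ← Finset.sum_sub_distrib]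
      apply Pos.sum
      intro l hl
      rw [← dom_iff_pos, smul_smul]
      exact Dom.smul_right (hbp.pow l) (hS l hl).2
    refine hd1.trans ?_
    have hsub : range (N + 2) \ A ⊆ range (N + 1) := fun l hl => (hS l hl).1
    obtain ⟨u, hu⟩ : ∃ u : ℕ → Ms Wd, u = fun l =>
      (2 : ℝ) • (((N.choose l : ℝ) * y ^ (N - l)) • bet q ^ l) := ⟨_, rfl⟩
    have hup : ∀ l, Pos (u l) := by
      intro l
      rw [hu]
      exact ((hbp.pow l).smul (by positivity)).smul (by norm_num)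
    have hd2 : Dom (∑ l ∈ range (N + 2) \ A, u l) (∑ l ∈ range (N + 1), u l) := by
      obtain ⟨S, hS'⟩ : ∃ S, S = range (N + 2) \ A := ⟨_, rfl⟩
      rw [← hS'] at hsub ⊢
      rw [← Finset.sum_sdiff hsub, add_comm (∑ l ∈ range (N + 1) \ S, u l)]
      exact Dom.self_add (Pos.sum fun l _ => hup l)
    rw [hu] at hd2
    exact hd2

end Vale.Agent.P321S
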