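import Vale.Agent.Lib.P321S.TM

/-! Module LIN (section 5 of docs P321). -/

namespace Vale.Agent.P321S

open Finset

variable {M : Type*} [Monoid M]

/-- conjugation by powers of `t` -/
theorem Q.lin_conj {a : ℝ} {t X : Ms M} {n : ℕ} (h : Q a X (t ^ n)) (ht : Prob t) (ha : 0 ≤ a)
    (i j : ℕ) : Q a (t ^ i * X * t ^ j) (t ^ (i + n + j)) := by
  have h1 := h.sandwich ha (ht.pos.pow n) (ht.pos.pow i) (ht.pos.pow j)
  rw [(ht.pow i).mass_eq, (ht.pow j).mass_eq, one_mul, one_mul, ← pow_add, ← pow_add] at h1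
  exact h1

theorem lin_Sit_comm_eq (t X : Ms M) (D : ℕ) :
    Sit t D (t * X - X * t)
      = ∑ i ∈ range (D + 2), (-(dch D i / 2 ^ D)) • (t ^ i * X * t ^ (D + 1 - i)) := by
  have h1 : Sit t D (t * X - X * t)
      = ∑ i ∈ range (D + 1), ((D.choose i : ℝ) / 2 ^ D) • (t ^ (i + 1) * X * t ^ (D - i))
        - ∑ i ∈ range (D + 1), ((D.choose i : ℝ) / 2 ^ D) • (t ^ i * X * t ^ (D + 1 - i)) := by
    rw [Sit_eq_sum, ← sum_sub_distrib]
    apply sum_congr rfl
    intro i hi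
    have hi' : i ≤ D := by
      have := mem_range.mp hi
      omega
    have e1 : D + 1 - i = (D - i) + 1 := by omega
    rw [← smul_sub, e1, pow_succ t i, pow_succ' t (D - i)]
    congr 1
    noncomm_ring
  have h2 : ∑ i ∈ range (D + 1), ((D.choose i : ℝ) / 2 ^ D) • (t ^ (i + 1) * X * t ^ (D - i))
      = ∑ i ∈ range (D + 2), ((if i = 0 then (0 : ℝ) else (D.choose (i - 1) : ℝ)) / 2 ^ D) •
        (t ^ i * X * t ^ (D + 1 - i)) := by
    rw [sum_range_succ' _ (D + 1)]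
    simp only [if_true, zero_div, zero_smul, add_zero]
    apply sum_congr rfl
    intro i _
    rw [if_neg (Nat.succ_ne_zero i)]
    have e1 : D + 1 - (i + 1) = D - i := by omega
    rw [e1, Nat.add_sub_cancel]
  have h3 : ∑ i ∈ range (D + 1), ((D.choose i : ℝ) / 2 ^ D) • (t ^ i * X * t ^ (D + 1 - i))
      = ∑ i ∈ range (D + 2), ((D.choose i : ℝ) / 2 ^ D) • (t ^ i * X * t ^ (D + 1 - i)) := by
    rw [sum_range_succ _ (D + 1)]
    simp
  rw [h1, h2, h3, ← sum_sub_distrib]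
  apply sum_congr rfl
  intro i _
  rw [← sub_smul]
  congr 1
  unfold dch
  ring

/-- smearing a commutator with `t` gains `1/(D+1)` -/
theorem Q.comm_smear {a : ℝ} {t X : Ms M} {n : ℕ} (h : Q a X (t ^ n)) (ht : Prob t)
    (ha : 0 ≤ a) (D : ℕ) :
    Q (4 * a / ((D : ℝ) + 1)) (Sit t D (t * X - X * t)) (t ^ (D + 1 + n)) := by
  rw [lin_Sit_comm_eq]
  have h1 : ∀ i ∈ range (D + 2), Q a (t ^ i * X * t ^ (D + 1 - i)) (t ^ (D + 1 + n)) := by
    intro i hi
    have hi' := mem_range.mp hi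
    have h2 := h.lin_conj ht ha i (D + 1 - i)
    have e : i + n + (D + 1 - i) = D + 1 + n := by omega
    rwa [e] at h2
  have h2 := Q.wsum (c := fun i => -(dch D i / 2 ^ D)) (ht.pos.pow _) ha h1
  refine h2.mono (ht.pos.pow _) ?_
  have h3 : ∑ i ∈ range (D + 2), |(-(dch D i / 2 ^ D))| ≤ 2 / √(D + 1) := by
    refine le_trans (le_of_eq ?_) (dch_abs_le D)
    apply sum_congr rfl
    intro i _
    rw [abs_neg, abs_div, abs_of_pos (by positivity : (0 : ℝ) < 2 ^ D)]
  have h4 : 0 ≤ ∑ i ∈ range (D + 2), |(-(dch D i / 2 ^ D))| := sum_nonneg fun _ _ => abs_nonneg _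
  have h5 : (∑ i ∈ range (D + 2), |(-(dch D i / 2 ^ D))|) ^ 2 ≤ 4 / ((D : ℝ) + 1) := by
    calc (∑ i ∈ range (D + 2), |(-(dch D i / 2 ^ D))|) ^ 2 ≤ (2 / √(D + 1)) ^ 2 :=
          pow_le_pow_left₀ h4 h3 2
      _ = 4 / ((D : ℝ) + 1) := by
        rw [div_pow, Real.sq_sqrt (by positivity)]
        norm_num
  calc (∑ i ∈ range (D + 2), |(-(dch D i / 2 ^ D))|) ^ 2 * a ≤ 4 / ((D : ℝ) + 1) * a :=
        mul_le_mul_of_nonneg_right h5 ha
    _ = 4 * a / ((D : ℝ) + 1) := by ring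

theorem lin_pow_comm_eq (t X : Ms M) (m : ℕ) :
    X * t ^ m - t ^ m * X
      = ∑ j ∈ range m, (-1 : ℝ) • (t ^ j * (t * X - X * t) * t ^ (m - 1 - j)) := by
  induction m with
  | zero => simp
  | succ m ih =>
    rw [sum_range_succ]
    have h1 : ∑ j ∈ range m, (-1 : ℝ) • (t ^ j * (t * X - X * t) * t ^ (m + 1 - 1 - j))
        = (∑ j ∈ range m, (-1 : ℝ) • (t ^ j * (t * X - X * t) * t ^ (m - 1 - j))) * t := by
      rw [sum_mul]
      apply sum_congr rfl
      intro j hj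
      have hj' := mem_range.mp hj
      have e : m + 1 - 1 - j = (m - 1 - j) + 1 := by omega
      rw [e, pow_succ, smul_mul_assoc, mul_assoc _ _ t]
    rw [h1, ← ih]
    have e : m + 1 - 1 - m = 0 := by omega
    rw [e, pow_zero, pow_succ, neg_smul, one_smul]
    noncomm_ring

theorem lin_Sit_sum {ι : Type*} (s : Finset ι) (t : Ms M) (D : ℕ) (f : ι → Ms M) (c : ℝ) :
    Sit t D (∑ j ∈ s, c • f j) = ∑ j ∈ s, c • Sit t D (f j) := by
  classical
  induction s using Finset.induction_on with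
  | empty => simp [Sit_map_zero]
  | insert a s ha ih =>
    rw [sum_insert ha, sum_insert ha, Sit_map_add, Sit_map_smul, ih]

theorem lam_Q (M : Type*) [Monoid M] (K : ℕ) : ∃ C : ℝ, 1 ≤ C ∧
    ∀ (t κ : Ms M) (a : ℝ), Prob t → 0 ≤ a → Q a κ t →
      ∀ D : ℕ, Q (C * a / ((D : ℝ) + 1) ^ K) (Sit t D (lam t κ K)) (t ^ (D + 2 ^ K)) := by
  induction K with
  | zero =>
    refine ⟨1, le_rfl, ?_⟩
    intro t κ a ht ha h D
    have h1 : Q a κ (t ^ 1) := by rwa [pow_one]
    have h2 := h1.sit ht ha D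
    simpa [lam] using h2
  | succ K ih =>
    obtain ⟨C, hC, ih⟩ := ih
    refine ⟨4 ^ K * (4 * 2 ^ (K + 1)) * C, ?_, ?_⟩
    · have h1 : (1 : ℝ) ≤ 4 ^ K := one_le_pow₀ (by norm_num)
      have h2 : (1 : ℝ) ≤ 2 ^ (K + 1) := one_le_pow₀ (by norm_num)
      have h3 : (1 : ℝ) ≤ 4 ^ K * (4 * 2 ^ (K + 1)) := by nlinarith
      nlinarith
    · intro t κ a ht ha h D
      have hC0 : 0 ≤ C := by linarith
      -- energy of the smeared commutator
      have h1 : Q (4 * 2 ^ (K + 1) * C * a / ((D : ℝ) + 1) ^ (K + 1))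
          (Sit t D (t * lam t κ K - lam t κ K * t)) (t ^ (D + 1 + 2 ^ K)) := by
        have h2 := ih t κ a ht ha h (D - D / 2)
        have ha2 : 0 ≤ C * a / (((D - D / 2 : ℕ) : ℝ) + 1) ^ K := by positivity
        have h3 := h2.comm_smear ht ha2 (D / 2)
        have e1 : Sit t (D / 2) (t * Sit t (D - D / 2) (lam t κ K)
            - Sit t (D - D / 2) (lam t κ K) * t) = Sit t D (t * lam t κ K - lam t κ K * t) := by
          have e2 : D = D / 2 + (D - D / 2) := by omega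
          conv_rhs => rw [e2, Sit_add, Sit_map_sub]
          congr 2
          · have := Sit_mul_left t (D - D / 2) 1 (lam t κ K)
            rw [pow_one] at this
            exact this.symm
          · have := Sit_mul_right t (D - D / 2) 1 (lam t κ K)
            rw [pow_one] at this
            exact this.symm
        rw [e1] at h3
        have e3 : D / 2 + 1 + (D - D / 2 + 2 ^ K) = D + 1 + 2 ^ K := by omega
        rw [e3] at h3
        refine h3.mono (ht.pos.pow _) ?_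
        have hd1 : ((D : ℝ) + 1) / 2 ≤ ((D / 2 : ℕ) : ℝ) + 1 := by
          have h4 : D + 1 ≤ 2 * (D / 2 + 1) := by omega
          have h5 : (D : ℝ) + 1 ≤ 2 * (((D / 2 : ℕ) : ℝ) + 1) := by exact_mod_cast h4
          linarith
        have hd2 : ((D : ℝ) + 1) / 2 ≤ ((D - D / 2 : ℕ) : ℝ) + 1 := by
          have h4 : D + 1 ≤ 2 * (D - D / 2 + 1) := by omega
          have h5 : (D : ℝ) + 1 ≤ 2 * (((D - D / 2 : ℕ) : ℝ) + 1) := by exact_mod_cast h4
          linarith
        have hD : (0 : ℝ) < (D : ℝ) + 1 := by positivity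
        calc 4 * (C * a / (((D - D / 2 : ℕ) : ℝ) + 1) ^ K) / (((D / 2 : ℕ) : ℝ) + 1)
            ≤ 4 * (C * a / (((D : ℝ) + 1) / 2) ^ K) / (((D : ℝ) + 1) / 2) := by gcongr
          _ = _ := by
            rw [div_pow, pow_succ, pow_succ]
            field_simp
      -- the sum over the positions
      have e4 : lam t κ (K + 1) = ∑ j ∈ range (2 ^ K),
          (-1 : ℝ) • (t ^ j * (t * lam t κ K - lam t κ K * t) * t ^ (2 ^ K - 1 - j)) := by
        rw [← lin_pow_comm_eq]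
        rfl
      rw [e4, lin_Sit_sum]
      have hb : 0 ≤ 4 * 2 ^ (K + 1) * C * a / ((D : ℝ) + 1) ^ (K + 1) := by positivity
      have h5 : ∀ j ∈ range (2 ^ K), Q (4 * 2 ^ (K + 1) * C * a / ((D : ℝ) + 1) ^ (K + 1))
          (Sit t D (t ^ j * (t * lam t κ K - lam t κ K * t) * t ^ (2 ^ K - 1 - j)))
          (t ^ (D + 2 ^ (K + 1))) := by
        intro j hj
        have hj' := mem_range.mp hj
        rw [Sit_mul_right, Sit_mul_left]
        have h6 := h1.lin_conj ht hb j (2 ^ K - 1 - j)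
        have e5 : j + (D + 1 + 2 ^ K) + (2 ^ K - 1 - j) = D + 2 ^ (K + 1) := by
          rw [pow_succ]; omega
        rwa [e5] at h6
      have h6 := Q.wsum (c := fun _ => (-1 : ℝ)) (ht.pos.pow _) hb h5
      refine h6.mono (ht.pos.pow _) ?_
      rw [abs_neg, abs_one, sum_const, card_range, nsmul_eq_mul, mul_one]
      have e6 : (((2 ^ K : ℕ) : ℝ)) ^ 2 = 4 ^ K := by
        push_cast
        rw [← pow_mul, mul_comm, pow_mul]
        norm_num
      rw [e6]
      exact le_of_eq (by ring)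

theorem lam_smear (M : Type*) [Monoid M] (K : ℕ) : ∃ C : ℝ, 1 ≤ C ∧
    ∀ (t κ : Ms M) (a c : ℝ) (J N : ℕ), Lazy t J c → 0 ≤ a → Q a κ t →
      Q (C * a / (((N : ℝ) + 1) * (c ^ 2 / 2)) ^ K)
        (t ^ ((J + 1) * N) * lam t κ K * t ^ ((J + 1) * N)) (t ^ (2 * ((J + 1) * N) + 2 ^ K)) := by
  obtain ⟨C, hC, h⟩ := lam_Q M K
  refine ⟨C * K.factorial, ?_, ?_⟩
  · have h1 : (1 : ℝ) ≤ (K.factorial : ℝ) := by exact_mod_cast Nat.factorial_pos K
    nlinarith
  · intro t κ a c J N ht ha hQ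
    have hC0 : 0 ≤ C := by linarith
    have hx0 : 0 < c ^ 2 / 2 := by have := ht.c_pos; positivity
    have hx1 : c ^ 2 / 2 ≤ 1 := by
      have h1 := ht.c_pos
      have h2 := ht.c_le
      nlinarith
    have h1 := smear ht (ht.prob.pos.pow (2 ^ K)) (Commute.pow_right (Commute.refl t) (2 ^ K))
      (e := fun D => C * a / ((D : ℝ) + 1) ^ K) (fun D => by positivity)
      (fun D => by
        have := h t κ a ht.prob ha hQ D
        rwa [pow_add] at this) N
    rw [← pow_add] at h1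
    refine h1.mono (ht.prob.pos.pow _) ?_
    have e1 : (fun D : ℕ => C * a / ((D : ℝ) + 1) ^ K)
        = fun D : ℕ => (C * a) * (1 / ((D : ℝ) + 1) ^ K) := by
      funext D; ring
    rw [e1, Bsum_mul]
    have h2 := Bsum_inv_pow (N := N) (k := K) hx0 hx1
    calc C * a * Bsum N (c ^ 2 / 2) (fun D => 1 / ((D : ℝ) + 1) ^ K)
        ≤ C * a * (K.factorial / (((N : ℝ) + 1) * (c ^ 2 / 2)) ^ K) :=
          mul_le_mul_of_nonneg_left h2 (by positivity)
      _ = _ := by ring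

end Vale.Agent.P321S
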