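import Vale.Agent.Lib.P321S.Base

/-! Module SMEAR (section 1 of docs P321). -/

namespace Vale.Agent.P321S

open Finset

variable {M : Type*} [Monoid M]

/-- probability measures -/
structure Prob (t : Ms M) : Prop where
  pos : Pos t
  mass_eq : mass t = 1

theorem Prob.one : Prob (1 : Ms M) := ⟨pos_one, mass_one⟩

theorem Prob.mul {t t' : Ms M} (h : Prob t) (h' : Prob t') : Prob (t * t') :=
  ⟨h.pos.mul h'.pos, by rw [mass_mul, h.mass_eq, h'.mass_eq, one_mul]⟩

theorem Prob.pow {t : Ms M} (h : Prob t) (n : ℕ) : Prob (t ^ n) :=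
  ⟨h.pos.pow n, by rw [mass_pow, h.mass_eq, one_pow]⟩

theorem Prob.q_pow {t : Ms M} (h : Prob t) (n : ℕ) : Q 1 (t ^ n) (t ^ n) :=
  Vale.Agent.P321S.q_pow h.pos h.mass_eq n

omit [Monoid M] in
theorem Prob.n1 {t : Ms M} (h : Prob t) : N1 1 t := by
  have := h.pos.n1
  rwa [h.mass_eq] at this

/-- symmetrised multiplication by `t` -/
noncomputable def S (t X : Ms M) : Ms M := (1 / 2 : ℝ) • (t * X + X * t)

/-- `D`-fold iterate of `S t` -/
noncomputable def Sit (t : Ms M) (D : ℕ) (X : Ms M) : Ms M := (S t)^[D] X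

/-- binomial average of `e` -/
noncomputable def Bsum (N : ℕ) (x : ℝ) (e : ℕ → ℝ) : ℝ :=
  ∑ D ∈ range (N + 1), (N.choose D : ℝ) * x ^ D * (1 - x) ^ (N - D) * e D

/-- laziness: `t^(J+1)` and `t^J` overlap by at least `c` -/
structure Lazy (t : Ms M) (J : ℕ) (c : ℝ) : Prop where
  prob : Prob t
  c_pos : 0 < c
  c_le : c ≤ 1
  n1 : N1 (2 * (1 - c)) (t ^ (J + 1) - t ^ J)

theorem Sit_zero (t X : Ms M) : Sit t 0 X = X := rfl

theorem Sit_succ (t : Ms M) (D : ℕ) (X : Ms M) : Sit t (D + 1) X = Sit t D (S t X) :=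
  Function.iterate_succ_apply _ _ _

theorem Sit_succ' (t : Ms M) (D : ℕ) (X : Ms M) : Sit t (D + 1) X = S t (Sit t D X) :=
  Function.iterate_succ_apply' _ _ _

theorem Sit_add (t : Ms M) (D D' : ℕ) (X : Ms M) : Sit t (D + D') X = Sit t D (Sit t D' X) :=
  Function.iterate_add_apply _ _ _ _

theorem S_add (t X Y : Ms M) : S t (X + Y) = S t X + S t Y := by
  unfold S
  rw [mul_add, add_mul, ← smul_add]
  congr 1
  abel

theorem S_smul (t X : Ms M) (c : ℝ) : S t (c • X) = c • S t X := by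
  unfold S
  rw [mul_smul_comm, smul_mul_assoc, ← smul_add, smul_comm]

theorem Sit_map_add (t : Ms M) (D : ℕ) (X Y : Ms M) :
    Sit t D (X + Y) = Sit t D X + Sit t D Y := by
  induction D generalizing X Y with
  | zero => rfl
  | succ D ih => rw [Sit_succ, Sit_succ, Sit_succ, S_add, ih]

theorem Sit_map_smul (t : Ms M) (D : ℕ) (X : Ms M) (c : ℝ) :
    Sit t D (c • X) = c • Sit t D X := by
  induction D generalizing X with
  | zero => rfl
  | succ D ih => rw [Sit_succ, Sit_succ, S_smul, ih]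

theorem Sit_map_sub (t : Ms M) (D : ℕ) (X Y : Ms M) :
    Sit t D (X - Y) = Sit t D X - Sit t D Y := by
  have h1 : X - Y = X + (-1 : ℝ) • Y := by simp [sub_eq_add_neg]
  rw [h1, Sit_map_add, Sit_map_smul]
  simp [sub_eq_add_neg]

theorem Sit_map_zero (t : Ms M) (D : ℕ) : Sit t D (0 : Ms M) = 0 := by
  have := Sit_map_smul t D (0 : Ms M) 0
  rwa [zero_smul, zero_smul] at this

theorem S_mul_left (t : Ms M) (k : ℕ) (X : Ms M) : S t (t ^ k * X) = t ^ k * S t X := by
  unfold S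
  rw [mul_smul_comm, mul_add, ← mul_assoc t, ← pow_succ', pow_succ, mul_assoc, mul_assoc]

theorem S_mul_right (t : Ms M) (k : ℕ) (X : Ms M) : S t (X * t ^ k) = S t X * t ^ k := by
  unfold S
  rw [smul_mul_assoc, add_mul, mul_assoc X, ← pow_succ, pow_succ', ← mul_assoc X, ← mul_assoc]

/-- `S` commutes with left and right multiplication by powers of `t` -/
theorem Sit_mul_left (t : Ms M) (D k : ℕ) (X : Ms M) :
    Sit t D (t ^ k * X) = t ^ k * Sit t D X := by
  induction D generalizing X with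
  | zero => rfl
  | succ D ih => rw [Sit_succ, Sit_succ, S_mul_left, ih]

theorem Sit_mul_right (t : Ms M) (D k : ℕ) (X : Ms M) :
    Sit t D (X * t ^ k) = Sit t D X * t ^ k := by
  induction D generalizing X with
  | zero => rfl
  | succ D ih => rw [Sit_succ, Sit_succ, S_mul_right, ih]

theorem Sit_eq_sum (t : Ms M) (D : ℕ) (X : Ms M) :
    Sit t D X = ∑ i ∈ range (D + 1), ((D.choose i : ℝ) / 2 ^ D) • (t ^ i * X * t ^ (D - i)) := by
  have h1 : ∀ X : Ms M, (2 : ℝ) ^ D • Sit t D X =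
      ((LinearMap.mulLeft ℝ t + LinearMap.mulRight ℝ t) ^ D) X := by
    intro X
    induction D with
    | zero => simp [Sit_zero]
    | succ D ih =>
      rw [Sit_succ', pow_succ' (LinearMap.mulLeft ℝ t + LinearMap.mulRight ℝ t),
        Module.End.mul_apply, ← ih, map_smul, pow_succ, mul_smul]
      congr 1
      simp only [S, LinearMap.add_apply, LinearMap.mulLeft_apply, LinearMap.mulRight_apply]
      rw [smul_smul]
      norm_num
  have h2 : ((LinearMap.mulLeft ℝ t + LinearMap.mulRight ℝ t) ^ D) X =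
      ∑ i ∈ range (D + 1), (D.choose i : ℝ) • (t ^ i * X * t ^ (D - i)) := by
    rw [(LinearMap.commute_mulLeft_right (R := ℝ) t t).add_pow, LinearMap.sum_apply]
    apply Finset.sum_congr rfl
    intro i _
    rw [Module.End.mul_apply, Module.End.mul_apply, LinearMap.pow_mulLeft,
      LinearMap.pow_mulRight, LinearMap.mulLeft_apply, LinearMap.mulRight_apply]
    have : ((D.choose i : Module.End ℝ (Ms M))) X = (D.choose i : ℝ) • X := by
      rw [Module.End.natCast_apply, Nat.cast_smul_eq_nsmul]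
    rw [this, smul_mul_assoc, mul_smul_comm, mul_assoc]
  have h3 : Sit t D X = ((2 : ℝ) ^ D)⁻¹ • ((2 : ℝ) ^ D • Sit t D X) := by
    rw [smul_smul, inv_mul_cancel₀ (by positivity), one_smul]
  rw [h3, h1, h2, Finset.smul_sum]
  apply Finset.sum_congr rfl
  intro i _
  rw [smul_smul]
  congr 1
  ring

theorem Q.s {a : ℝ} {t X : Ms M} {n : ℕ} (h : Q a X (t ^ n)) (ht : Prob t) (ha : 0 ≤ a) :
    Q a (S t X) (t ^ (n + 1)) := by
  have ht1 : Q 1 t t := by
    have := ht.q_pow 1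
    rwa [pow_one] at this
  have h1 := ht1.mul h ht.pos zero_le_one
  have h2 := h.mul ht1 (ht.pos.pow n) ha
  rw [one_mul, ← pow_succ'] at h1
  rw [mul_one, ← pow_succ] at h2
  intro f
  unfold S
  rw [pr_smul, pr_add]
  have e1 := h1 f
  have e2 := h2 f
  nlinarith [sq_nonneg (pr (t * X) f - pr (X * t) f)]

/-- `Sit` does not increase the energy -/
theorem Q.sit {a : ℝ} {t X : Ms M} {n : ℕ} (h : Q a X (t ^ n)) (ht : Prob t) (ha : 0 ≤ a)
    (D : ℕ) : Q a (Sit t D X) (t ^ (D + n)) := by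
  induction D with
  | zero => rwa [Sit_zero, zero_add]
  | succ D ih =>
    rw [Sit_succ', show D + 1 + n = D + n + 1 by omega]
    exact ih.s ht ha

theorem Bsum_zero (x : ℝ) (e : ℕ → ℝ) : Bsum 0 x e = e 0 := by
  simp [Bsum]

/-- Pascal recursion -/
theorem Bsum_succ (N : ℕ) (x : ℝ) (e : ℕ → ℝ) :
    Bsum (N + 1) x e = x * Bsum N x (fun D => e (D + 1)) + (1 - x) * Bsum N x e := by
  unfold Bsum
  rw [Finset.sum_range_succ' _ (N + 1), Finset.mul_sum, Finset.mul_sum,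
    Finset.sum_range_succ' (fun D => (1 - x) * ((N.choose D : ℝ) * x ^ D * (1 - x) ^ (N - D) * e D)) N]
  have e1 : ∑ D ∈ range (N + 1), ((N + 1).choose (D + 1) : ℝ) * x ^ (D + 1) *
      (1 - x) ^ (N + 1 - (D + 1)) * e (D + 1) =
      ∑ D ∈ range (N + 1), x * ((N.choose D : ℝ) * x ^ D * (1 - x) ^ (N - D) * e (D + 1)) +
      ∑ D ∈ range (N + 1), (N.choose (D + 1) : ℝ) * x ^ (D + 1) * (1 - x) ^ (N - D) * e (D + 1) := by
    rw [← Finset.sum_add_distrib]
    apply Finset.sum_congr rfl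
    intro D _
    rw [Nat.choose_succ_succ, Nat.add_sub_add_right]
    push_cast
    ring
  rw [e1, Finset.sum_range_succ (fun D => (N.choose (D + 1) : ℝ) * x ^ (D + 1) *
    (1 - x) ^ (N - D) * e (D + 1)) N, Nat.choose_succ_self]
  have e2 : ∀ D ∈ range N, (N.choose (D + 1) : ℝ) * x ^ (D + 1) * (1 - x) ^ (N - D) * e (D + 1) =
      (1 - x) * ((N.choose (D + 1) : ℝ) * x ^ (D + 1) * (1 - x) ^ (N - (D + 1)) * e (D + 1)) := by
    intro D hD
    have : N - D = N - (D + 1) + 1 := by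
      have := Finset.mem_range.1 hD
      omega
    rw [this, pow_succ]
    ring
  rw [Finset.sum_congr rfl e2]
  simp only [Nat.choose_zero_right, Nat.cast_one, pow_zero, Nat.sub_zero, Nat.cast_zero]
  ring

theorem Bsum_nonneg {N : ℕ} {x : ℝ} {e : ℕ → ℝ} (hx0 : 0 ≤ x) (hx1 : x ≤ 1)
    (he : ∀ D, 0 ≤ e D) : 0 ≤ Bsum N x e := by
  have hx : 0 ≤ 1 - x := by linarith
  exact Finset.sum_nonneg fun D _ => mul_nonneg (by positivity) (he D)

theorem Bsum_mono {N : ℕ} {x : ℝ} {e e' : ℕ → ℝ} (hx0 : 0 ≤ x) (hx1 : x ≤ 1)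
    (he : ∀ D, e D ≤ e' D) : Bsum N x e ≤ Bsum N x e' := by
  have hx : 0 ≤ 1 - x := by linarith
  exact Finset.sum_le_sum fun D _ => mul_le_mul_of_nonneg_left (he D) (by positivity)

theorem Bsum_mul (N : ℕ) (x : ℝ) (a : ℝ) (e : ℕ → ℝ) :
    Bsum N x (fun D => a * e D) = a * Bsum N x e := by
  unfold Bsum
  rw [Finset.mul_sum]
  apply Finset.sum_congr rfl
  intro D _
  ring

theorem sandwich_split {t T U Z P P' : Ms M} (h1 : T = (1 / 2 : ℝ) • (U + U * t) + P)
    (h2 : T = (1 / 2 : ℝ) • (U + t * U) + P') :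
    T * Z * T = (1 / 2 : ℝ) • (U * S t Z * U) + (1 / 4 : ℝ) • (U * Z * U) +
      (1 / 4 : ℝ) • ((U * t) * Z * (t * U)) + ((1 / 2 : ℝ) • (U + U * t)) * Z * P' +
      P * Z * ((1 / 2 : ℝ) • (U + t * U)) + P * Z * P' := by
  have e : T * Z * T = ((1 / 2 : ℝ) • (U + U * t) + P) * Z * ((1 / 2 : ℝ) • (U + t * U) + P') := by
    rw [← h1, ← h2]
  rw [e]
  unfold S
  simp only [add_mul, mul_add, smul_mul_assoc, mul_smul_comm, smul_add, smul_smul, mul_assoc]
  norm_num
  module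

/-- the overlap decomposition of `t ^ (J + 1)` -/
theorem Lazy.split {t : Ms M} {J : ℕ} {c : ℝ} (ht : Lazy t J c) :
    ∃ U P P' : Ms M, Pos U ∧ Pos P ∧ Pos P' ∧ mass U = c ∧ mass P = 1 - c ∧ mass P' = 1 - c ∧
      t ^ (J + 1) = (1 / 2 : ℝ) • (U + U * t) + P ∧
      t ^ (J + 1) = (1 / 2 : ℝ) • (U + t * U) + P' := by
  obtain ⟨U, hU, hU1, hU2, hUm⟩ := exists_overlap (ht.prob.pow (J + 1)).pos (ht.prob.pow J).pos
    (ht.prob.pow (J + 1)).mass_eq (ht.prob.pow J).mass_eq ht.c_pos.le ht.n1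
  have hV' : Pos (t ^ (J + 1) - U) := dom_iff_pos.1 hU1
  have hV : Pos (t ^ J - U) := dom_iff_pos.1 hU2
  have m1 := (ht.prob.pow (J + 1)).mass_eq
  have m2 := (ht.prob.pow J).mass_eq
  have m3 := ht.prob.mass_eq
  refine ⟨U, (1 / 2 : ℝ) • ((t ^ J - U) * t + (t ^ (J + 1) - U)),
    (1 / 2 : ℝ) • (t * (t ^ J - U) + (t ^ (J + 1) - U)), hU, ?_, ?_, hUm, ?_, ?_, ?_, ?_⟩
  · exact ((hV.mul ht.prob.pos).add hV').smul (by norm_num)
  · exact ((ht.prob.pos.mul hV).add hV').smul (by norm_num)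
  · rw [mass_smul, mass_add, mass_mul, mass_sub, mass_sub, m1, m2, m3, hUm]
    ring
  · rw [mass_smul, mass_add, mass_mul, mass_sub, mass_sub, m1, m2, m3, hUm]
    ring
  · rw [sub_mul, ← pow_succ]
    module
  · rw [mul_sub, ← pow_succ']
    module

/-- LEMMA 1: two-sided smearing. -/
theorem smear {t X Y : Ms M} {J : ℕ} {c : ℝ} (ht : Lazy t J c) (hY : Pos Y)
    (hc : Commute t Y) {e : ℕ → ℝ} (he : ∀ D, 0 ≤ e D)
    (h : ∀ D, Q (e D) (Sit t D X) (t ^ D * Y)) (N : ℕ) :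
    Q (Bsum N (c ^ 2 / 2) e) (t ^ ((J + 1) * N) * X * t ^ ((J + 1) * N))
      (t ^ (2 * ((J + 1) * N)) * Y) := by
  have hc0 := ht.c_pos
  have hc1 := ht.c_le
  have hx0 : 0 ≤ c ^ 2 / 2 := by positivity
  have hx1 : c ^ 2 / 2 ≤ 1 := by nlinarith
  obtain ⟨U, P, P', hU, hP, hP', mU, mP, mP', s1, s2⟩ := ht.split
  induction N generalizing X Y e with
  | zero =>
    have := h 0
    rw [Sit_zero, pow_zero] at this
    simpa [Bsum_zero] using this
  | succ N ih =>
    obtain ⟨T, hT⟩ : ∃ T : Ms M, T = t ^ (J + 1) := ⟨_, rfl⟩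
    have hr1 : (J + 1) * (N + 1) = (J + 1) + (J + 1) * N := by ring
    have hr2 : (J + 1) * (N + 1) = (J + 1) * N + (J + 1) := by ring
    have hr3 : 2 * ((J + 1) * (N + 1)) = (J + 1) + ((J + 1) + 2 * ((J + 1) * N)) := by ring
    obtain ⟨r, hr⟩ : ∃ r : ℕ, r = (J + 1) * N := ⟨_, rfl⟩
    rw [← hr] at hr1 hr2 hr3 ih
    obtain ⟨k, hk⟩ : ∃ k : ℕ, k = 2 * r := ⟨_, rfl⟩
    rw [← hk] at hr3 ih
    obtain ⟨Z, hZ⟩ : ∃ Z : Ms M, Z = t ^ r * X * t ^ r := ⟨_, rfl⟩
    obtain ⟨W, hW⟩ : ∃ W : Ms M, W = t ^ k * Y := ⟨_, rfl⟩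
    have hWpos : Pos W := by rw [hW]; exact (ht.prob.pos.pow _).mul hY
    have hWc : W * t = t * W := by
      rw [hW]
      exact (((Commute.refl t).pow_right k).mul_right hc).eq.symm
    have hSW : S t W = t * W := by
      unfold S
      rw [hWc, ← two_smul ℝ (t * W), smul_smul]
      norm_num
    have e1 : t ^ ((J + 1) * (N + 1)) * X * t ^ ((J + 1) * (N + 1)) = T * Z * T := by
      calc t ^ ((J + 1) * (N + 1)) * X * t ^ ((J + 1) * (N + 1)) =
            t ^ ((J + 1) + r) * X * t ^ (r + (J + 1)) := by rw [← hr1, ← hr2]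
        _ = T * Z * T := by
            rw [hZ, hT]
            simp only [pow_add, mul_assoc]
    have hWT : W * T = T * W := by
      rw [hT]
      exact ((show Commute W t from hWc).pow_right (J + 1)).eq
    have e2 : t ^ (2 * ((J + 1) * (N + 1))) * Y = T * W * T := by
      rw [mul_assoc, hWT, hW, hT, hr3]
      simp only [pow_add, mul_assoc]
    rw [e1, e2, hT, sandwich_split s1 s2 (Z := Z), sandwich_split s1 s2 (Z := W), hSW]
    -- the two induction hypotheses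
    have i0 : Q (Bsum N (c ^ 2 / 2) e) Z W := by
      rw [hZ, hW]
      exact ih hY hc he h
    have i1 : Q (Bsum N (c ^ 2 / 2) (fun D => e (D + 1))) (S t Z) (t * W) := by
      have h1 := ih (X := S t X) (Y := t * Y) (e := fun D => e (D + 1)) (ht.prob.pos.mul hY)
        ((Commute.refl t).mul_right hc) (fun D => he (D + 1)) (fun D => by
          have := h (D + 1)
          rw [Sit_succ, pow_succ, mul_assoc] at this
          exact this)
      have h2 : t * W = t ^ k * (t * Y) := by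
        rw [hW, ← mul_assoc, ← mul_assoc, ← pow_succ', ← pow_succ]
      rw [hZ, S_mul_right, S_mul_left, h2]
      exact h1
    obtain ⟨B0, hB0⟩ : ∃ B0 : ℝ, B0 = Bsum N (c ^ 2 / 2) e := ⟨_, rfl⟩
    obtain ⟨B1, hB1⟩ : ∃ B1 : ℝ, B1 = Bsum N (c ^ 2 / 2) (fun D => e (D + 1)) := ⟨_, rfl⟩
    have b0 : 0 ≤ B0 := by rw [hB0]; exact Bsum_nonneg hx0 hx1 he
    have b1 : 0 ≤ B1 := by rw [hB1]; exact Bsum_nonneg hx0 hx1 (fun D => he (D + 1))
    rw [Bsum_succ, ← hB0, ← hB1]
    rw [← hB0] at i0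
    rw [← hB1] at i1
    have htW : Pos (t * W) := ht.prob.pos.mul hWpos
    have hUt : Pos (U * t) := hU.mul ht.prob.pos
    have htU : Pos (t * U) := ht.prob.pos.mul hU
    have hP1 : Pos ((1 / 2 : ℝ) • (U + U * t)) := (hU.add hUt).smul (by norm_num)
    have hP1' : Pos ((1 / 2 : ℝ) • (U + t * U)) := (hU.add htU).smul (by norm_num)
    have mP1 : mass ((1 / 2 : ℝ) • (U + U * t)) = c := by
      rw [mass_smul, mass_add, mass_mul, mU, ht.prob.mass_eq]; ring
    have mP1' : mass ((1 / 2 : ℝ) • (U + t * U)) = c := by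
      rw [mass_smul, mass_add, mass_mul, mU, ht.prob.mass_eq]; ring
    have mUt : mass (U * t) = c := by rw [mass_mul, mU, ht.prob.mass_eq, mul_one]
    have mtU : mass (t * U) = c := by rw [mass_mul, mU, ht.prob.mass_eq, one_mul]
    have q1 := (i1.sandwich b1 htW hU hU).smul_both (c := 1 / 2)
    have q2 := (i0.sandwich b0 hWpos hU hU).smul_both (c := 1 / 4)
    have q3 := (i0.sandwich b0 hWpos hUt htU).smul_both (c := 1 / 4)
    have q4 := i0.sandwich b0 hWpos hP1 hP'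
    have q5 := i0.sandwich b0 hWpos hP hP1'
    have q6 := i0.sandwich b0 hWpos hP hP'
    rw [mU] at q1 q2
    rw [mUt, mtU] at q3
    rw [mP1, mP'] at q4
    rw [mP, mP1'] at q5
    rw [mP, mP'] at q6
    have hc1' : 0 ≤ 1 - c := by linarith
    have w1 : Pos ((1 / 2 : ℝ) • (U * (t * W) * U)) := ((hU.mul htW).mul hU).smul (by norm_num)
    have w2 : Pos ((1 / 4 : ℝ) • (U * W * U)) := ((hU.mul hWpos).mul hU).smul (by norm_num)
    have w3 : Pos ((1 / 4 : ℝ) • ((U * t) * W * (t * U))) :=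
      ((hUt.mul hWpos).mul htU).smul (by norm_num)
    have w4 : Pos (((1 / 2 : ℝ) • (U + U * t)) * W * P') := (hP1.mul hWpos).mul hP'
    have w5 : Pos (P * W * ((1 / 2 : ℝ) • (U + t * U))) := (hP.mul hWpos).mul hP1'
    have w6 : Pos (P * W * P') := (hP.mul hWpos).mul hP'
    have n1 : 0 ≤ 1 / 2 * (c * c * B1) := by positivity
    have n2 : 0 ≤ 1 / 4 * (c * c * B0) := by positivity
    have n4 : 0 ≤ c * (1 - c) * B0 := by positivity
    have n5 : 0 ≤ (1 - c) * c * B0 := by positivity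
    have n6 : 0 ≤ (1 - c) * (1 - c) * B0 := by positivity
    have r := ((((q1.mix q2 w1 w2 n1 n2).mix q3 (w1.add w2) w3 (add_nonneg n1 n2) n2).mix q4
      ((w1.add w2).add w3) w4 (add_nonneg (add_nonneg n1 n2) n2) n4).mix q5
      (((w1.add w2).add w3).add w4) w5 (add_nonneg (add_nonneg (add_nonneg n1 n2) n2) n4) n5).mix
      q6 ((((w1.add w2).add w3).add w4).add w5) w6
      (add_nonneg (add_nonneg (add_nonneg (add_nonneg n1 n2) n2) n4) n5) n6
    have e3 : 1 / 2 * (c * c * B1) + 1 / 4 * (c * c * B0) + 1 / 4 * (c * c * B0) +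
        c * (1 - c) * B0 + (1 - c) * c * B0 + (1 - c) * (1 - c) * B0 =
        c ^ 2 / 2 * B1 + (1 - c ^ 2 / 2) * B0 := by ring
    rw [e3] at r
    exact r

/-- one-sided smearing in `L¹` -/
theorem smear_one {t X : Ms M} {J : ℕ} {c : ℝ} (ht : Lazy t J c) {e : ℕ → ℝ}
    (h : ∀ D, N1 (e D) (((1 / 2 : ℝ) • (1 + t)) ^ D * X)) (N : ℕ) :
    N1 (Bsum N c e) (t ^ ((J + 1) * N) * X) := by
  obtain ⟨U, P, P', hU, hP, hP', mU, mP, mP', s1, s2⟩ := ht.split
  induction N generalizing X e with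
  | zero =>
    have := h 0
    rw [pow_zero, one_mul] at this
    simpa [Bsum_zero] using this
  | succ N ih =>
    have hr1 : (J + 1) * (N + 1) = (J + 1) + (J + 1) * N := by ring
    obtain ⟨r, hr⟩ : ∃ r : ℕ, r = (J + 1) * N := ⟨_, rfl⟩
    rw [← hr] at hr1 ih
    have i0 := ih h
    have i1 := ih (X := ((1 / 2 : ℝ) • (1 + t)) * X) (e := fun D => e (D + 1)) (fun D => by
      have := h (D + 1)
      rwa [pow_succ, mul_assoc] at this)
    have hU1 := hU.n1
    have hP1 := hP.n1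
    rw [mU] at hU1
    rw [mP] at hP1
    rw [Bsum_succ]
    have e1 : t ^ ((J + 1) * (N + 1)) * X =
        U * (t ^ r * (((1 / 2 : ℝ) • (1 + t)) * X)) + P * (t ^ r * X) := by
      have hcm : t * t ^ r = t ^ r * t := by rw [← pow_succ, ← pow_succ']
      rw [hr1, pow_add, s1]
      simp only [mul_add, add_mul, smul_mul_assoc, mul_smul_comm, one_mul, mul_assoc,
        smul_add]
      rw [← mul_assoc t, hcm, mul_assoc]
    rw [e1]
    exact (hU1.mul i1).add (hP1.mul i0)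

end Vale.Agent.P321S
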