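import Vale.Agent.Lib.P321S.TM
import Vale.Agent.Lib.P321S.LazyUp

/-! Module TWOLEVEL (section 7 of docs P321). -/

namespace Vale.Agent.P321S

open Finset

variable {M : Type*} [Monoid M]

/-- two-level data -/
structure Two (t t' ν' : Ms M) (J Λ : ℕ) (c U ε : ℝ) : Prop where
  lazy : Lazy t J c
  hΛ : J + 1 ≤ Λ
  t'_prob : Prob t'
  ν'_prob : Prob ν'
  U_nonneg : 0 ≤ U
  ε_nonneg : 0 ≤ ε
  ε_le : ε ≤ 1
  hU : Q U (t' - ν') ν'
  base : Dom ((1 - ε) • t ^ Λ) ν'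

/-- two-level class: `X` (a polynomial in the cells of the upper level) has energy `a` relative
to `ν'^k` and is, up to relative error `δ`, a good element of the lower level. -/
def CG (t ν' : Ms M) (Λ : ℕ) (δ : ℝ) (a : ℝ) (k : ℕ) (X : Ms M) : Prop :=
  ∃ X' : Ms M, Q (a * δ) (X - X') (ν' ^ k) ∧ Gd t a (Λ * k) X' ∧ Q a X (ν' ^ k)

theorem Two.dom_aux {t t' ν' : Ms M} {J Λ : ℕ} {c U ε : ℝ} (h : Two t t' ν' J Λ c U ε) (k : ℕ) :
    Dom ((1 - ε) ^ k • t ^ (Λ * k)) (ν' ^ k) := by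
  have h1 : Pos ((1 - ε) • t ^ Λ) :=
    (h.lazy.prob.pos.pow Λ).smul (sub_nonneg.2 h.ε_le)
  have h2 := h.base.pow h1 h.ν'_prob.pos k
  rwa [smul_pow, ← pow_mul] at h2

theorem Two.dom_pow {t t' ν' : Ms M} {J Λ : ℕ} {c U ε : ℝ} (h : Two t t' ν' J Λ c U ε)
    {k : ℕ} (hk : k * ε ≤ 1 / 2) : Dom (t ^ (Λ * k)) ((2 : ℝ) • ν' ^ k) := by
  have h1 := h.dom_aux k
  have h2 : (1 / 2 : ℝ) ≤ (1 - ε) ^ k := by
    have := one_add_mul_le_pow (a := -ε) (by linarith [h.ε_le]) k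
    have e : (1 + -ε) = 1 - ε := by ring
    rw [e] at this
    linarith
  have h3 : Dom (t ^ (Λ * k)) ((2 * (1 - ε) ^ k) • t ^ (Λ * k)) := by
    have := Dom.smul_right (h.lazy.prob.pos.pow (Λ * k)) (c := 1) (d := 2 * (1 - ε) ^ k)
      (by linarith)
    rwa [one_smul] at this
  refine h3.trans ?_
  rw [mul_smul]
  exact h1.smul (by norm_num)

theorem Two.q_pow {t t' ν' : Ms M} {J Λ : ℕ} {c U ε : ℝ} (h : Two t t' ν' J Λ c U ε)
    {k : ℕ} (hk : k * U ≤ 1 / 2) : Q 2 (t' ^ k) (ν' ^ k) := by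
  have hu : mass (t' - ν') = 0 := by
    rw [mass_sub, h.t'_prob.mass_eq, h.ν'_prob.mass_eq, sub_self]
  have h1 := (Q.pow_sub_add h.ν'_prob hu h.U_nonneg h.hU k).2
  rw [add_sub_cancel] at h1
  have h2 := one_add_pow_le (n := k) h.U_nonneg (by linarith)
  exact h1.mono (h.ν'_prob.pos.pow k) (by linarith)

theorem Two.q_pow_sub {t t' ν' : Ms M} {J Λ : ℕ} {c U ε : ℝ} (h : Two t t' ν' J Λ c U ε)
    {k : ℕ} (hk : k * U ≤ 1 / 2) (hk2 : (k : ℝ) ^ 2 * ε ≤ U) (hk3 : k * ε ≤ 1 / 2) :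
    Q (20 * k * U) (t' ^ k - t ^ (Λ * k)) (ν' ^ k) := by
  rcases Nat.eq_zero_or_pos k with hk0 | hkpos
  · subst hk0
    simp only [pow_zero, mul_zero, sub_self]
    exact Q.zero (by simp) pos_one
  have hk1 : (1 : ℝ) ≤ k := by exact_mod_cast hkpos
  have hU := h.U_nonneg
  have hε := h.ε_nonneg
  have hpos := h.ν'_prob.pos.pow k
  have hu : mass (t' - ν') = 0 := by
    rw [mass_sub, h.t'_prob.mass_eq, h.ν'_prob.mass_eq, sub_self]
  have hkU0 : 0 ≤ k * U := by positivity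
  have hkε0 : 0 ≤ k * ε := by positivity
  have h1 := (Q.pow_sub_add h.ν'_prob hu h.U_nonneg h.hU k).1
  rw [add_sub_cancel] at h1
  have h1' : Q (2 * (k * U)) (t' ^ k - ν' ^ k) (ν' ^ k) :=
    h1.mono hpos (one_add_pow_le (n := k) h.U_nonneg (by linarith))
  have hs1 : 1 - (1 - ε) ^ k ≤ k * ε := by
    have := one_add_mul_le_pow (a := -ε) (by linarith [h.ε_le]) k
    have e : (1 + -ε) = 1 - ε := by ring
    rw [e] at this
    linarith
  have hs0 : 0 ≤ 1 - (1 - ε) ^ k := by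
    have : (1 - ε) ^ k ≤ 1 := pow_le_one₀ (by linarith [h.ε_le]) (by linarith)
    linarith
  set s : ℝ := 1 - (1 - ε) ^ k with hs
  have htm : mass (t ^ (Λ * k)) = 1 := (h.lazy.prob.pow (Λ * k)).mass_eq
  have hP : Pos (ν' ^ k - (1 - ε) ^ k • t ^ (Λ * k)) := dom_iff_pos.1 (h.dom_aux k)
  have hPm : mass (ν' ^ k - (1 - ε) ^ k • t ^ (Λ * k)) = s := by
    rw [mass_sub, mass_smul, htm, (h.ν'_prob.pow k).mass_eq, mul_one]
  have htpos : Pos ((1 - ε) ^ k • t ^ (Λ * k)) :=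
    (h.lazy.prob.pos.pow _).smul (pow_nonneg (by linarith [h.ε_le]) _)
  have h2 : Q (k * ε) (ν' ^ k - (1 - ε) ^ k • t ^ (Λ * k)) (ν' ^ k) := by
    have h3 := hP.q_dom (ν := ν' ^ k) (by
      rw [dom_iff_pos]
      have e : ν' ^ k - (ν' ^ k - (1 - ε) ^ k • t ^ (Λ * k)) = (1 - ε) ^ k • t ^ (Λ * k) := by
        abel
      rw [e]; exact htpos)
    rw [hPm] at h3
    exact h3.mono hpos hs1
  have h4 : Q (k * ε) (s • t ^ (Λ * k)) (ν' ^ k) := by
    have h5 := (h.lazy.prob.q_pow (Λ * k)).dom_smul (by norm_num) (h.dom_pow hk3)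
    have h6 := h5.smul_left s
    refine h6.mono hpos ?_
    have h7 : s ^ 2 ≤ (k * ε) * (1 / 2) := by nlinarith
    linarith
  have h5 := h2.sub' h4 hpos hkε0 hkε0
  have e1 : ν' ^ k - (1 - ε) ^ k • t ^ (Λ * k) - s • t ^ (Λ * k) = ν' ^ k - t ^ (Λ * k) := by
    rw [hs, sub_smul, one_smul]; abel
  rw [e1] at h5
  have h6 := h1'.add' h5 hpos (by positivity) (by positivity)
  rw [sub_add_sub_cancel] at h6
  refine h6.mono hpos ?_
  have h7 : k * ε ≤ U := by nlinarith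
  nlinarith

/-- basic facts for the two-level class -/
theorem Two.facts {t t' ν' : Ms M} {J Λ : ℕ} {c U ε : ℝ} (h : Two t t' ν' J Λ c U ε)
    {R : ℕ} (hR : 1 ≤ R) (h1 : R * U ≤ 1 / 20) (h2 : (R : ℝ) ^ 2 * ε ≤ U) {k : ℕ} (hk : k ≤ R) :
    k * U ≤ 1 / 2 ∧ (k : ℝ) ^ 2 * ε ≤ U ∧ k * ε ≤ 1 / 2 := by
  have hU := h.U_nonneg
  have hε := h.ε_nonneg
  have hR1 : (1 : ℝ) ≤ R := by exact_mod_cast hR
  have hkR : (k : ℝ) ≤ R := by exact_mod_cast hk
  have hk0 : (0 : ℝ) ≤ k := Nat.cast_nonneg k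
  have a1 : k * U ≤ R * U := mul_le_mul_of_nonneg_right hkR hU
  have a2 : (k : ℝ) ^ 2 * ε ≤ (R : ℝ) ^ 2 * ε :=
    mul_le_mul_of_nonneg_right (pow_le_pow_left₀ hk0 hkR 2) hε
  have a3 : k * ε ≤ (R : ℝ) ^ 2 * ε := mul_le_mul_of_nonneg_right (by nlinarith) hε
  have a4 : U ≤ R * U := by nlinarith
  exact ⟨by linarith, by linarith, by linarith⟩

theorem CG_cls {t t' ν' : Ms M} {J Λ : ℕ} {c U ε : ℝ} (h : Two t t' ν' J Λ c U ε)
    {R : ℕ} (hR : 1 ≤ R) (h1 : R * U ≤ 1 / 20) (h2 : (R : ℝ) ^ 2 * ε ≤ U) :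
    Cls t' R 8 (CG t ν' Λ (20 * R * U)) := by
  have hU := h.U_nonneg
  have hε := h.ε_nonneg
  have hR1 : (1 : ℝ) ≤ R := by exact_mod_cast hR
  have hR0 : (0 : ℝ) ≤ R := by linarith
  set δ : ℝ := 20 * R * U with hδ
  have hδ0 : 0 ≤ δ := by rw [hδ]; positivity
  have hδ1 : δ ≤ 1 := by rw [hδ]; linarith
  have ht := h.lazy.prob
  have hpos : ∀ k, Pos (ν' ^ k) := fun k => h.ν'_prob.pos.pow k
  -- a good element has energy `2 a` relative to `ν'^n`
  have hX' : ∀ (a : ℝ) (n : ℕ) (X' : Ms M), 0 ≤ a → n ≤ R → Gd t a (Λ * n) X' →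
      Q (2 * a) X' (ν' ^ n) := fun a n X' ha hn hG =>
    hG.toQ.dom_smul ha (h.dom_pow (h.facts hR h1 h2 hn).2.2)
  have hq : ∀ k ≤ R, Q 2 (t' ^ k) (ν' ^ k) := fun k hk => h.q_pow (h.facts hR h1 h2 hk).1
  have hsub : ∀ k ≤ R, Q δ (t' ^ k - t ^ (Λ * k)) (ν' ^ k) := by
    intro k hk
    obtain ⟨b1, b2, b3⟩ := h.facts hR h1 h2 hk
    refine (h.q_pow_sub b1 b2 b3).mono (hpos k) ?_
    rw [hδ]
    have : (k : ℝ) ≤ R := by exact_mod_cast hk
    nlinarith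
  constructor
  · intro a n ha
    refine ⟨0, ?_, Gd.zero ht ha _, Q.zero ha (hpos n)⟩
    rw [sub_zero]
    exact Q.zero (by positivity) (hpos n)
  · rintro a b n X ha hab ⟨X', g1, g2, g3⟩
    exact ⟨X', g1.mono (hpos n) (mul_le_mul_of_nonneg_right hab hδ0), g2.mono ht hab,
      g3.mono (hpos n) hab⟩
  · rintro a n k X ha hnk ⟨X', g1, g2, g3⟩
    have hn : n ≤ R := by omega
    have hk : k ≤ R := by omega
    refine ⟨X' * t ^ (Λ * k), ?_, ?_, ?_⟩
    · have e : X * t' ^ k - X' * t ^ (Λ * k) =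
          (X - X') * t' ^ k + X' * (t' ^ k - t ^ (Λ * k)) := by noncomm_ring
      rw [e, pow_add]
      have q1 := g1.mul (hq k hk) (hpos n) (by positivity)
      have q2 := (hX' a n X' ha hn g2).mul (hsub k hk) (hpos n) (by positivity)
      refine (q1.add' q2 ((hpos n).mul (hpos k)) (by positivity) (by positivity)).mono
        ((hpos n).mul (hpos k)) (le_of_eq (by ring))
    · rw [mul_add]
      have := g2.right ht ha (by norm_num : (0 : ℝ) ≤ 1) (ht.q_pow (Λ * k))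
      exact this.mono ht (by linarith)
    · rw [pow_add]
      exact (g3.mul (hq k hk) (hpos n) ha).mono ((hpos n).mul (hpos k)) (by linarith)
  · rintro a n k X ha hnk ⟨X', g1, g2, g3⟩
    have hn : n ≤ R := by omega
    have hk : k ≤ R := by omega
    refine ⟨t ^ (Λ * k) * X', ?_, ?_, ?_⟩
    · have e : t' ^ k * X - t ^ (Λ * k) * X' =
          t' ^ k * (X - X') + (t' ^ k - t ^ (Λ * k)) * X' := by noncomm_ring
      rw [e, pow_add]
      have q1 := (hq k hk).mul g1 (hpos k) (by norm_num)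
      have q2 := (hsub k hk).mul (hX' a n X' ha hn g2) (hpos k) hδ0
      refine (q1.add' q2 ((hpos k).mul (hpos n)) (by positivity) (by positivity)).mono
        ((hpos k).mul (hpos n)) (le_of_eq (by ring))
    · rw [mul_add]
      have := g2.left ht ha (Λ * k)
      exact this.mono ht (by linarith)
    · rw [pow_add]
      exact ((hq k hk).mul g3 (hpos k) (by norm_num)).mono ((hpos k).mul (hpos n)) (by linarith)
  · rintro a b n k X Y ha hb hnk ⟨X', g1, g2, g3⟩ ⟨Y', f1, f2, f3⟩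
    have hn : n ≤ R := by omega
    have hk : k ≤ R := by omega
    have hab : 0 ≤ a * b := mul_nonneg ha hb
    refine ⟨X' * Y', ?_, ?_, ?_⟩
    · have e : X * Y - X' * Y' = (X - X') * Y + X' * (Y - Y') := by noncomm_ring
      rw [e, pow_add]
      have q1 := g1.mul f3 (hpos n) (by positivity)
      have q2 := (hX' a n X' ha hn g2).mul f1 (hpos n) (by positivity)
      refine (q1.add' q2 ((hpos n).mul (hpos k)) (by positivity) (by positivity)).mono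
        ((hpos n).mul (hpos k)) ?_
      have : 0 ≤ a * b * δ := by positivity
      nlinarith
    · rw [mul_add]
      have := g2.right ht ha hb f2.toQ
      exact this.mono ht (by linarith)
    · rw [pow_add]
      exact (g3.mul f3 (hpos n) ha).mono ((hpos n).mul (hpos k)) (by linarith)
  · rintro a b n X Y ha hb ⟨X', g1, g2, g3⟩ ⟨Y', f1, f2, f3⟩
    refine ⟨X' + Y', ?_, g2.add f2 ht ha hb, g3.add' f3 (hpos n) ha hb⟩
    have e : X + Y - (X' + Y') = (X - X') + (Y - Y') := by abel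
    rw [e]
    exact (g1.add' f1 (hpos n) (by positivity) (by positivity)).mono (hpos n)
      (le_of_eq (by ring))
  · rintro a n X ⟨X', g1, g2, g3⟩
    refine ⟨-X', ?_, ?_, g3.neg⟩
    · have e : -X - -X' = -(X - X') := by abel
      rw [e]
      exact g1.neg
    · have := g2.smul (-1)
      simpa using this

theorem CG_letter {t t' ν' zl zh : Ms M} {J Λ : ℕ} {c U ε a δ : ℝ}
    (h : Two t t' ν' J Λ c U ε) (hε : ε ≤ 1 / 2) (ha : 0 ≤ a) (hδ : 0 ≤ δ) (hδ1 : δ ≤ 1)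
    (hl : Q (a * δ) zl ν') (hh : Gd t a Λ zh) : CG t ν' Λ δ (6 * a) 1 (zl + zh) := by
  have hpos := h.ν'_prob.pos
  have haδ : 0 ≤ a * δ := mul_nonneg ha hδ
  have haδ1 : a * δ ≤ a := by nlinarith
  refine ⟨zh, ?_, ?_, ?_⟩
  · rw [add_sub_cancel_right, pow_one]
    exact hl.mono hpos (by nlinarith)
  · rw [mul_one]
    exact hh.mono h.lazy.prob (by linarith)
  · rw [pow_one]
    have h1 := h.dom_pow (k := 1) (by simpa using hε)
    rw [mul_one, pow_one] at h1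
    have h2 := hh.toQ.dom_smul ha h1
    exact (hl.add' h2 hpos haδ (by positivity)).mono hpos (by linarith)

/-- LEMMA 7: the gain -/
theorem context {t t' ν' X : Ms M} {J Λ : ℕ} {c U ε a : ℝ} (h : Two t t' ν' J Λ c U ε)
    {R Jc m : ℕ} (hR : 1 ≤ R) (hJ : 1 ≤ Jc) (hm : Jc ≤ m)
    (h1 : (2 * Jc + R : ℝ) * U ≤ 1 / 20) (h2 : (2 * Jc + R : ℝ) ^ 2 * ε ≤ U)
    (ha : 0 ≤ a) (hX : CG t ν' Λ (20 * R * U) a R X) :
    Q (640 * a * (1 / √(Jc * (c ^ 2 / 2)) + (Jc + R) * U)) (t' ^ m * X * t' ^ m)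
      (t' ^ (m - Jc) * ν' ^ (2 * Jc + R) * t' ^ (m - Jc)) := by
  have hU := h.U_nonneg
  have hε := h.ε_nonneg
  have hR1 : (1 : ℝ) ≤ R := by exact_mod_cast hR
  have hJ1 : (1 : ℝ) ≤ Jc := by exact_mod_cast hJ
  have ht := h.lazy.prob
  have hpos : ∀ k, Pos (ν' ^ k) := fun k => h.ν'_prob.pos.pow k
  have hfacts := fun {k : ℕ} (hk : k ≤ 2 * Jc + R) =>
    h.facts (R := 2 * Jc + R) (by omega) (by push_cast; exact h1) (by push_cast; exact h2) hk
  obtain ⟨b1, b2, b3⟩ := hfacts (k := Jc) (by omega)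
  obtain ⟨r1, r2, r3⟩ := hfacts (k := R) (by omega)
  obtain ⟨n1, n2, n3⟩ := hfacts (k := 2 * Jc + R) le_rfl
  obtain ⟨X', g1, g2, g3⟩ := hX
  set δ : ℝ := 20 * R * U with hδ
  have hδ0 : 0 ≤ δ := by rw [hδ]; positivity
  have hc := h.lazy.c_pos
  have hx : 0 < (Jc : ℝ) * (c ^ 2 / 2) := by positivity
  set x : ℝ := 1 / √(Jc * (c ^ 2 / 2)) with hxdef
  have hx0 : 0 ≤ x := by positivity
  have hqJ := h.q_pow b1
  have hsJ := h.q_pow_sub b1 b2 b3
  have hX'Q : Q (2 * a) X' (ν' ^ R) := g2.toQ.dom_smul ha (h.dom_pow r3)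
  have htJ : Q 2 (t ^ (Λ * Jc)) (ν' ^ Jc) := by
    have := (ht.q_pow (Λ * Jc)).dom_smul (by norm_num) (h.dom_pow b3)
    simpa using this
  have hJU : 0 ≤ 20 * (Jc : ℝ) * U := by positivity
  set H : Ms M := ν' ^ Jc * ν' ^ R * ν' ^ Jc with hH
  have hHpos : Pos H := ((hpos Jc).mul (hpos R)).mul (hpos Jc)
  have hHeq : ν' ^ (2 * Jc + R) = H := by
    rw [hH, ← pow_add, ← pow_add]; congr 1; ring
  -- the four terms
  have T1 : Q (2 * (a * x)) (t ^ (Λ * Jc) * X' * t ^ (Λ * Jc)) H := by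
    have s1 := g2.smear ha h.lazy (N := Jc) (m := Λ * Jc) (Nat.mul_le_mul_right _ h.hΛ)
    have s2 : a / √((Jc + 1) * (c ^ 2 / 2)) ≤ a * x := by
      rw [hxdef, div_eq_mul_one_div]
      apply mul_le_mul_of_nonneg_left _ ha
      apply one_div_le_one_div_of_le (Real.sqrt_pos.2 hx)
      apply Real.sqrt_le_sqrt
      have : 0 ≤ c ^ 2 / 2 := by positivity
      nlinarith
    have s3 := s1.mono (ht.pos.pow _) s2
    have e : 2 * (Λ * Jc) + Λ * R = Λ * (2 * Jc + R) := by ring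
    rw [e] at s3
    have s4 := s3.dom_smul (by positivity) (h.dom_pow n3)
    rwa [hHeq] at s4
  have T2 : Q (4 * (a * δ)) (t' ^ Jc * (X - X') * t' ^ Jc) H := by
    have s1 := (hqJ.mul g1 (hpos Jc) (by norm_num)).mul hqJ ((hpos Jc).mul (hpos R))
      (by positivity)
    exact s1.mono hHpos (by linarith)
  have T3 : Q (80 * (a * (Jc * U))) ((t' ^ Jc - t ^ (Λ * Jc)) * X' * t' ^ Jc) H := by
    have s1 := (hsJ.mul hX'Q (hpos Jc) hJU).mul hqJ ((hpos Jc).mul (hpos R)) (by positivity)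
    exact s1.mono hHpos (by linarith)
  have T4 : Q (80 * (a * (Jc * U))) (t ^ (Λ * Jc) * X' * (t' ^ Jc - t ^ (Λ * Jc))) H := by
    have s1 := (htJ.mul hX'Q (hpos Jc) (by norm_num)).mul hsJ ((hpos Jc).mul (hpos R))
      (by positivity)
    exact s1.mono hHpos (by linarith)
  have hsum := (T1.add' T2 hHpos (by positivity) (by positivity)).add'
    (T3.add' T4 hHpos (by positivity) (by positivity)) hHpos (by positivity) (by positivity)
  have e1 : t ^ (Λ * Jc) * X' * t ^ (Λ * Jc) + t' ^ Jc * (X - X') * t' ^ Jc +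
      ((t' ^ Jc - t ^ (Λ * Jc)) * X' * t' ^ Jc + t ^ (Λ * Jc) * X' * (t' ^ Jc - t ^ (Λ * Jc))) =
      t' ^ Jc * X * t' ^ Jc := by noncomm_ring
  rw [e1] at hsum
  have hmid : Q (640 * a * (x + (Jc + R) * U)) (t' ^ Jc * X * t' ^ Jc) (ν' ^ (2 * Jc + R)) := by
    rw [hHeq]
    refine hsum.mono hHpos ?_
    have q1 : 0 ≤ a * x := by positivity
    have q2 : 0 ≤ a * (R * U) := by positivity
    have q3 : a * δ = 20 * (a * (R * U)) := by rw [hδ]; ring
    rw [q3]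
    have q4 : 640 * a * (x + (Jc + R) * U) = 640 * (a * x) + 640 * (a * (Jc * U)) +
        640 * (a * (R * U)) := by ring
    rw [q4]
    linarith
  have hfin := hmid.sandwich (by positivity) (h.ν'_prob.pos.pow _) (h.t'_prob.pos.pow (m - Jc))
    (h.t'_prob.pos.pow (m - Jc))
  rw [(h.t'_prob.pow (m - Jc)).mass_eq, one_mul, one_mul] at hfin
  have e2 : t' ^ (m - Jc) * (t' ^ Jc * X * t' ^ Jc) * t' ^ (m - Jc) = t' ^ m * X * t' ^ m := by
    have e3 : t' ^ m = t' ^ (m - Jc) * t' ^ Jc := by rw [← pow_add]; congr 1; omega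
    have e4 : t' ^ m = t' ^ Jc * t' ^ (m - Jc) := by rw [← pow_add]; congr 1; omega
    conv_rhs => rw [e4]
    conv_rhs => rw [show t' ^ Jc * t' ^ (m - Jc) * X * (t' ^ Jc * t' ^ (m - Jc)) =
      (t' ^ Jc * t' ^ (m - Jc)) * X * (t' ^ Jc * t' ^ (m - Jc)) from rfl]
    have e5 : t' ^ Jc * t' ^ (m - Jc) = t' ^ (m - Jc) * t' ^ Jc := by
      rw [← pow_add, ← pow_add, add_comm]
    rw [← mul_assoc, ← mul_assoc]
    conv_rhs => rw [← mul_assoc]
    rw [e5]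
  rw [e2] at hfin
  exact hfin

end Vale.Agent.P321S
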