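import Vale.Agent.Lib.P321S.Lin
import Vale.Agent.Lib.P321S.Two
import Vale.Agent.Lib.P321S.Domin

/-! Module STEP (section 9 of docs P321). -/

namespace Vale.Agent.P321S

open Finset

variable {M : Type*} [Monoid M]

/-- one level of the construction -/
structure Stage (t t' ν' zl zh : Ms M) (J J' Λ : ℕ) (ρ c a A U ε τ : ℝ) : Prop where
  lazy : Lazy t J c
  hΛ : J + 1 ≤ Λ
  t'_prob : Prob t'
  ν'_prob : Prob ν'
  p'_prob : Prob (t' + (zl + zh))
  one_le_ρ : 1 ≤ ρ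
  r1 : Dom ν' (ρ • t')
  r2 : Dom t' (ρ • ν')
  r3 : Dom ν' (ρ • (t' + (zl + zh)))
  r4 : Dom (t' + (zl + zh)) (ρ • ν')
  a_nonneg : 0 ≤ a
  A_nonneg : 0 ≤ A
  U_nonneg : 0 ≤ U
  ε_nonneg : 0 ≤ ε
  τ_nonneg : 0 ≤ τ
  ε_le : ε ≤ 1 / 2
  base : Dom ((1 - ε) • t ^ Λ) ν'
  hU : Q U (t' - ν') ν'
  hl : Q τ zl ν'
  hh : Gd t a Λ zh
  hA : Q A (zl + zh) t'
  lazy' : Lazy t' J' (1 / 4)

/-- the two measures `t'`, `p'` are nearly the laws of the block words `s`, `P` -/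
structure Code (lw : List Bool → Ms M) (t' p' : Ms M) (ℓ : ℕ) (ε : ℝ) (s P : List Bool) :
    Prop where
  ne : s ≠ P
  len : s.length = P.length
  count : s.count true = P.count true
  le : s.length ≤ ℓ
  hs : N1 ε (t' - lw s)
  hP : N1 ε (p' - lw P)

/-- multiplicative families of laws -/
structure IsLaw (lw : List Bool → Ms M) : Prop where
  append : ∀ s s', lw (s ++ s') = lw s * lw s'
  nil : lw [] = 1
  prob : ∀ s, Prob (lw s)

/-- Thue–Morse words of lists -/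
def TL (s P : List Bool) : ℕ → List Bool × List Bool
  | 0 => (s, P)
  | i + 1 => ((TL s P i).1 ++ (TL s P i).2, (TL s P i).2 ++ (TL s P i).1)

theorem TW_prob {X Y : Ms M} (hX : Prob X) (hY : Prob Y) (i : ℕ) :
    Prob (TW X Y i).1 ∧ Prob (TW X Y i).2 := by
  induction i with
  | zero => exact ⟨hX, hY⟩
  | succ i ih => exact ⟨ih.1.mul ih.2, ih.2.mul ih.1⟩

theorem TW_dom_ge {t X Y : Ms M} {r : ℝ} (hr : 0 ≤ r) (ht : Pos t) (hX : Prob X) (hY : Prob Y)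
    (h1 : Dom t (r • X)) (h2 : Dom t (r • Y)) (i : ℕ) :
    Dom (t ^ (2 ^ i)) (r ^ (2 ^ i) • (TW X Y i).1) ∧
      Dom (t ^ (2 ^ i)) (r ^ (2 ^ i) • (TW X Y i).2) := by
  induction i with
  | zero => simpa [TW] using ⟨h1, h2⟩
  | succ i ih =>
    have hp := TW_prob hX hY i
    have e : ∀ a b : Ms M, (r ^ (2 ^ i) • a) * (r ^ (2 ^ i) • b) = r ^ (2 ^ (i + 1)) • (a * b) := by
      intro a b
      rw [smul_mul_smul_comm, ← pow_add, ← two_mul, ← pow_succ']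
    have e2 : t ^ (2 ^ (i + 1)) = t ^ (2 ^ i) * t ^ (2 ^ i) := by
      rw [← pow_add, ← two_mul, ← pow_succ']
    constructor
    · have := ih.1.mul ih.2 (hp.1.pos.smul (pow_nonneg hr _)) (ht.pow _)
      rw [e] at this
      rw [e2]
      exact this
    · have := ih.2.mul ih.1 (hp.2.pos.smul (pow_nonneg hr _)) (ht.pow _)
      rw [e] at this
      rw [e2]
      exact this

theorem TW_dom_le {t X Y : Ms M} {r : ℝ} (hr : 0 ≤ r) (ht : Pos t) (hX : Prob X) (hY : Prob Y)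
    (h1 : Dom X (r • t)) (h2 : Dom Y (r • t)) (i : ℕ) :
    Dom (TW X Y i).1 (r ^ (2 ^ i) • t ^ (2 ^ i)) ∧
      Dom (TW X Y i).2 (r ^ (2 ^ i) • t ^ (2 ^ i)) := by
  induction i with
  | zero => simpa [TW] using ⟨h1, h2⟩
  | succ i ih =>
    have hp := TW_prob hX hY i
    have e : (r ^ (2 ^ i) • t ^ (2 ^ i)) * (r ^ (2 ^ i) • t ^ (2 ^ i)) =
        r ^ (2 ^ (i + 1)) • t ^ (2 ^ (i + 1)) := by
      rw [smul_mul_smul_comm, ← pow_add, ← pow_add, ← two_mul, ← pow_succ']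
    constructor
    · have := ih.1.mul ih.2 ((ht.pow _).smul (pow_nonneg hr _)) hp.2.pos
      rw [e] at this
      exact this
    · have := ih.2.mul ih.1 ((ht.pow _).smul (pow_nonneg hr _)) hp.1.pos
      rw [e] at this
      exact this

theorem Dom.sand {z z' x y : Ms M} {r : ℝ} (h : Dom z (r • z')) (hx : Pos x) (hy : Pos y) :
    Dom (x * z * y) (r • (x * z' * y)) := by
  have := (h.mul_left hx).mul_right hy
  rwa [mul_smul_comm, smul_mul_assoc] at this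

theorem Dom.sand' {z z' x y : Ms M} {r : ℝ} (h : Dom (r • z) z') (hx : Pos x) (hy : Pos y) :
    Dom (r • (x * z * y)) (x * z' * y) := by
  have := (h.mul_left hx).mul_right hy
  rwa [mul_smul_comm, smul_mul_assoc] at this

theorem N1.mul_sub_mul {a a' b b' : Ms M} {ε ε' : ℝ} (h : N1 ε (a - a')) (h' : N1 ε' (b - b'))
    (hb : N1 1 b) (ha' : N1 1 a') : N1 (ε + ε') (a * b - a' * b') := by
  have h1 := (h.mul hb).add (ha'.mul h')
  have e : (a - a') * b + a' * (b - b') = a * b - a' * b' := by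
    rw [sub_mul, mul_sub]; abel
  rw [e] at h1
  simpa using h1

theorem lw_flatten {lw : List Bool → Ms M} (hlw : IsLaw lw) (s : List Bool) (m : ℕ) :
    lw (List.replicate m s).flatten = lw s ^ m := by
  induction m with
  | zero => simp [hlw.nil]
  | succ m ih => rw [List.replicate_succ, List.flatten_cons, hlw.append, ih, pow_succ']

theorem N1.pow_sub_pow {a b : Ms M} {ε : ℝ} (ha : N1 1 a) (hb : Prob b) (h : N1 ε (a - b))
    (n : ℕ) : N1 (n * ε) (a ^ n - b ^ n) := by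
  induction n with
  | zero => simpa using N1.zero
  | succ n ih =>
    have h1 := ih.mul_sub_mul h ha (hb.pow n).n1
    rw [← pow_succ, ← pow_succ] at h1
    refine h1.mono (le_of_eq ?_)
    push_cast; ring

/-- properties of the list Thue–Morse words -/
theorem TL_props {lw : List Bool → Ms M} (hlw : IsLaw lw) {X Y : Ms M} {ℓ : ℕ} {ε : ℝ}
    {s P : List Bool} (hX : Prob X) (hY : Prob Y) (h : Code lw X Y ℓ ε s P) (i : ℕ) :
    Code lw (TW X Y i).1 (TW X Y i).2 (2 ^ i * ℓ) (2 ^ i * ε) (TL s P i).1 (TL s P i).2 := by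
  induction i with
  | zero => simpa [TW, TL] using h
  | succ i ih =>
    have hp := TW_prob hX hY i
    refine ⟨?_, ?_, ?_, ?_, ?_, ?_⟩
    · intro he
      exact ih.ne (List.append_inj he ih.len).1
    · simp only [TL, List.length_append]; omega
    · simp only [TL, List.count_append]; omega
    · have h1 := ih.le
      have h2 := ih.len
      simp only [TL, List.length_append]
      rw [pow_succ, mul_assoc, mul_comm 2 ℓ, ← mul_assoc]
      omega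
    · have := ih.hs.mul_sub_mul ih.hP hp.2.n1 (hlw.prob _).n1
      rw [← hlw.append] at this
      refine this.mono (le_of_eq ?_)
      rw [pow_succ]; ring
    · have := ih.hP.mul_sub_mul ih.hs hp.1.n1 (hlw.prob _).n1
      rw [← hlw.append] at this
      refine this.mono (le_of_eq ?_)
      rw [pow_succ]; ring

/-- the codes of a padded Thue–Morse pair; `s₀` is the code of the padding cell -/
theorem code_TM {lw : List Bool → Ms M} (hlw : IsLaw lw) {t X Y : Ms M} {ℓ : ℕ} {ε : ℝ}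
    {s₀ s P : List Bool} (ht : Prob t) (hX : Prob X) (hY : Prob Y)
    (h₀ : s₀.length ≤ ℓ) (h₀' : N1 ε (t - lw s₀))
    (h : Code lw X Y ℓ ε s P) (K m : ℕ) :
    ∃ s' P', Code lw (t ^ m * (TW X Y K).1 * t ^ m) (t ^ m * (TW X Y K).2 * t ^ m)
      ((2 * m + 2 ^ K) * ℓ) ((2 * m + 2 ^ K) * ε) s' P' := by
  have hT := TL_props hlw hX hY h K
  have hp := TW_prob hX hY K
  obtain ⟨r, hr⟩ : ∃ r, r = (List.replicate m s₀).flatten := ⟨_, rfl⟩
  have hrl : r.length ≤ m * ℓ := by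
    rw [hr]
    simp only [List.length_flatten, List.map_replicate, List.sum_replicate, smul_eq_mul]
    exact Nat.mul_le_mul_left _ h₀
  have hrw : lw r = lw s₀ ^ m := by rw [hr, lw_flatten hlw]
  have hpow : N1 (m * ε) (t ^ m - lw r) := by
    rw [hrw]
    exact N1.pow_sub_pow ht.n1 (hlw.prob _) h₀' m
  have hr1 : N1 1 (lw r) := (hlw.prob _).n1
  refine ⟨r ++ (TL s P K).1 ++ r, r ++ (TL s P K).2 ++ r, ?_, ?_, ?_, ?_, ?_, ?_⟩
  · intro he
    exact hT.ne (List.append_cancel_left (List.append_cancel_right he))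
  · simp only [List.length_append]
    have := hT.len
    omega
  · simp only [List.count_append]
    have := hT.count
    omega
  · simp only [List.length_append]
    have h1 := hT.le
    have : (2 * m + 2 ^ K) * ℓ = m * ℓ + 2 ^ K * ℓ + m * ℓ := by ring
    omega
  · rw [hlw.append, hlw.append]
    have h1 := (hpow.mul_sub_mul hT.hs hp.1.n1 hr1).mul_sub_mul hpow (ht.pow m).n1
      ((hlw.prob _).mul (hlw.prob _)).n1
    refine h1.mono (le_of_eq ?_)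
    ring
  · rw [hlw.append, hlw.append]
    have h1 := (hpow.mul_sub_mul hT.hP hp.2.n1 hr1).mul_sub_mul hpow (ht.pow m).n1
      ((hlw.prob _).mul (hlw.prob _)).n1
    refine h1.mono (le_of_eq ?_)
    ring

/-- decomposition of the first padded Thue–Morse word -/
theorem TW_fst (t κ η : Ms M) (K m : ℕ) :
    t ^ m * (TW (t + η + κ) (t + η - κ) K).1 * t ^ m =
      t ^ (2 * m + 2 ^ K) + (t ^ m * ((EO (t + η) κ K).1 - t ^ (2 ^ K)) * t ^ m +
        t ^ m * lam t κ K * t ^ m + t ^ m * ((EO (t + η) κ K).2 - lam t κ K) * t ^ m) := by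
  rw [TW_eq]
  have : t ^ (2 * m + 2 ^ K) = t ^ m * t ^ (2 ^ K) * t ^ m := by
    rw [← pow_add, ← pow_add]; congr 1; ring
  rw [this]
  simp only [mul_add, add_mul, mul_sub, sub_mul]
  abel

/-- decomposition of the second padded Thue–Morse word -/
theorem TW_snd (t κ η : Ms M) (K m : ℕ) :
    t ^ m * (TW (t + η + κ) (t + η - κ) K).2 * t ^ m =
      t ^ m * (TW (t + η + κ) (t + η - κ) K).1 * t ^ m +
        ((-2 : ℝ) • (t ^ m * lam t κ K * t ^ m) +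
          (-2 : ℝ) • (t ^ m * ((EO (t + η) κ K).2 - lam t κ K) * t ^ m)) := by
  rw [TW_eq, ← smul_add]
  have : t ^ m * lam t κ K * t ^ m + t ^ m * ((EO (t + η) κ K).2 - lam t κ K) * t ^ m =
      t ^ m * (EO (t + η) κ K).2 * t ^ m := by
    rw [← add_mul, ← mul_add, add_sub_cancel]
  rw [this]
  simp only [mul_add, add_mul, mul_sub, sub_mul, neg_smul, two_smul]
  abel

theorem Q.pad {a : ℝ} {t X : Ms M} {k : ℕ} (h : Q a X (t ^ k)) (ht : Prob t) (ha : 0 ≤ a)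
    (m : ℕ) : Q a (t ^ m * X * t ^ m) (t ^ (2 * m + k)) := by
  have h1 := h.sandwich ha (ht.pos.pow k) (ht.pow m).pos (ht.pow m).pos
  rw [(ht.pow m).mass_eq, ← pow_add, ← pow_add] at h1
  have : 2 * m + k = m + k + m := by ring
  rw [this]
  simpa using h1

theorem Gd.pad {a : ℝ} {t X : Ms M} {k : ℕ} (h : Gd t a k X) (ht : Prob t) (ha : 0 ≤ a)
    (m : ℕ) : Gd t a (2 * m + k) (t ^ m * X * t ^ m) := by
  have h1 := (h.right ht ha zero_le_one (ht.q_pow m)).left ht (by linarith) m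
  rw [mul_one, ← mul_assoc] at h1
  have : 2 * m + k = m + (k + m) := by ring
  rwa [this]

theorem lam_div_le {N K : ℕ} {x : ℝ} (hN : 1 ≤ N) (hx : 0 < x) {b : ℝ} (hb : 0 ≤ b) :
    b / (((N : ℝ) + 1) * x) ^ K ≤ b * (1 / x) ^ K / (N : ℝ) ^ K := by
  have hN0 : (0 : ℝ) < N := by exact_mod_cast hN
  have h1 : ((N : ℝ) * x) ^ K ≤ (((N : ℝ) + 1) * x) ^ K := by
    apply pow_le_pow_left₀ (by positivity)
    nlinarith
  calc b / (((N : ℝ) + 1) * x) ^ K ≤ b / ((N : ℝ) * x) ^ K :=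
        div_le_div_of_nonneg_left hb (by positivity) h1
    _ = b * (1 / x) ^ K / (N : ℝ) ^ K := by
        rw [mul_pow, div_pow, one_pow]
        field_simp

set_option maxHeartbeats 1000000 in
/-- the first crystal level: Thue–Morse words over `X = t + η + κ`, `Y = t + η - κ`. -/
theorem first_step (M : Type*) [Monoid M] (K : ℕ) (c ρ : ℝ) (hc : 0 < c) (hρ : 1 ≤ ρ) :
    ∃ C : ℝ, 1 ≤ C ∧ ∀ (t κ η : Ms M) (aκ aη τ : ℝ) (J J' N : ℕ),
      Lazy t J c → Prob (t + η + κ) → Prob (t + η - κ) → mass κ = 0 → mass η = 0 →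
      Dom t (ρ • (t + η + κ)) → Dom (t + η + κ) (ρ • t) →
      Dom t (ρ • (t + η - κ)) → Dom (t + η - κ) (ρ • t) →
      0 ≤ aκ → aκ ≤ 1 → 0 ≤ aη → aη ≤ 1 → Q aκ κ t → Q aη η t → 1 ≤ N →
      C * aκ / (N : ℝ) ^ K ≤ τ →
      C * (((2 * ((J + 1) * N) + 2 ^ K : ℕ) : ℝ)) * (J + 1) ≤ J' →
      64 * ((J' : ℝ) + 1) * (C * (max aη (aκ ^ 2) + τ)) ≤ 1 →
      ∃ t' ν' zl zh : Ms M,
        t' = t ^ ((J + 1) * N) * (TW (t + η + κ) (t + η - κ) K).1 * t ^ ((J + 1) * N) ∧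
        t' + (zl + zh) =
          t ^ ((J + 1) * N) * (TW (t + η + κ) (t + η - κ) K).2 * t ^ ((J + 1) * N) ∧
        Stage t t' ν' zl zh J J' (2 * ((J + 1) * N) + 2 ^ K) (ρ ^ (2 ^ K)) c
          (C * (aκ * max aη (aκ ^ 2))) (C * (aκ * max aη (aκ ^ 2) + τ))
          (C * (max aη (aκ ^ 2) + τ)) 0 τ := by
  obtain ⟨C1, hC1, htm⟩ := tm_class M K 1 le_rfl
  obtain ⟨CL, hCL, hlam⟩ := lam_smear M K
  set R : ℝ := ρ ^ (2 ^ K) with hR
  have hR1 : 1 ≤ R := one_le_pow₀ hρ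
  set y : ℝ := (1 / (c ^ 2 / 2)) ^ K with hy
  have hy0 : 0 < y := by positivity
  set C : ℝ := 8 * C1 * R + (4 * CL * y + 4) * (R + 1) + 32 / c with hC
  have hCa : 8 * C1 * R ≤ C := by
    have : 0 < 32 / c := by positivity
    have : 0 ≤ (4 * CL * y + 4) * (R + 1) := by positivity
    linarith
  have hCb : 4 * CL * y ≤ C := by
    have h1 : 0 < 32 / c := by positivity
    have h2 : 0 ≤ 4 * CL * y := by positivity
    have h3 : 4 * CL * y ≤ (4 * CL * y + 4) * (R + 1) :=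
      le_trans (by linarith) (le_mul_of_one_le_right (a := 4 * CL * y + 4) (by linarith)
        (by linarith : (1 : ℝ) ≤ R + 1))
    have h4 : 0 ≤ 8 * C1 * R := by positivity
    linarith
  have hCc : 4 * R + 4 ≤ C := by
    have h1 : 0 < 32 / c := by positivity
    have h2 : 0 ≤ 4 * CL * y := by positivity
    have h3 : 4 * R + 4 ≤ (4 * CL * y + 4) * (R + 1) :=
      le_trans (by linarith : 4 * R + 4 ≤ 4 * (R + 1))
        (mul_le_mul_of_nonneg_right (by linarith) (by linarith))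
    have h4 : 0 ≤ 8 * C1 * R := by positivity
    linarith
  have hCd : 32 / c ≤ C := by
    have h2 : 0 ≤ 4 * CL * y := by positivity
    have h3 : 0 ≤ (4 * CL * y + 4) * (R + 1) := by positivity
    have h4 : 0 ≤ 8 * C1 * R := by positivity
    linarith
  have hC0 : 1 ≤ C := by linarith
  refine ⟨C, hC0, ?_⟩
  intro t κ η aκ aη τ J J' N ht hX hY hκ0 hη0 d1 d2 d3 d4 ha0 ha1 hb0 hb1 hκ hη hN h1 h2 h3
  obtain ⟨m, hm⟩ : ∃ m, m = (J + 1) * N := ⟨_, rfl⟩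
  rw [← hm] at h2 ⊢
  have htp := ht.prob
  set mx : ℝ := max aη (aκ ^ 2) with hmx
  have hmx0 : 0 ≤ mx := le_max_of_le_left hb0
  obtain ⟨g1, g2, g3, g4⟩ := htm t κ η (Gd t) aκ aη (Gd_cls htp (2 ^ K)) ha0 ha1 hb0 hb1
    (Gd.letter htp hκ0 hκ ha0) (Gd.letter htp hη0 hη hb0) K le_rfl
  have hτ0 : 0 ≤ τ := le_trans (by positivity) h1
  -- the three padded parts
  obtain ⟨ep, hep⟩ : ∃ ep, ep = (EO (t + η) κ K).1 - t ^ (2 ^ K) := ⟨_, rfl⟩
  obtain ⟨L, hL⟩ : ∃ L, L = lam t κ K := ⟨_, rfl⟩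
  obtain ⟨h, hh⟩ : ∃ h, h = (EO (t + η) κ K).2 - lam t κ K := ⟨_, rfl⟩
  have e1 := TW_fst t κ η K m
  have e2 := TW_snd t κ η K m
  rw [← hep, ← hh, ← hL] at e1
  rw [← hh, ← hL] at e2
  rw [← hep] at g1
  rw [← hh] at g4
  obtain ⟨W1, hW1⟩ : ∃ W1, W1 = (TW (t + η + κ) (t + η - κ) K).1 := ⟨_, rfl⟩
  obtain ⟨W2, hW2⟩ : ∃ W2, W2 = (TW (t + η + κ) (t + η - κ) K).2 := ⟨_, rfl⟩
  have hWp := TW_prob hX hY K
  have hWge := TW_dom_ge (by linarith) htp.pos hX hY d1 d3 K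
  have hWle := TW_dom_le (by linarith) htp.pos hX hY d2 d4 K
  rw [← hW1, ← hW2] at e2 hWp hWge hWle
  rw [← hW1] at e1
  rw [← hW1, ← hW2]
  obtain ⟨Λ, hΛ⟩ : ∃ Λ, Λ = 2 * m + 2 ^ K := ⟨_, rfl⟩
  rw [← hΛ] at h2 e1 ⊢
  have htm' := htp.pow m
  have qep : Q (C1 * mx) (t ^ m * ep * t ^ m) (t ^ Λ) := by
    rw [hΛ]; exact g1.toQ.pad htp (by positivity) m
  have qh : Q (C1 * (aκ * mx)) (t ^ m * h * t ^ m) (t ^ Λ) := by
    rw [hΛ]; exact g4.toQ.pad htp (by positivity) m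
  have gh : Gd t (C1 * (aκ * mx)) Λ (t ^ m * h * t ^ m) := by
    rw [hΛ]; exact g4.pad htp (by positivity) m
  have qL : Q (τ / 4) (t ^ m * L * t ^ m) (t ^ Λ) := by
    rw [hΛ, hm, hL]
    refine (hlam t κ aκ c J N ht ha0 hκ).mono (htp.pos.pow _) ?_
    refine (lam_div_le hN (by positivity) (by positivity)).trans ?_
    rw [← hy]
    have h5 : CL * aκ * y ≤ C * aκ / 4 := by
      have h6 : 4 * CL * y * aκ ≤ C * aκ := mul_le_mul_of_nonneg_right hCb ha0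
      linarith
    calc CL * aκ * y / (N : ℝ) ^ K ≤ (C * aκ / 4) / (N : ℝ) ^ K :=
          div_le_div_of_nonneg_right h5 (by positivity)
      _ = (C * aκ / (N : ℝ) ^ K) / 4 := by ring
      _ ≤ τ / 4 := by linarith
  have hΛp : Pos (t ^ Λ) := htp.pos.pow Λ
  have hsum : t ^ Λ = t ^ m * t ^ (2 ^ K) * t ^ m := by
    rw [hΛ, ← pow_add, ← pow_add]; congr 1; ring
  have hzl : Q τ ((-2 : ℝ) • (t ^ m * L * t ^ m)) (t ^ Λ) := by
    refine (qL.smul_left (-2)).mono hΛp (le_of_eq ?_)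
    ring
  have hzh : Q (4 * (C1 * (aκ * mx))) ((-2 : ℝ) • (t ^ m * h * t ^ m)) (t ^ Λ) := by
    refine (qh.smul_left (-2)).mono hΛp (le_of_eq ?_)
    ring
  have ht'p : Prob (t ^ m * W1 * t ^ m) := (htm'.mul hWp.1).mul htm'
  have hr1 : Dom (t ^ Λ) (R • (t ^ m * W1 * t ^ m)) := by
    rw [hsum]; exact hWge.1.sand htm'.pos htm'.pos
  have hU1 : C * (mx + τ) ≤ 1 / (64 * ((J' : ℝ) + 1)) := by
    rw [le_div_iff₀ (by positivity)]
    linarith
  have hUq : Q (C * (mx + τ)) (t ^ m * W1 * t ^ m - t ^ Λ) (t ^ Λ) := by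
    rw [e1, add_sub_cancel_left]
    have k1 := (qep.add' qL hΛp (by positivity) (by positivity)).add' qh hΛp (by positivity)
      (by positivity)
    refine k1.mono hΛp ?_
    have k2 : aκ * mx ≤ mx := mul_le_of_le_one_left hmx0 ha1
    have k3 : C1 * (aκ * mx) ≤ C1 * mx := mul_le_mul_of_nonneg_left k2 (by linarith)
    have k0 : 8 * C1 ≤ C := le_trans (le_mul_of_one_le_right (by positivity) hR1) hCa
    have k4 : 8 * (C1 * mx) ≤ C * mx := by
      rw [← mul_assoc]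
      exact mul_le_mul_of_nonneg_right k0 hmx0
    have k5 : 1 * τ ≤ C * τ := mul_le_mul_of_nonneg_right hC0 hτ0
    have k6 : 0 ≤ C1 * mx := by positivity
    rw [mul_add]
    linarith
  refine ⟨t ^ m * W1 * t ^ m, t ^ Λ, (-2 : ℝ) • (t ^ m * L * t ^ m),
    (-2 : ℝ) • (t ^ m * h * t ^ m), rfl, e2.symm, ?_⟩
  refine
    { lazy := ht
      hΛ := ?_
      t'_prob := ht'p
      ν'_prob := htp.pow Λ
      p'_prob := ?_
      one_le_ρ := hR1
      r1 := hr1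
      r2 := ?_
      r3 := ?_
      r4 := ?_
      a_nonneg := by positivity
      A_nonneg := by positivity
      U_nonneg := by positivity
      ε_nonneg := le_rfl
      τ_nonneg := hτ0
      ε_le := by norm_num
      base := ?_
      hU := hUq
      hl := hzl
      hh := ?_
      hA := ?_
      lazy' := ?_ }
  · rw [hΛ, hm]
    have k1 := Nat.le_mul_of_pos_right (J + 1) hN
    linarith [Nat.zero_le (2 ^ K)]
  · rw [← e2]
    exact (htm'.mul hWp.2).mul htm'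
  · rw [hsum]; exact hWle.1.sand htm'.pos htm'.pos
  · rw [← e2, hsum]; exact hWge.2.sand htm'.pos htm'.pos
  · rw [← e2, hsum]; exact hWle.2.sand htm'.pos htm'.pos
  · rw [sub_zero, one_smul]; exact Dom.refl _
  · refine (gh.smul (-2)).mono htp ?_
    have k0 : 8 * C1 ≤ C := le_trans (le_mul_of_one_le_right (by positivity) hR1) hCa
    have k5 : 0 ≤ aκ * mx := by positivity
    have k6 : (8 * C1) * (aκ * mx) ≤ C * (aκ * mx) := mul_le_mul_of_nonneg_right k0 k5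
    have k7 : 0 ≤ C1 * (aκ * mx) := by positivity
    linarith
  · have k1 := (hzl.add' hzh hΛp hτ0 (by positivity)).dom_smul (by positivity) hr1
    refine k1.mono ht'p.pos ?_
    have k5 : 0 ≤ aκ * mx := by positivity
    have k6 : (4 * R + 4) * τ ≤ C * τ := mul_le_mul_of_nonneg_right hCc hτ0
    have k7 : 8 * C1 * R * (aκ * mx) ≤ C * (aκ * mx) := mul_le_mul_of_nonneg_right hCa k5
    have k8 : 0 ≤ R * τ := by positivity
    calc R * (2 * τ + 2 * (4 * (C1 * (aκ * mx))))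
        = 2 * (R * τ) + 8 * C1 * R * (aκ * mx) := by ring
      _ ≤ C * (aκ * mx + τ) := by rw [mul_add]; linarith
  · obtain ⟨N', hN'⟩ : ∃ N' : ℕ, N' = ⌈16 * (Λ : ℝ) ^ 2 / c⌉₊ := ⟨_, rfl⟩
    have hΛ1 : (1 : ℝ) ≤ Λ := by
      rw [hΛ]
      push_cast
      have k0 : (1 : ℝ) ≤ 2 ^ K := one_le_pow₀ (by norm_num)
      have k1 : (0 : ℝ) ≤ m := Nat.cast_nonneg m
      linarith
    refine lazy_up (N := N') (L := Λ) ht ht'p (htp.pow Λ) (by positivity) hUq le_rfl (by norm_num)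
      (by rw [sub_zero, one_smul]; exact Dom.refl _) ?_ ?_ h3 (by norm_num)
    · have k1 : (N' : ℝ) ≤ 16 * (Λ : ℝ) ^ 2 / c + 1 := by
        rw [hN']
        exact (Nat.ceil_lt_add_one (by positivity)).le
      have k2 : ((J + 1) * N' : ℝ) ≤ Λ * J' := by
        have k3 : 16 * (Λ : ℝ) ^ 2 / c + 1 ≤ C * (Λ : ℝ) ^ 2 := by
          have k4 : 16 * (Λ : ℝ) ^ 2 / c = (32 / c) * (Λ : ℝ) ^ 2 / 2 := by ring
          have k5 : (32 / c) * (Λ : ℝ) ^ 2 ≤ C * (Λ : ℝ) ^ 2 :=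
            mul_le_mul_of_nonneg_right hCd (by positivity)
          have k6 : (1 : ℝ) ≤ (Λ : ℝ) ^ 2 := one_le_pow₀ hΛ1
          have k7 : (2 : ℝ) ≤ C := by linarith
          have k8 : 2 * (Λ : ℝ) ^ 2 ≤ C * (Λ : ℝ) ^ 2 :=
            mul_le_mul_of_nonneg_right k7 (by positivity)
          linarith
        calc ((J + 1) * N' : ℝ) ≤ (J + 1) * (C * (Λ : ℝ) ^ 2) :=
              mul_le_mul_of_nonneg_left (k1.trans k3) (by positivity)
          _ = Λ * (C * Λ * (J + 1)) := by ring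
          _ ≤ Λ * J' := mul_le_mul_of_nonneg_left h2 (by positivity)
      exact_mod_cast k2
    · have k1 : 16 * (Λ : ℝ) ^ 2 / c ≤ N' := by
        rw [hN']
        exact Nat.le_ceil _
      rw [div_le_iff₀ hc] at k1
      calc 16 * (Λ : ℝ) ^ 2 ≤ N' * c := k1
        _ ≤ (N' + 1) * c := mul_le_mul_of_nonneg_right (by linarith) hc.le

/-- mixing with a common error term preserves density bounds -/
theorem Dom.mixture {x y e : Ms M} {r δ : ℝ} (h : Dom x (r • y)) (he : Pos e) (hr : 1 ≤ r)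
    (hδ : 0 ≤ δ) : Dom (δ • x + e) (r • (δ • y + e)) := by
  rw [smul_add, smul_comm r δ y]
  refine (h.smul hδ).add ?_
  have := Dom.smul_right he hr
  rwa [one_smul] at this

theorem Prob.mixture {x e : Ms M} (hx : Prob x) (he : Pos e) (h1 : mass e ≤ 1) :
    Prob ((1 - mass e) • x + e) := by
  refine ⟨(hx.pos.smul (by linarith)).add he, ?_⟩
  rw [mass_add, mass_smul, hx.mass_eq]
  ring

theorem N1.mixture {x e : Ms M} (hx : Prob x) (he : Pos e) :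
    N1 (2 * mass e) ((1 - mass e) • x + e - x) := by
  have h1 := (hx.n1.smul (-(mass e))).add he.n1
  have e1 : (-(mass e)) • x + e = (1 - mass e) • x + e - x := by
    rw [sub_smul, one_smul, neg_smul]; abel
  rw [e1, abs_neg, abs_of_nonneg he.mass_nonneg] at h1
  exact h1.mono (le_of_eq (by ring))

/-- the parts of the padded Thue–Morse difference in the step -/
theorem step_parts (M : Type*) [Monoid M] (K : ℕ) :
    ∃ C : ℝ, 1 ≤ C ∧ ∀ (t t' ν' zl zh : Ms M) (J J' Λ : ℕ) (ρ c a A U ε τ : ℝ) (N Jc : ℕ),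
      Stage t t' ν' zl zh J J' Λ ρ c a A U ε τ →
      1 ≤ N → 1 ≤ Jc → Jc ≤ (J' + 1) * N →
      20 * ((2 * Jc + 2 ^ K : ℕ) : ℝ) * U ≤ 1 →
      (((2 * Jc + 2 ^ K : ℕ) : ℝ)) ^ 2 * ε ≤ U →
      τ ≤ a * U → 2 * a ≤ 1 → A ≤ 1 →
      ∃ ep L h : Ms M,
        t' ^ ((J' + 1) * N) * (TW t' (t' + (zl + zh)) K).1 * t' ^ ((J' + 1) * N) =
          t' ^ (2 * ((J' + 1) * N) + 2 ^ K) + (ep + L + h) ∧
        t' ^ ((J' + 1) * N) * (TW t' (t' + (zl + zh)) K).2 * t' ^ ((J' + 1) * N) =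
          t' ^ ((J' + 1) * N) * (TW t' (t' + (zl + zh)) K).1 * t' ^ ((J' + 1) * N) +
            ((-2 : ℝ) • L + (-2 : ℝ) • h) ∧
        Q (C * A / (N : ℝ) ^ K) L (t' ^ (2 * ((J' + 1) * N) + 2 ^ K)) ∧
        Gd t' (C * A ^ 2) (2 * ((J' + 1) * N) + 2 ^ K) h ∧
        Q (C * a * (1 / √(Jc * (c ^ 2 / 2)) + (Jc + 2 ^ K) * U)) ep
          (t' ^ ((J' + 1) * N - Jc) * ν' ^ (2 * Jc + 2 ^ K) * t' ^ ((J' + 1) * N - Jc)) ∧
        Q (C * a ^ 2 * (1 / √(Jc * (c ^ 2 / 2)) + (Jc + 2 ^ K) * U)) h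
          (t' ^ ((J' + 1) * N - Jc) * ν' ^ (2 * Jc + 2 ^ K) * t' ^ ((J' + 1) * N - Jc)) := by
  obtain ⟨C1, hC1, htm1⟩ := tm_class M K 1 le_rfl
  obtain ⟨C8, hC8, htm8⟩ := tm_class M K 8 (by norm_num)
  obtain ⟨CL, hCL, hlam⟩ := lam_smear M K
  refine ⟨C1 + 2000 * C8 + CL * 32 ^ K, by
    have : 0 ≤ CL * 32 ^ K := by positivity
    linarith, ?_⟩
  intro t t' ν' zl zh J J' Λ ρ c a A U ε τ N Jc st hN hJ hJc h1 h2 h3 h4 h5
  obtain ⟨m, hm⟩ : ∃ m, m = (J' + 1) * N := ⟨_, rfl⟩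
  have ht' := st.t'_prob
  have ha := st.a_nonneg
  have hA := st.A_nonneg
  have hU := st.U_nonneg
  obtain ⟨z, hz⟩ : ∃ z, z = zl + zh := ⟨_, rfl⟩
  obtain ⟨κ, hκ⟩ : ∃ κ : Ms M, κ = (-(1 / 2) : ℝ) • z := ⟨_, rfl⟩
  obtain ⟨η, hη⟩ : ∃ η : Ms M, η = (1 / 2 : ℝ) • z := ⟨_, rfl⟩
  have eX : t' + η + κ = t' := by
    rw [hκ, hη, neg_smul, add_neg_cancel_right]
  have eY : t' + η - κ = t' + z := by
    rw [hκ, hη, neg_smul, sub_neg_eq_add, add_assoc, ← add_smul]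
    norm_num
  have hz0 : mass z = 0 := by
    have e1 := st.p'_prob.mass_eq
    rw [mass_add, ht'.mass_eq, ← hz] at e1
    linarith
  have hκ0 : mass κ = 0 := by rw [hκ, mass_smul, hz0, mul_zero]
  have hη0 : mass η = 0 := by rw [hη, mass_smul, hz0, mul_zero]
  have qz : Q A z t' := by rw [hz]; exact st.hA
  have qκ : Q (A / 4) κ t' := by
    rw [hκ]
    refine (qz.smul_left _).mono ht'.pos (le_of_eq ?_)
    ring
  have qη : Q (A / 4) η t' := by
    rw [hη]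
    refine (qz.smul_left _).mono ht'.pos (le_of_eq ?_)
    ring
  have gκ : Gd t' (A / 4) 1 κ := Gd.letter ht' hκ0 qκ (by positivity)
  have gη : Gd t' (A / 4) 1 η := Gd.letter ht' hη0 qη (by positivity)
  obtain ⟨_, _, _, g4⟩ := htm1 t' κ η (Gd t') (A / 4) (A / 4) (Gd_cls ht' (2 ^ K)) (by positivity)
    (by linarith) (by positivity) (by linarith) gκ gη K le_rfl
  -- the two-level class
  have two : Two t t' ν' J Λ c U ε :=
    ⟨st.lazy, st.hΛ, ht', st.ν'_prob, hU, st.ε_nonneg, st.ε_le.trans (by norm_num), st.hU, st.base⟩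
  have hK1 : (1 : ℝ) ≤ 2 ^ K := one_le_pow₀ (by norm_num)
  have hJ0 : (0 : ℝ) ≤ Jc := Nat.cast_nonneg _
  push_cast at h1 h2
  have hRU : (2 ^ K : ℝ) * U ≤ 1 / 20 := by
    have : (2 ^ K : ℝ) * U ≤ (2 * Jc + 2 ^ K) * U := mul_le_mul_of_nonneg_right (by linarith) hU
    linarith
  have hRε : (2 ^ K : ℝ) ^ 2 * ε ≤ U := by
    refine le_trans (mul_le_mul_of_nonneg_right ?_ st.ε_nonneg) h2
    exact pow_le_pow_left₀ (by positivity) (by linarith) 2
  have hcls := CG_cls two (R := 2 ^ K) Nat.one_le_two_pow (by push_cast; exact hRU)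
    (by push_cast; exact hRε)
  have hδ1 : 20 * ((2 ^ K : ℕ) : ℝ) * U ≤ 1 := by push_cast; linarith
  have hδ0 : 0 ≤ 20 * ((2 ^ K : ℕ) : ℝ) * U := by positivity
  have hl4 : ∀ s : ℝ, s ^ 2 = 1 / 4 →
      CG t ν' Λ (20 * ((2 ^ K : ℕ) : ℝ) * U) (6 * (a / 4)) 1 (s • z) := by
    intro s hs
    rw [hz, smul_add]
    refine CG_letter two st.ε_le (by positivity) hδ0 hδ1 ?_ ?_
    · refine (st.hl.smul_left s).mono st.ν'_prob.pos ?_
      rw [hs]
      push_cast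
      have e1 : a * U ≤ a * (20 * 2 ^ K * U) := by
        apply mul_le_mul_of_nonneg_left _ ha
        have : 1 * U ≤ (20 * 2 ^ K) * U := mul_le_mul_of_nonneg_right (by linarith) hU
        linarith
      linarith
    · refine (st.hh.smul s).mono st.lazy.prob (le_of_eq ?_)
      rw [hs]; ring
  have cκ : CG t ν' Λ (20 * ((2 ^ K : ℕ) : ℝ) * U) (6 * (a / 4)) 1 κ := by
    rw [hκ]; exact hl4 _ (by norm_num)
  have cη : CG t ν' Λ (20 * ((2 ^ K : ℕ) : ℝ) * U) (6 * (a / 4)) 1 η := by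
    rw [hη]; exact hl4 _ (by norm_num)
  obtain ⟨f1, _, _, f4⟩ := htm8 t' κ η (CG t ν' Λ (20 * ((2 ^ K : ℕ) : ℝ) * U)) (6 * (a / 4))
    (6 * (a / 4)) hcls (by positivity) (by linarith) (by positivity) (by linarith) cκ cη K le_rfl
  have hb : max (6 * (a / 4)) ((6 * (a / 4)) ^ 2) = 6 * (a / 4) := by
    apply max_eq_left
    have e1 : 6 * (a / 4) ≤ 1 := by linarith
    have e0 : 0 ≤ 6 * (a / 4) := by positivity
    calc (6 * (a / 4)) ^ 2 = (6 * (a / 4)) * (6 * (a / 4)) := sq _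
      _ ≤ 1 * (6 * (a / 4)) := mul_le_mul_of_nonneg_right e1 e0
      _ = _ := one_mul _
  have hbA : max (A / 4) ((A / 4) ^ 2) = A / 4 := by
    apply max_eq_left
    have e1 : A / 4 ≤ 1 := by linarith
    have e0 : 0 ≤ A / 4 := by positivity
    calc (A / 4) ^ 2 = (A / 4) * (A / 4) := sq _
      _ ≤ 1 * (A / 4) := mul_le_mul_of_nonneg_right e1 e0
      _ = _ := one_mul _
  rw [hb] at f1 f4
  rw [hbA] at g4
  have e1 := TW_fst t' κ η K m
  have e2 := TW_snd t' κ η K m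
  rw [eX, eY] at e1 e2
  rw [← hm, ← hz]
  have hm1 : Jc ≤ m := by rw [hm]; exact hJc
  have c1 := context two (R := 2 ^ K) (Jc := Jc) (m := m) Nat.one_le_two_pow hJ hm1
    (by push_cast; linarith) (by push_cast; exact h2) (by positivity) f1
  have c4 := context two (R := 2 ^ K) (Jc := Jc) (m := m) Nat.one_le_two_pow hJ hm1
    (by push_cast; linarith) (by push_cast; exact h2) (by positivity) f4
  push_cast at c1 c4
  obtain ⟨g, hg⟩ : ∃ g : ℝ, g = 1 / √(Jc * (c ^ 2 / 2)) + (Jc + 2 ^ K) * U := ⟨_, rfl⟩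
  have hg0 : 0 ≤ g := by rw [hg]; positivity
  rw [← hg] at c1 c4 ⊢
  have hHpos : Pos (t' ^ (m - Jc) * ν' ^ (2 * Jc + 2 ^ K) * t' ^ (m - Jc)) :=
    (((ht'.pow _).mul (st.ν'_prob.pow _)).mul (ht'.pow _)).pos
  have hCL0 : 0 ≤ CL * 32 ^ K := by positivity
  refine ⟨_, _, _, e1, e2, ?_, ?_, ?_, ?_⟩
  · rw [hm]
    refine (hlam t' κ (A / 4) (1 / 4) J' N st.lazy' (by positivity) qκ).mono (ht'.pos.pow _) ?_
    refine (lam_div_le hN (by norm_num) (by positivity)).trans ?_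
    apply div_le_div_of_nonneg_right _ (by positivity)
    have e3 : (1 / ((1 / 4 : ℝ) ^ 2 / 2)) ^ K = 32 ^ K := by norm_num
    rw [e3]
    calc CL * (A / 4) * 32 ^ K = (CL * 32 ^ K) * A / 4 := by ring
      _ ≤ (CL * 32 ^ K) * A := by
          have : 0 ≤ (CL * 32 ^ K) * A := by positivity
          linarith
      _ ≤ (C1 + 2000 * C8 + CL * 32 ^ K) * A :=
          mul_le_mul_of_nonneg_right (by linarith) hA
  · refine (g4.pad ht' (by positivity) m).mono ht' ?_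
    calc C1 * (A / 4 * (A / 4)) = C1 * A ^ 2 / 16 := by ring
      _ ≤ C1 * A ^ 2 := by
          have : 0 ≤ C1 * A ^ 2 := by positivity
          linarith
      _ ≤ (C1 + 2000 * C8 + CL * 32 ^ K) * A ^ 2 :=
          mul_le_mul_of_nonneg_right (by linarith) (by positivity)
  · refine c1.mono hHpos ?_
    calc 640 * (C8 * (6 * (a / 4))) * g = 960 * C8 * (a * g) := by ring
      _ ≤ (C1 + 2000 * C8 + CL * 32 ^ K) * (a * g) :=
          mul_le_mul_of_nonneg_right (by linarith) (by positivity)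
      _ = _ := by ring
  · refine c4.mono hHpos ?_
    calc 640 * (C8 * (6 * (a / 4) * (6 * (a / 4)))) * g = 1440 * C8 * (a ^ 2 * g) := by ring
      _ ≤ (C1 + 2000 * C8 + CL * 32 ^ K) * (a ^ 2 * g) :=
          mul_le_mul_of_nonneg_right (by linarith) (by positivity)
      _ = _ := by ring

set_option maxHeartbeats 2000000 in
/-- THE STEP -/
theorem step (M : Type*) [Monoid M] (K q0 : ℕ) (ρ : ℝ) (hρ : 1 ≤ ρ) :
    ∃ C : ℝ, 1 ≤ C ∧ ∀ (t t' ν' zl zh : Ms M) (J J' Λ : ℕ) (c a A U ε τ : ℝ)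
      (N Jc J'' : ℕ) (cs τ'' : ℝ),
      Stage t t' ν' zl zh J J' Λ ρ c a A U ε τ →
      1 ≤ N → 1 ≤ Jc → Jc ≤ (J' + 1) * N → 0 < cs → cs ≤ 1 / 2 →
      C * ((2 * Jc + 2 ^ K : ℕ) : ℝ) * U ≤ 1 →
      (((2 * Jc + 2 ^ K : ℕ) : ℝ)) ^ 2 * ε ≤ U →
      τ ≤ a * U → C * a ≤ 1 → C * A ≤ 1 →
      C * A / (N : ℝ) ^ K ≤ τ'' →
      64 * (((2 * ((J' + 1) * N) + 2 ^ K : ℕ) : ℝ)) * (J' + 1) ≤ J'' →
      64 * ((J'' : ℝ) + 1) *
        (C * (a * (1 / √(Jc * (c ^ 2 / 2)) + (Jc + 2 ^ K) * U) / cs + τ'')) ≤ 1 →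
      64 * ((J'' : ℝ) + 1) * (2 * (2 * cs) ^ (q0 + 1)) ≤ 1 →
      ∃ t'' ν'' zl'' zh'' : Ms M,
        N1 (4 * (2 * cs) ^ (q0 + 1)) (t'' - t' ^ ((J' + 1) * N) *
          (TW t' (t' + (zl + zh)) K).1 * t' ^ ((J' + 1) * N)) ∧
        N1 (4 * (2 * cs) ^ (q0 + 1)) (t'' + (zl'' + zh'') - t' ^ ((J' + 1) * N) *
          (TW t' (t' + (zl + zh)) K).2 * t' ^ ((J' + 1) * N)) ∧
        Stage t' t'' ν'' zl'' zh'' J' J'' (2 * ((J' + 1) * N) + 2 ^ K) (ρ ^ (2 * 2 ^ K)) (1 / 4)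
          (C * A ^ 2)
          (C * (a ^ 2 * (1 / √(Jc * (c ^ 2 / 2)) + (Jc + 2 ^ K) * U) / cs + τ''))
          (C * (a * (1 / √(Jc * (c ^ 2 / 2)) + (Jc + 2 ^ K) * U) / cs + τ''))
          (2 * (2 * cs) ^ (q0 + 1)) τ'' := by
  obtain ⟨CP, hCP, hparts⟩ := step_parts M K
  obtain ⟨CD, hCD, hdom⟩ := domination M q0 ρ hρ
  set R : ℝ := ρ ^ (2 * 2 ^ K) with hR
  have hR1 : 1 ≤ R := one_le_pow₀ hρ
  set C : ℝ := 8 * CP * (R + 1) + 2 * CD + 2 * R + 20 with hC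
  have hCP0 : 0 ≤ 8 * CP * (R + 1) := by positivity
  have hCa : 8 * CP * (R + 1) ≤ C := by linarith
  have hCb : 8 * CP ≤ C := le_trans (le_mul_of_one_le_right (by positivity) (by linarith)) hCa
  have hCc : 2 * CD ≤ C := by linarith
  have hCd : 20 ≤ C := by linarith
  have hCe : 2 * R ≤ C := by linarith
  have hC0 : 1 ≤ C := by linarith
  refine ⟨C, hC0, ?_⟩
  intro t t' ν' zl zh J J' Λ c a A U ε τ N Jc J'' cs τ'' st hN hJ hJc hcs0 hcs h1 h2 h3 h4 h5 h6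
    h7 h8 h9
  have ht' := st.t'_prob
  have ha := st.a_nonneg
  have hA := st.A_nonneg
  have hU := st.U_nonneg
  obtain ⟨m, hm⟩ : ∃ m, m = (J' + 1) * N := ⟨_, rfl⟩
  obtain ⟨n, hn⟩ : ∃ n, n = 2 * Jc + 2 ^ K := ⟨_, rfl⟩
  obtain ⟨Λ', hΛ'⟩ : ∃ Λ', Λ' = 2 * m + 2 ^ K := ⟨_, rfl⟩
  have hnU0 : 0 ≤ (n : ℝ) * U := by positivity
  have h1' : C * ((n : ℝ) * U) ≤ 1 := by rw [← mul_assoc, hn]; exact h1
  have hnU : 20 * (n : ℝ) * U ≤ 1 := by
    have := mul_le_mul_of_nonneg_right hCd hnU0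
    linarith
  have ha2 : 2 * a ≤ 1 := by
    have := mul_le_mul_of_nonneg_right hCd ha
    linarith
  have hA1 : A ≤ 1 := by
    have := mul_le_mul_of_nonneg_right hC0 hA
    linarith
  obtain ⟨ep, L, h, e1, e2, qL, gh, qep, qh⟩ := hparts t t' ν' zl zh J J' Λ ρ c a A U ε τ N Jc st
    hN hJ hJc (by rw [← hn]; exact hnU) h2 h3 ha2 hA1
  obtain ⟨g, hg⟩ : ∃ g : ℝ, g = 1 / √(Jc * (c ^ 2 / 2)) + (Jc + 2 ^ K) * U := ⟨_, rfl⟩
  have hg0 : 0 ≤ g := by rw [hg]; positivity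
  rw [← hg] at qep qh h8
  rw [← hg]
  rw [← hm] at e1 e2 qL gh qep qh h7 hJc
  rw [← hm]
  rw [← hΛ'] at e1 qL gh h7
  rw [← hΛ']
  rw [← hn] at qep qh
  have hτ0 : 0 ≤ τ'' := le_trans (by positivity) h6
  obtain ⟨W1, hW1⟩ : ∃ W1, W1 = (TW t' (t' + (zl + zh)) K).1 := ⟨_, rfl⟩
  obtain ⟨W2, hW2⟩ : ∃ W2, W2 = (TW t' (t' + (zl + zh)) K).2 := ⟨_, rfl⟩
  have hWp := TW_prob ht' st.p'_prob K
  -- ratios
  have hρ0 : 0 ≤ ρ := by linarith
  have hρ2 : 1 ≤ ρ ^ 2 := one_le_pow₀ hρ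
  have dself : Dom t' (ρ ^ 2 • t') := by
    have := Dom.smul_right ht'.pos hρ2
    rwa [one_smul] at this
  have d1 : Dom t' (ρ ^ 2 • (t' + (zl + zh))) := by
    refine st.r2.trans ?_
    rw [sq, mul_smul]
    exact st.r3.smul hρ0
  have d2 : Dom (t' + (zl + zh)) (ρ ^ 2 • t') := by
    refine st.r4.trans ?_
    rw [sq, mul_smul]
    exact st.r1.smul hρ0
  have hWge := TW_dom_ge (sq_nonneg ρ) ht'.pos ht' st.p'_prob dself d1 K
  have hWle := TW_dom_le (sq_nonneg ρ) ht'.pos ht' st.p'_prob dself d2 K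
  rw [← pow_mul, ← hR] at hWge hWle
  rw [← hW1, ← hW2] at hWp hWge hWle e2 ⊢
  rw [← hW1] at e1
  have htm' := ht'.pow m
  have hsum : t' ^ Λ' = t' ^ m * t' ^ (2 ^ K) * t' ^ m := by
    rw [hΛ', ← pow_add, ← pow_add]; congr 1; ring
  -- domination
  obtain ⟨e0, he0, hme0, hde0⟩ := hdom t' ν' U cs n ht' st.ν'_prob st.r1 hU st.hU (by
    have hk := mul_le_mul_of_nonneg_right hCc hnU0
    calc CD * U * n = 2 * CD * (n * U) / 2 := by ring
      _ ≤ 1 / 2 := by linarith) hcs0 hcs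
  obtain ⟨e, he⟩ : ∃ e, e = t' ^ (m - Jc) * e0 * t' ^ (m - Jc) := ⟨_, rfl⟩
  have hpc := ht'.pow (m - Jc)
  have heP : Pos e := by rw [he]; exact (hpc.pos.mul he0).mul hpc.pos
  have hme : mass e = mass e0 := by
    rw [he, mass_mul, mass_mul, hpc.mass_eq]; ring
  obtain ⟨θ, hθ⟩ : ∃ θ : ℝ, θ = (2 * cs) ^ (q0 + 1) := ⟨_, rfl⟩
  rw [← hθ] at hme0 h9 ⊢
  have hmeθ : mass e ≤ 2 * θ := by rw [hme]; exact hme0
  have hme_nn : 0 ≤ mass e := heP.mass_nonneg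
  have hθ1 : 2 * θ ≤ 1 / 64 := by
    have hJ'' : (0 : ℝ) ≤ J'' := Nat.cast_nonneg _
    have hθ0 : 0 ≤ 2 * θ := by linarith
    have : (64 : ℝ) * 1 * (2 * θ) ≤ 64 * (J'' + 1) * (2 * θ) :=
      mul_le_mul_of_nonneg_right (by linarith) hθ0
    linarith
  obtain ⟨δ, hδ⟩ : ∃ δ : ℝ, δ = 1 - mass e := ⟨_, rfl⟩
  have hδ0 : 0 ≤ δ := by linarith
  have hδ1 : δ ≤ 1 := by linarith
  have hδ2 : 1 / 2 ≤ δ := by linarith
  -- the new measures
  have ht0 : Prob (t' ^ m * W1 * t' ^ m) := (htm'.mul hWp.1).mul htm'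
  have hp0 : Prob (t' ^ m * W2 * t' ^ m) := (htm'.mul hWp.2).mul htm'
  have hν0 : Prob (t' ^ Λ') := ht'.pow Λ'
  obtain ⟨t0, ht0e⟩ : ∃ t0, t0 = t' ^ m * W1 * t' ^ m := ⟨_, rfl⟩
  obtain ⟨p0, hp0e⟩ : ∃ p0, p0 = t' ^ m * W2 * t' ^ m := ⟨_, rfl⟩
  have hge1 : Dom (t' ^ Λ') (R • t0) := by
    rw [hsum, ht0e]; exact hWge.1.sand htm'.pos htm'.pos
  have hge2 : Dom (t' ^ Λ') (R • p0) := by
    rw [hsum, hp0e]; exact hWge.2.sand htm'.pos htm'.pos
  have hle1 : Dom t0 (R • t' ^ Λ') := by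
    rw [hsum, ht0e]; exact hWle.1.sand htm'.pos htm'.pos
  have hle2 : Dom p0 (R • t' ^ Λ') := by
    rw [hsum, hp0e]; exact hWle.2.sand htm'.pos htm'.pos
  rw [← ht0e] at ht0 e1 e2 ⊢
  rw [← hp0e] at hp0 e2 ⊢
  have hνP : Prob (δ • t' ^ Λ' + e) := by rw [hδ]; exact hν0.mixture heP (by linarith)
  have htP : Prob (δ • t0 + e) := by rw [hδ]; exact ht0.mixture heP (by linarith)
  have hpP : Prob (δ • p0 + e) := by rw [hδ]; exact hp0.mixture heP (by linarith)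
  -- reference changes
  obtain ⟨H, hH⟩ : ∃ H, H = t' ^ (m - Jc) * ν' ^ n * t' ^ (m - Jc) := ⟨_, rfl⟩
  rw [← hH] at qep qh
  have hHP : Pos H := by rw [hH]; exact ((hpc.mul (st.ν'_prob.pow _)).mul hpc).pos
  have hHν : Dom H ((1 / cs) • (δ • t' ^ Λ' + e)) := by
    have k1 : Dom (cs • H) (δ • t' ^ Λ' + e) := by
      rw [hH]
      refine (hde0.sand' hpc.pos hpc.pos).trans ?_
      have k2 : t' ^ (m - Jc) * ((1 / 2 : ℝ) • t' ^ n + e0) * t' ^ (m - Jc) =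
          (1 / 2 : ℝ) • t' ^ Λ' + e := by
        rw [mul_add, add_mul, mul_smul_comm, smul_mul_assoc, ← pow_add, ← pow_add, ← he]
        have : m - Jc + n + (m - Jc) = Λ' := by omega
        rw [this]
      rw [k2]
      exact (Dom.smul_right hν0.pos hδ2).add (Dom.refl _)
    have k3 := k1.smul (c := 1 / cs) (by positivity)
    rwa [smul_smul, one_div_mul_cancel hcs0.ne', one_smul] at k3
  have hνν : Dom (t' ^ Λ') ((2 : ℝ) • (δ • t' ^ Λ' + e)) := by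
    rw [smul_add, smul_smul]
    refine Dom.trans ?_ (Dom.self_add (heP.smul (by norm_num)))
    have := Dom.smul_right hν0.pos (show (1 : ℝ) ≤ 2 * δ by linarith)
    rwa [one_smul] at this
  -- energies
  have hLτ : 8 * (CP * A / (N : ℝ) ^ K) ≤ τ'' := by
    refine le_trans ?_ h6
    have : 8 * CP * (A / (N : ℝ) ^ K) ≤ C * (A / (N : ℝ) ^ K) :=
      mul_le_mul_of_nonneg_right hCb (by positivity)
    calc 8 * (CP * A / (N : ℝ) ^ K) = 8 * CP * (A / (N : ℝ) ^ K) := by ring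
      _ ≤ C * (A / (N : ℝ) ^ K) := this
      _ = _ := by ring
  have qLν : Q (τ'' / 4) L (δ • t' ^ Λ' + e) := by
    refine (qL.dom_smul (by positivity) hνν).mono hνP.pos ?_
    linarith
  have qepν : Q (CP * a * g / cs) ep (δ • t' ^ Λ' + e) := by
    refine (qep.dom_smul (by positivity) hHν).mono hνP.pos (le_of_eq ?_)
    ring
  have qhν : Q (CP * a ^ 2 * g / cs) h (δ • t' ^ Λ' + e) := by
    refine (qh.dom_smul (by positivity) hHν).mono hνP.pos (le_of_eq ?_)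
    ring
  have hs1 : (-2 * δ) ^ 2 ≤ 4 := by
    have : δ ^ 2 ≤ 1 := pow_le_one₀ hδ0 hδ1
    calc (-2 * δ) ^ 2 = 4 * δ ^ 2 := by ring
      _ ≤ 4 := by linarith
  have qzl : Q τ'' ((-2 * δ) • L) (δ • t' ^ Λ' + e) := by
    refine (qLν.smul_left _).mono hνP.pos ?_
    calc (-2 * δ) ^ 2 * (τ'' / 4) ≤ 4 * (τ'' / 4) :=
          mul_le_mul_of_nonneg_right hs1 (by positivity)
      _ = τ'' := by ring
  have qzh : Q (4 * (CP * a ^ 2 * g / cs)) ((-2 * δ) • h) (δ • t' ^ Λ' + e) := by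
    refine (qhν.smul_left _).mono hνP.pos ?_
    exact mul_le_mul_of_nonneg_right hs1 (by positivity)
  have ezz : δ • p0 + e = δ • t0 + e + ((-2 * δ) • L + (-2 * δ) • h) := by
    rw [e2]
    simp only [smul_add, smul_smul, mul_comm δ (-2)]
    abel
  have hr1 : Dom (δ • t' ^ Λ' + e) (R • (δ • t0 + e)) := hge1.mixture heP hR1 hδ0
  have hUU : Q (C * (a * g / cs + τ'')) (δ • t0 + e - (δ • t' ^ Λ' + e)) (δ • t' ^ Λ' + e) := by
    have k0 : δ • t0 + e - (δ • t' ^ Λ' + e) = δ • (ep + L + h) := by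
      rw [e1, smul_add]; abel
    rw [k0]
    have k1 := (qepν.add' qLν hνP.pos (by positivity) (by positivity)).add' qhν hνP.pos
      (by positivity) (by positivity)
    refine (k1.smul_left δ).mono hνP.pos ?_
    obtain ⟨x, hx⟩ : ∃ x : ℝ, x = CP * a * g / cs := ⟨_, rfl⟩
    have hx0 : 0 ≤ x := by rw [hx]; positivity
    have k2 : CP * a ^ 2 * g / cs ≤ x := by
      rw [hx]
      have k3 : a ^ 2 ≤ a := by
        rw [sq]; exact mul_le_of_le_one_right ha (by linarith)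
      gcongr
    have k4 : C * (a * g / cs + τ'') ≥ 8 * x + 20 * τ'' := by
      have k5 : 8 * CP * (a * g / cs) ≤ C * (a * g / cs) :=
        mul_le_mul_of_nonneg_right hCb (by positivity)
      have k6 : 20 * τ'' ≤ C * τ'' := mul_le_mul_of_nonneg_right hCd hτ0
      have k7 : 8 * CP * (a * g / cs) = 8 * x := by rw [hx]; ring
      rw [mul_add]
      linarith
    rw [← hx]
    have k8 : δ ^ 2 ≤ 1 := pow_le_one₀ hδ0 hδ1
    have k9 : 0 ≤ 2 * (2 * x + 2 * (τ'' / 4)) + 2 * (CP * a ^ 2 * g / cs) := by positivity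
    calc δ ^ 2 * (2 * (2 * x + 2 * (τ'' / 4)) + 2 * (CP * a ^ 2 * g / cs))
        ≤ 1 * (2 * (2 * x + 2 * (τ'' / 4)) + 2 * (CP * a ^ 2 * g / cs)) :=
          mul_le_mul_of_nonneg_right k8 k9
      _ ≤ C * (a * g / cs + τ'') := by linarith
  have hbase : Dom ((1 - 2 * θ) • t' ^ Λ') (δ • t' ^ Λ' + e) :=
    (Dom.smul_right hν0.pos (by linarith)).trans (Dom.self_add heP)
  refine ⟨δ • t0 + e, δ • t' ^ Λ' + e, (-2 * δ) • L, (-2 * δ) • h, ?_, ?_, ?_⟩
  · rw [hδ]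
    exact (N1.mixture ht0 heP).mono (by linarith)
  · rw [← ezz, hδ]
    exact (N1.mixture hp0 heP).mono (by linarith)
  refine
    { lazy := st.lazy'
      hΛ := ?_
      t'_prob := htP
      ν'_prob := hνP
      p'_prob := by rw [← ezz]; exact hpP
      one_le_ρ := hR1
      r1 := hr1
      r2 := hle1.mixture heP hR1 hδ0
      r3 := by rw [← ezz]; exact hge2.mixture heP hR1 hδ0
      r4 := by rw [← ezz]; exact hle2.mixture heP hR1 hδ0
      a_nonneg := by positivity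
      A_nonneg := by positivity
      U_nonneg := by positivity
      ε_nonneg := by linarith
      τ_nonneg := hτ0
      ε_le := by linarith
      base := hbase
      hU := hUU
      hl := qzl
      hh := ?_
      hA := ?_
      lazy' := ?_ }
  · rw [hΛ', hm]
    have k1 := Nat.le_mul_of_pos_right (J' + 1) hN
    linarith [Nat.zero_le (2 ^ K)]
  · refine (gh.smul _).mono ht' ?_
    have k1 : 0 ≤ CP * A ^ 2 := by positivity
    calc (-2 * δ) ^ 2 * (CP * A ^ 2) ≤ 4 * (CP * A ^ 2) := mul_le_mul_of_nonneg_right hs1 k1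
      _ ≤ 8 * CP * A ^ 2 := by linarith
      _ ≤ C * A ^ 2 := mul_le_mul_of_nonneg_right hCb (by positivity)
  · have k1 := (qzl.add' qzh hνP.pos hτ0 (by positivity)).dom_smul (by positivity) hr1
    refine k1.mono htP.pos ?_
    have k2 : 2 * R * τ'' ≤ C * τ'' := mul_le_mul_of_nonneg_right hCe hτ0
    have k3 : 8 * CP * R * (a ^ 2 * g / cs) ≤ C * (a ^ 2 * g / cs) := by
      apply mul_le_mul_of_nonneg_right _ (by positivity)
      have : 8 * CP * R ≤ 8 * CP * (R + 1) := mul_le_mul_of_nonneg_left (by linarith) (by positivity)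
      linarith
    calc R * (2 * τ'' + 2 * (4 * (CP * a ^ 2 * g / cs)))
        = 2 * R * τ'' + 8 * CP * R * (a ^ 2 * g / cs) := by ring
      _ ≤ C * (a ^ 2 * g / cs + τ'') := by rw [mul_add]; linarith
  · refine lazy_up (N := 64 * Λ' ^ 2) (L := Λ') st.lazy' htP hνP (by positivity) hUU (by linarith)
      (by linarith) hbase ?_ ?_ h8 (by linarith)
    · have k1 : 64 * Λ' * (J' + 1) ≤ J'' := by exact_mod_cast h7
      calc (J' + 1) * (64 * Λ' ^ 2) = Λ' * (64 * Λ' * (J' + 1)) := by ring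
        _ ≤ Λ' * J'' := Nat.mul_le_mul_left _ k1
    · push_cast
      have k2 : 0 ≤ (Λ' : ℝ) ^ 2 := sq_nonneg _
      linarith

end Vale.Agent.P321S
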