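import Vale.Agent.Lib.P321S.Good

/-! Module TM (section 4 of docs P321): Thue–Morse recursion. -/

namespace Vale.Agent.P321S

open Finset

variable {M : Type*} [Monoid M]

/-- even and odd parts -/
noncomputable def EO (E O : Ms M) : ℕ → Ms M × Ms M
  | 0 => (E, O)
  | i + 1 => ((EO E O i).1 ^ 2 - (EO E O i).2 ^ 2,
      (EO E O i).2 * (EO E O i).1 - (EO E O i).1 * (EO E O i).2)

/-- Thue–Morse words in `X`, `Y` -/
noncomputable def TW (X Y : Ms M) : ℕ → Ms M × Ms M
  | 0 => (X, Y)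
  | i + 1 => ((TW X Y i).1 * (TW X Y i).2, (TW X Y i).2 * (TW X Y i).1)

theorem TW_eq (E O : Ms M) (i : ℕ) :
    TW (E + O) (E - O) i = ((EO E O i).1 + (EO E O i).2, (EO E O i).1 - (EO E O i).2) := by
  induction i with
  | zero => rfl
  | succ i ih =>
    rw [TW, ih, EO]
    refine Prod.ext ?_ ?_
    · simp only
      noncomm_ring
    · simp only
      noncomm_ring

/-- linear part of the odd part -/
noncomputable def lam (t κ : Ms M) : ℕ → Ms M
  | 0 => κ
  | i + 1 => lam t κ i * t ^ (2 ^ i) - t ^ (2 ^ i) * lam t κ i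

/-- an abstract class of elements with an energy and a length -/
structure Cls (t : Ms M) (R : ℕ) (c : ℝ) (G : ℝ → ℕ → Ms M → Prop) : Prop where
  zero : ∀ a n, 0 ≤ a → G a n 0
  mono : ∀ a b n X, 0 ≤ a → a ≤ b → G a n X → G b n X
  right : ∀ a n k X, 0 ≤ a → n + k ≤ R → G a n X → G (c * a) (n + k) (X * t ^ k)
  left : ∀ a n k X, 0 ≤ a → k + n ≤ R → G a n X → G (c * a) (k + n) (t ^ k * X)
  mul : ∀ a b n k X Y, 0 ≤ a → 0 ≤ b → n + k ≤ R → G a n X → G b k Y →
    G (c * (a * b)) (n + k) (X * Y)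
  add : ∀ a b n X Y, 0 ≤ a → 0 ≤ b → G a n X → G b n Y → G (2 * a + 2 * b) n (X + Y)
  neg : ∀ a n X, G a n X → G a n (-X)

theorem Gd_cls {t : Ms M} (ht : Prob t) (R : ℕ) : Cls t R 1 (Gd t) where
  zero a n ha := Gd.zero ht ha n
  mono a b n X _ hab h := h.mono ht hab
  right a n k X ha _ h := by
    have := h.right ht ha zero_le_one (ht.q_pow k)
    rwa [mul_one, ← one_mul a] at this
  left a n k X ha _ h := by
    have := h.left ht ha k
    rwa [← one_mul a] at this
  mul a b n k X Y ha hb _ h h' := by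
    have := h.right ht ha hb h'.toQ
    rwa [← one_mul (a * b)] at this
  add a b n X Y ha hb h h' := h.add h' ht ha hb
  neg a n X h := by
    have := h.smul (-1)
    simpa using this

/-- the constants of the recursion -/
noncomputable def tmC (c : ℝ) : ℕ → ℝ
  | 0 => 1
  | i + 1 => 32 * c * tmC c i ^ 2

theorem tmC_one_le {c : ℝ} (hc : 1 ≤ c) (i : ℕ) : 1 ≤ tmC c i := by
  induction i with
  | zero => exact le_refl _
  | succ i ih =>
    rw [tmC]
    nlinarith [mul_nonneg (sub_nonneg.2 hc) (sq_nonneg (tmC c i))]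

theorem tmC_mono {c : ℝ} (hc : 1 ≤ c) {i j : ℕ} (hij : i ≤ j) : tmC c i ≤ tmC c j := by
  induction hij with
  | refl => exact le_refl _
  | step _ ih =>
    refine ih.trans ?_
    rename_i k _
    rw [tmC]
    have := tmC_one_le hc k
    nlinarith [mul_nonneg (sub_nonneg.2 hc) (sq_nonneg (tmC c k))]

section four

variable {t : Ms M} {R : ℕ} {c : ℝ} {G : ℝ → ℕ → Ms M → Prop}

theorem Cls.add2 (hG : Cls t R c G) {a b d : ℝ} {n : ℕ} {X Y : Ms M} (ha : 0 ≤ a) (hb : 0 ≤ b)
    (h : G a n X) (h' : G b n Y) (hd : 2 * a + 2 * b ≤ d) : G d n (X + Y) :=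
  hG.mono _ _ _ _ (by positivity) hd (hG.add _ _ _ _ _ ha hb h h')

theorem Cls.sub2 (hG : Cls t R c G) {a b d : ℝ} {n : ℕ} {X Y : Ms M} (ha : 0 ≤ a) (hb : 0 ≤ b)
    (h : G a n X) (h' : G b n Y) (hd : 2 * a + 2 * b ≤ d) : G d n (X - Y) := by
  rw [sub_eq_add_neg]
  exact hG.add2 ha hb h (hG.neg _ _ _ h') hd

/-- four terms of energy at most `e` -/
theorem Cls.four (hG : Cls t R c G) {e d : ℝ} {n : ℕ} {X Y Z W : Ms M} (he : 0 ≤ e)
    (h1 : G e n X) (h2 : G e n Y) (h3 : G e n Z) (h4 : G e n W) (hd : 16 * e ≤ d) :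
    G d n ((X + Y) + (Z + W)) := by
  have k1 : G (4 * e) n (X + Y) := hG.add2 he he h1 h2 (by linarith)
  have k2 : G (4 * e) n (Z + W) := hG.add2 he he h3 h4 (by linarith)
  exact hG.add2 (by positivity) (by positivity) k1 k2 (by linarith)

end four

/-- LEMMA 4 -/
theorem tm_class (M : Type*) [Monoid M] (K : ℕ) (c : ℝ) (hc : 1 ≤ c) :
    ∃ C : ℝ, 1 ≤ C ∧ ∀ (t κ η : Ms M) (G : ℝ → ℕ → Ms M → Prop) (aκ aη : ℝ),
      Cls t (2 ^ K) c G → 0 ≤ aκ → aκ ≤ 1 → 0 ≤ aη → aη ≤ 1 → G aκ 1 κ → G aη 1 η →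
      ∀ i ≤ K,
        G (C * max aη (aκ ^ 2)) (2 ^ i) ((EO (t + η) κ i).1 - t ^ (2 ^ i)) ∧
        G (C * aκ) (2 ^ i) ((EO (t + η) κ i).2) ∧
        G (C * aκ) (2 ^ i) (lam t κ i) ∧
        G (C * (aκ * max aη (aκ ^ 2))) (2 ^ i) ((EO (t + η) κ i).2 - lam t κ i) := by
  refine ⟨tmC c K, tmC_one_le hc K, ?_⟩
  intro t κ η G aκ aη hG hk0 hk1 he0 he1 hκ hη
  obtain ⟨aE, haE⟩ : ∃ aE, aE = max aη (aκ ^ 2) := ⟨_, rfl⟩
  have hE0 : 0 ≤ aE := by rw [haE]; exact le_max_of_le_left he0
  have hE1 : aE ≤ 1 := by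
    rw [haE]
    exact max_le he1 (by nlinarith)
  have hEk : aκ ^ 2 ≤ aE := by rw [haE]; exact le_max_right _ _
  have hEe : aη ≤ aE := by rw [haE]; exact le_max_left _ _
  rw [← haE]
  have main : ∀ i ≤ K,
        G (tmC c i * aE) (2 ^ i) ((EO (t + η) κ i).1 - t ^ (2 ^ i)) ∧
        G (tmC c i * aκ) (2 ^ i) ((EO (t + η) κ i).2) ∧
        G (tmC c i * aκ) (2 ^ i) (lam t κ i) ∧
        G (tmC c i * (aκ * aE)) (2 ^ i) ((EO (t + η) κ i).2 - lam t κ i) := by
    intro i
    induction i with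
    | zero =>
      intro _
      simp only [EO, lam, tmC, pow_zero, pow_one, one_mul, sub_self, add_sub_cancel_left]
      exact ⟨hG.mono _ _ _ _ he0 hEe hη, hκ, hκ, hG.zero _ _ (by positivity)⟩
    | succ i ih =>
      intro hi
      obtain ⟨g1, g2, g3, g4⟩ := ih (by omega)
      have hR : 2 ^ i + 2 ^ i ≤ 2 ^ K := by
        rw [← two_mul, ← pow_succ']
        exact Nat.pow_le_pow_right (by norm_num) hi
      have hn : 2 ^ (i + 1) = 2 ^ i + 2 ^ i := by ring
      set n := 2 ^ i with hndef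
      set Ci := tmC c i with hCi
      have hC1 : 1 ≤ Ci := tmC_one_le hc i
      have hC0 : 0 ≤ Ci := by linarith
      have hc0 : 0 ≤ c := by linarith
      have hCC : Ci ≤ Ci ^ 2 := by nlinarith
      rw [hn]
      simp only [EO, lam, tmC]
      rw [← hCi]
      set E := (EO (t + η) κ i).1 with hE
      set O := (EO (t + η) κ i).2 with hO
      set L := lam t κ i with hL
      set ep := E - t ^ n with hep
      set h := O - L with hh
      -- energies
      have s1 : 0 ≤ Ci * aE := by positivity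
      have s2 : 0 ≤ Ci * aκ := by positivity
      have s4 : 0 ≤ Ci * (aκ * aE) := by positivity
      -- common bounds
      have b1 : c * (Ci * aE) ≤ 2 * c * Ci ^ 2 * aE := by
        have : 0 ≤ c * (Ci ^ 2 - Ci) * aE + c * Ci ^ 2 * aE := by
          have := mul_nonneg (mul_nonneg hc0 (sub_nonneg.2 hCC)) hE0
          positivity
        nlinarith
      refine ⟨?_, ?_, ?_, ?_⟩
      · -- `ep`
        have e : E ^ 2 - O ^ 2 - t ^ (n + n) = (ep * t ^ n + t ^ n * ep) + (ep * ep + -(O * O)) := by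
          rw [hep, pow_add]
          noncomm_ring
        rw [e]
        have k1 := hG.right _ n n _ s1 hR g1
        have k2 := hG.left _ n n _ s1 hR g1
        have k3 := hG.mul _ _ n n _ _ s1 s1 hR g1 g1
        have k4 := hG.neg _ _ _ (hG.mul _ _ n n _ _ s2 s2 hR g2 g2)
        have l3 : c * (Ci * aE * (Ci * aE)) ≤ 2 * c * Ci ^ 2 * aE := by
          have : 0 ≤ c * Ci ^ 2 * aE * (1 - aE) := by
            have := sub_nonneg.2 hE1
            positivity
          have : 0 ≤ c * Ci ^ 2 * aE := by positivity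
          nlinarith
        have l4 : c * (Ci * aκ * (Ci * aκ)) ≤ 2 * c * Ci ^ 2 * aE := by
          have : 0 ≤ c * Ci ^ 2 * (aE - aκ ^ 2) := by
            have := sub_nonneg.2 hEk
            positivity
          have : 0 ≤ c * Ci ^ 2 * aE := by positivity
          nlinarith
        exact hG.four (e := 2 * c * Ci ^ 2 * aE) (by positivity)
          (hG.mono _ _ _ _ (by positivity) b1 k1) (hG.mono _ _ _ _ (by positivity) b1 k2)
          (hG.mono _ _ _ _ (by positivity) l3 k3) (hG.mono _ _ _ _ (by positivity) l4 k4)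
          (by nlinarith [mul_nonneg (mul_nonneg hc0 (sq_nonneg Ci)) hE0])
      · -- `O`
        have e : O * E - E * O = (O * t ^ n + -(t ^ n * O)) + (O * ep + -(ep * O)) := by
          rw [hep]
          noncomm_ring
        rw [e]
        have k1 := hG.right _ n n _ s2 hR g2
        have k2 := hG.neg _ _ _ (hG.left _ n n _ s2 hR g2)
        have k3 := hG.mul _ _ n n _ _ s2 s1 hR g2 g1
        have k4 := hG.neg _ _ _ (hG.mul _ _ n n _ _ s1 s2 hR g1 g2)
        have l1 : c * (Ci * aκ) ≤ 2 * c * Ci ^ 2 * aκ := by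
          have : 0 ≤ c * (Ci ^ 2 - Ci) * aκ + c * Ci ^ 2 * aκ := by
            have := mul_nonneg (mul_nonneg hc0 (sub_nonneg.2 hCC)) hk0
            positivity
          nlinarith
        have l3 : c * (Ci * aκ * (Ci * aE)) ≤ 2 * c * Ci ^ 2 * aκ := by
          have : 0 ≤ c * Ci ^ 2 * aκ * (1 - aE) := by
            have := sub_nonneg.2 hE1
            positivity
          have : 0 ≤ c * Ci ^ 2 * aκ := by positivity
          nlinarith
        have l4 : c * (Ci * aE * (Ci * aκ)) ≤ 2 * c * Ci ^ 2 * aκ := by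
          rw [mul_comm (Ci * aE)]; exact l3
        exact hG.four (e := 2 * c * Ci ^ 2 * aκ) (by positivity)
          (hG.mono _ _ _ _ (by positivity) l1 k1) (hG.mono _ _ _ _ (by positivity) l1 k2)
          (hG.mono _ _ _ _ (by positivity) l3 k3) (hG.mono _ _ _ _ (by positivity) l4 k4)
          (by nlinarith [mul_nonneg (mul_nonneg hc0 (sq_nonneg Ci)) hk0])
      · -- `lam`
        have k1 := hG.right _ n n _ s2 hR g3
        have k2 := hG.left _ n n _ s2 hR g3
        refine hG.sub2 (by positivity) (by positivity) k1 k2 ?_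
        have : 0 ≤ c * (Ci ^ 2 - Ci) * aκ := mul_nonneg (mul_nonneg hc0 (sub_nonneg.2 hCC)) hk0
        have : 0 ≤ c * Ci ^ 2 * aκ := by positivity
        nlinarith
      · -- `h`
        have e : O * E - E * O - (L * t ^ n - t ^ n * L) =
            (h * t ^ n + -(t ^ n * h)) + (O * ep + -(ep * O)) := by
          rw [hep, hh]
          noncomm_ring
        rw [e]
        have k1 := hG.right _ n n _ s4 hR g4
        have k2 := hG.neg _ _ _ (hG.left _ n n _ s4 hR g4)
        have k3 := hG.mul _ _ n n _ _ s2 s1 hR g2 g1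
        have k4 := hG.neg _ _ _ (hG.mul _ _ n n _ _ s1 s2 hR g1 g2)
        have hke : 0 ≤ aκ * aE := by positivity
        have l1 : c * (Ci * (aκ * aE)) ≤ 2 * c * Ci ^ 2 * (aκ * aE) := by
          have : 0 ≤ c * (Ci ^ 2 - Ci) * (aκ * aE) + c * Ci ^ 2 * (aκ * aE) := by
            have := mul_nonneg (mul_nonneg hc0 (sub_nonneg.2 hCC)) hke
            positivity
          nlinarith
        have l3 : c * (Ci * aκ * (Ci * aE)) ≤ 2 * c * Ci ^ 2 * (aκ * aE) := by
          have : 0 ≤ c * Ci ^ 2 * (aκ * aE) := by positivity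
          nlinarith
        have l4 : c * (Ci * aE * (Ci * aκ)) ≤ 2 * c * Ci ^ 2 * (aκ * aE) := by
          rw [mul_comm (Ci * aE)]; exact l3
        exact hG.four (e := 2 * c * Ci ^ 2 * (aκ * aE)) (by positivity)
          (hG.mono _ _ _ _ (by positivity) l1 k1) (hG.mono _ _ _ _ (by positivity) l1 k2)
          (hG.mono _ _ _ _ (by positivity) l3 k3) (hG.mono _ _ _ _ (by positivity) l4 k4)
          (by nlinarith [mul_nonneg (mul_nonneg hc0 (sq_nonneg Ci)) hke])
  intro i hi
  obtain ⟨g1, g2, g3, g4⟩ := main i hi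
  have hm := tmC_mono hc hi
  have hC0 : 0 ≤ tmC c i := by linarith [tmC_one_le hc i]
  exact ⟨hG.mono _ _ _ _ (by positivity) (mul_le_mul_of_nonneg_right hm hE0) g1,
    hG.mono _ _ _ _ (by positivity) (mul_le_mul_of_nonneg_right hm hk0) g2,
    hG.mono _ _ _ _ (by positivity) (mul_le_mul_of_nonneg_right hm hk0) g3,
    hG.mono _ _ _ _ (by positivity) (mul_le_mul_of_nonneg_right hm (by positivity)) g4⟩

end Vale.Agent.P321S
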